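import Vale.Agent.P280Z.Al.Defs

/-!
# P280Z, block Al: the rules for the push forward
-/

namespace Vale.Agent.P280Z.Al

namespace Elr

theorem dg_pow {A : Type} [CommRing A] [Algebra ℝ A] {G : GA A} {n : ℕ} (h : G.OK n) {a : A}
    (ha : G.Dg 1 a) (k : ℕ) : G.Dg k (a ^ k) := by
  induction k with
  | zero => rw [pow_zero]; exact h.dg_one
  | succ k ih => rw [pow_succ]; exact h.dg_mul _ _ _ _ ih ha

end Elr

theorem elr : ELR := by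
  intro A B _ _ _ _ S h L
  have dl : ∀ k x, S.GU.Dg (k + 3) x → S.GX.Dg k (S.el x) := fun k x hx =>
    (h.el_pr k x).trans (congrArg _ hx)
  have lo : ∀ k x, k < 3 → S.GU.Dg k x → S.el x = 0 := fun k x hk hx => by
    rw [← h.gx.pr_sum (S.el x)]
    refine Finset.sum_eq_zero fun j _ => ?_
    rw [h.el_pr, ← show _ = x from hx, h.gu.pr_pr, if_neg (by omega), map_zero]
  refine ⟨⟨dl, lo, fun k a hk ha => ha.symm.trans (h.gx.pr_zero k a hk), fun a ha => ?_,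
    fun a ha => ?_⟩, fun h0 => ?_⟩
  · obtain ⟨b, hb, rfl⟩ := (h.hl 1 4 rfl).2 a ha
    obtain ⟨c, rfl⟩ := h.b2 b hb
    exact ⟨c, by rw [mul_smul_comm, ← pow_succ]⟩
  · obtain ⟨b, hb, rfl⟩ := (h.hl 0 6 rfl).2 a ha
    obtain ⟨c, rfl⟩ := h.h0 b hb
    exact ⟨c, by rw [mul_comm, Algebra.smul_def]⟩
  obtain ⟨D, D0, hD⟩ := h.D
  obtain ⟨c, hc⟩ := h.b2 (S.Sg (S.η ^ 5))
    (dl 1 _ (L.dT 4 _ (L.de 5 _ (Elr.dg_pow h.gx h.dη 5))))
  rw [hc, mul_smul_comm, ← pow_succ, map_smul, smul_eq_mul] at h0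
  refine ⟨D, c / D, D0, div_nonneg (nonneg_of_mul_nonneg_left h0 h.vol) D0.le, hD, ?_,
    by rw [hc, div_mul_cancel₀ _ D0.ne']⟩
  have d1 : S.GU.Dg 1 S.hh := L.de 1 _ h.dη
  have e : S.T (S.es (S.η ^ 4)) = (-S.τ) ^ 3 +
      (4 • (S.hh * S.hh) - 6 • (S.hh * S.τ) + 4 • (S.τ * S.τ)) * S.es S.η := by
    rw [map_pow]
    refine (L.pow 3).trans ?_
    simp only [NS.H, Hn, NS.aa, NS.ee, NS.hc, NS.hh]
    ring
  rw [NS.Sg, e, map_add, hD, h.proj, map_add, map_sub, map_nsmul, map_nsmul, map_nsmul,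
    lo 2 _ (by norm_num) (h.gu.dg_mul 1 1 _ _ d1 d1),
    lo 2 _ (by norm_num) (h.gu.dg_mul 1 1 _ _ d1 h.dτ),
    lo 2 _ (by norm_num) (h.gu.dg_mul 1 1 _ _ h.dτ h.dτ)]
  simp

end Vale.Agent.P280Z.Al
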