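import Vale.Agent.P280Z.Al.Defs

/-!
# P280Z, block Al: the rules for the operator `T`
-/

noncomputable section

namespace Vale.Agent.P280Z.Al

namespace LeiH
variable {A B : Type} [CommRing A] [Algebra ℝ A] [CommRing B] [Algebra ℝ B] {S : NS A B} {n r : ℕ}

theorem half {x y : B} (h : 2 * x = 2 * y) : x = y := by
  have e : ∀ z : B, z = (2 : ℝ)⁻¹ • (2 * z) := fun z => by
    rw [two_mul, ← two_smul ℝ z, smul_smul, inv_mul_cancel₀ two_ne_zero, one_smul]
  rw [e x, e y, h]

theorem lh (h : S.OK0 n r) (b : B) : S.τ * S.T b + S.T (S.τ * b) = 2 * b := by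
  rw [h.lh, two_smul, two_mul]

theorem T2 (x : B) : S.T (2 * x) = 2 * S.T x := by rw [two_mul, two_mul, map_add]

theorem d0 (h : S.OK0 n r) (x : B) (hx : S.GU.Dg 0 x) : S.T x = 0 := by
  rw [← h.gu.pr_sum (S.T x)]
  refine Finset.sum_eq_zero fun k _ => ?_
  rw [h.T_pr, ← hx, h.gu.pr_pr, if_neg (Nat.succ_ne_zero k), map_zero]

theorem one (h : S.OK0 n r) : S.T 1 = 0 := d0 h 1 h.gu.dg_one

theorem TT (h : S.OK0 n r) (x : B) : S.T (S.T x) = 0 := by
  have := h.T_mul 1 x
  rwa [one_mul, one h, zero_mul] at this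

theorem ker (h : S.OK0 n r) (a x : B) (ha : S.T a = 0) : S.T (a * x) = a * S.T x := by
  have e := lh h a
  rw [ha, mul_zero, zero_add] at e
  apply half
  rw [← T2, show 2 * (a * x) = x * S.T (S.τ * a) by rw [e]; ring, h.T_mul, e]
  ring

theorem tt (h : S.OK0 n r) : S.T (S.τ * S.τ) = 0 := by
  have e := lh h S.τ
  rw [h.Tτ] at e
  linear_combination e

theorem mul (h : S.OK0 n r) (x y : B) :
    S.T (x * y) = S.T x * y + x * S.T y - S.τ * S.T x * S.T y := by
  have ex := lh h x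
  have ey := lh h y
  have k1 : S.T (S.T x * S.T y) = 0 := by rw [h.T_mul, TT h, zero_mul]
  have e : 2 * (2 * (x * y)) = S.T x * S.T y * (S.τ * S.τ) + S.T x * (S.T (S.τ * y) * S.τ) +
      S.T (S.τ * x) * (S.T y * S.τ) + S.T (S.τ * x) * S.T (S.τ * y) := by
    linear_combination (-2 * y) * ex - (S.τ * S.T x + S.T (S.τ * x)) * ey
  apply half
  apply half
  rw [← T2, ← T2, e, map_add, map_add, map_add, ker h _ _ k1, tt h, ker h _ _ (TT h _),
    ker h _ _ (TT h _), ker h _ _ (TT h _), ker h _ _ (TT h _), ker h _ _ (TT h _), TT h, h.Tτ]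
  linear_combination (2 * S.T x) * ey + (2 * S.T y) * ex

theorem th (h : S.OK0 n r) : S.T S.hh = 1 := h.Tη

theorem aa (h : S.OK0 n r) : S.T S.aa = 0 := by
  rw [NS.aa, NS.hc, map_add, map_sub, th h, h.Tτ]
  ring

theorem ee (h : S.OK0 n r) : S.T S.ee = 0 := by
  rw [NS.ee, mul h, NS.hc, map_sub, th h, h.Tτ]
  ring

theorem pw (h : S.OK0 n r) : ∀ k, S.T (S.hh ^ (k + 1)) = S.H k ∧ S.T (S.hh ^ (k + 2)) = S.H (k + 1)
  | 0 => ⟨by rw [zero_add, pow_one, th h]; rfl, by
      rw [zero_add, pow_two, mul h, th h]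
      change _ = S.aa
      rw [NS.aa, NS.hc]
      ring⟩
  | k + 1 => ⟨(pw h k).2, by
      have e : S.hh ^ (k + 1 + 2) = S.aa * S.hh ^ (k + 2) - S.ee * S.hh ^ (k + 1) := by
        rw [NS.aa, NS.ee]
        ring
      rw [e, map_sub, ker h _ _ (aa h), ker h _ _ (ee h), (pw h k).1, (pw h k).2]
      rfl⟩

theorem int (h : S.OK0 n r) (x : B) : S.GU.int x = S.GU.int (S.hh * S.T x) := by
  have e := h.T_int S.hh (S.T x)
  have e0 : ∀ z, S.GU.int (S.T z) = 0 := fun z => by
    have := h.T_int z 1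
    rwa [mul_one, one h, mul_zero, map_zero] at this
  have k : S.T (x - S.hh * S.T x) = 0 := by
    rw [map_sub, h.T_mul, th h, one_mul, sub_self]
  have e1 := lh h (x - S.hh * S.T x)
  rw [k, mul_zero, zero_add] at e1
  have e2 := e0 (S.τ * (x - S.hh * S.T x))
  rw [e1, two_mul, map_add, map_sub] at e2
  linarith

end LeiH

open LeiH in
/-- row LEI -/
theorem lei : LEI := fun S _ _ h =>
  { one := one h
    TT := TT h
    ker := ker h
    mul := mul h
    aa := aa h
    ee := ee h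
    pow := fun k => (pw h k).1
    int := int h
    dT := fun k x hx => by rw [GA.Dg, h.T_pr, hx]
    d0 := d0 h
    de := fun k a ha => by rw [GA.Dg, ← h.es_pr, ha] }

end Vale.Agent.P280Z.Al
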