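import Vale.Agent.P280Z.Al.Defs

/-!
# P280Z, block Al: the relations between the power sums (row CHN)
-/

open Finset
open Vale.Agent.P231.ChW (NewtonRec)

noncomputable section

namespace Vale.Agent.P280Z.Al

namespace Cn

variable {B : Type} [CommRing B]

/-- the binomial transform -/
def bt (w : B) (s : ℕ → B) (k : ℕ) : B :=
  ∑ j ∈ range (k + 1), (k.choose j : B) * (s j * w ^ (k - j))

theorem bt_zero (w : B) (s : ℕ → B) : bt w s 0 = s 0 := by simp [bt]

theorem bt_succ (w : B) (s : ℕ → B) (k : ℕ) :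
    bt w s (k + 1) = w * bt w s k + bt w (fun j => s (j + 1)) k := by
  rw [bt, sum_choose_succ_mul (fun i m => s i * w ^ m) k, bt, bt, mul_sum]
  congr 1
  refine sum_congr rfl fun i hi => ?_
  rw [show k + 1 - i = k - i + 1 by have := mem_range.1 hi; omega, pow_succ]
  ring

theorem bt_lin (w a b c : B) (s s' s'' : ℕ → B) (k : ℕ) :
    bt w (fun j => a * s j + b * s' j + c * s'' j) k =
      a * bt w s k + b * bt w s' k + c * bt w s'' k := by
  simp only [bt, mul_sum, ← sum_add_distrib]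
  exact sum_congr rfl fun i _ => by ring

theorem bt_bt (a b : B) (k : ℕ) : ∀ s : ℕ → B, bt a (bt b s) k = bt (a + b) s k := by
  induction k with
  | zero => intro s; rw [bt_zero, bt_zero, bt_zero]
  | succ k ih =>
    intro s
    have h : (fun j => bt b s (j + 1)) =
        fun j => b * bt b s j + 1 * bt b (fun j => s (j + 1)) j + 0 * s j :=
      funext fun j => by rw [bt_succ]; ring
    rw [bt_succ, h, bt_lin, ih, ih, bt_succ]
    ring

theorem bt_id (k : ℕ) : ∀ s : ℕ → B, bt 0 s k = s k := by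
  induction k with
  | zero => intro s; rw [bt_zero]
  | succ k ih => intro s; rw [bt_succ, ih, ih, zero_mul, zero_add]

theorem bt_rec (w e1 e2 e3 : B) {s : ℕ → B}
    (h : ∀ j, s (j + 3) = e1 * s (j + 2) - e2 * s (j + 1) + e3 * s j) (k : ℕ) :
    bt w s (k + 3) = (e1 + 3 * w) * bt w s (k + 2) -
      (e2 + 2 * w * e1 + 3 * w ^ 2) * bt w s (k + 1) +
      (e3 + w * e2 + w ^ 2 * e1 + w ^ 3) * bt w s k := by
  have h3 : bt w (fun j => s (j + 1 + 1 + 1)) k = e1 * bt w (fun j => s (j + 1 + 1)) k +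
      (-e2) * bt w (fun j => s (j + 1)) k + e3 * bt w s k := by
    rw [← bt_lin]
    exact congrArg (bt w · k) (funext fun j => (h j).trans (by ring))
  simp only [bt_succ w _ (k + 2), bt_succ w _ (k + 1), bt_succ w _ k, h3]
  ring

variable [Algebra ℝ B]

/-- the solution of the recursion of Newton -/
def ne (s : ℕ → B) : ℕ → B
  | 0 => 1
  | (j + 1) => ((j : ℝ) + 1)⁻¹ • ∑ i : Fin (j + 1), (-1 : ℝ) ^ (i : ℕ) • (s (i + 1) * ne s (j - i))
  decreasing_by exact Nat.lt_succ_of_le (Nat.sub_le _ _)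

theorem ne_spec (s : ℕ → B) : NewtonRec ℝ s (ne s) := by
  refine ⟨by rw [ne], fun j => ?_⟩
  have hj : ((j : ℝ) + 1) ≠ 0 := Nat.cast_add_one_ne_zero j
  rw [ne, smul_smul, mul_inv_cancel₀ hj, one_smul, ← Fin.sum_univ_eq_sum_range
    (fun i => (-1 : ℝ) ^ i • (s (i + 1) * ne s (j - i))) (j + 1)]

theorem newton3 {s e : ℕ → B} (h : NewtonRec ℝ s e) (h0 : s 0 = 3) (hz : ∀ j, 3 < j → e j = 0) :
    s 1 = e 1 ∧ s 2 = e 1 * s 1 - 2 * e 2 ∧
      ∀ j, s (j + 3) = e 1 * s (j + 2) - e 2 * s (j + 1) + e 3 * s j := by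
  have a0 := h.2 0
  have a1 := h.2 1
  have a2 := h.2 2
  simp only [sum_range_succ, sum_range_zero, Algebra.smul_def, map_add, map_pow, map_neg, map_one,
    map_natCast, Nat.reduceSub, Nat.reduceAdd, Nat.sub_self, h.1] at a0 a1 a2
  push_cast at a0 a1 a2
  refine ⟨by linear_combination -a0, by linear_combination a1, fun j => ?_⟩
  cases j with
  | zero =>
    simp only [Nat.zero_add, h0]
    linear_combination -a2
  | succ k =>
    have a := h.2 (k + 3)
    rw [hz _ (by omega), smul_zero, sum_range_succ, sum_range_succ, sum_range_succ, sum_range_succ,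
      sum_eq_zero fun i hi => by
        rw [hz _ (by have := mem_range.1 hi; omega), mul_zero, smul_zero],
      show k + 3 - k = 3 by omega, show k + 3 - (k + 1) = 2 by omega,
      show k + 3 - (k + 2) = 1 by omega, Nat.sub_self, h.1] at a
    simp only [Algebra.smul_def, map_pow, map_neg, map_one] at a
    have b : ((-1 : B) ^ k) * (-1) ^ k = 1 := by rw [← mul_pow]; simp
    show s (k + 3 + 1) = e 1 * s (k + 2 + 1) - e 2 * s (k + 1 + 1) + e 3 * s (k + 1)
    linear_combination (-1) ^ k * a + (e 1 * s (k + 2 + 1) - e 2 * s (k + 1 + 1) +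
      e 3 * s (k + 1) - s (k + 3 + 1)) * b

end Cn

open Cn in
/-- row CHN -/
theorem chn : CHN := by
  intro A B _ _ _ _ S h L
  obtain ⟨w, hw⟩ : ∃ w, w = (2 : ℝ)⁻¹ • S.τ := ⟨_, rfl⟩
  have hQ : ∀ k, S.Q k = bt w S.pE k := fun k =>
    sum_congr rfl fun j _ => by rw [← hw, Algebra.smul_def, map_natCast]
  have hQ' : S.Q = bt w S.pE := funext hQ
  have hU : S.uu = (-w) ^ 2 := by rw [neg_sq, hw]; rfl
  have hτ : S.τ = -2 * -w := by
    rw [neg_mul_neg, two_mul, hw, ← add_smul]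
    norm_num
  have h0 : S.pE 0 = 3 := by rw [h.E0]; norm_num
  have q0 : S.Q 0 = 3 := by rw [hQ, bt_zero, h0]
  have t1 : S.T (-w) = -1 := by
    rw [map_neg, hw, map_smul, h.Tτ, ← one_add_one_eq_two (R := B), smul_add, ← add_smul]
    norm_num
  have t2 : S.T S.uu = 0 := by
    rw [hU, sq, L.mul, t1, hτ]
    ring
  have te : ∀ m, S.T (S.uu ^ m) = 0 := fun m => by
    induction m with
    | zero => rw [pow_zero, L.one]
    | succ m ih => rw [pow_succ, L.ker _ _ ih, t2, mul_zero]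
  obtain ⟨g, hg⟩ : ∃ g : ℕ → B, g = fun m => S.T ((-w) ^ m) := ⟨_, rfl⟩
  have ge : ∀ m, g (2 * m) = 0 := fun m => by rw [hg, ← te m, hU, ← pow_mul]
  have go : ∀ m, g (2 * m + 1) = -S.uu ^ m := fun m => by
    rw [hg]
    show S.T ((-w) ^ (2 * m + 1)) = _
    rw [pow_succ, pow_mul, ← hU, L.ker _ _ (te m), t1, mul_neg, mul_one]
  have hc : ∀ (c : ℤ) (x : B), S.T ((c : B) * x) = (c : B) * S.T x := fun c x => by
    rw [← zsmul_eq_mul, map_zsmul, zsmul_eq_mul]
  have ht : ∀ k, S.T (S.es (S.pX k)) = (-2) ^ k * g k -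
      ∑ j ∈ range (k + 1), (k.choose j : B) * (S.Q j * g (k - j)) := fun k => by
    have e1 : S.pE k = bt (-w) S.Q k := by rw [hQ', bt_bt, neg_add_cancel, bt_id]
    have e2 := congrArg S.T (h.ses k)
    have e3 : S.T (S.τ ^ k) = (-2) ^ k * g k := by
      have := hc ((-2) ^ k) ((-w) ^ k)
      push_cast at this
      rw [hτ, mul_pow, this, hg]
    rw [map_add, map_add, h.TK, add_zero, e3, e1, bt, map_sum] at e2
    rw [eq_sub_iff_add_eq', ← e2]
    congr 1
    refine sum_congr rfl fun j _ => ?_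
    have := hc (k.choose j) (S.Q j * (-w) ^ (k - j))
    rw [Int.cast_natCast] at this
    rw [this, L.ker (S.Q j) _ (h.inv j), hg]
  obtain ⟨n1, n2, n3⟩ := newton3 (ne_spec S.pE) h0 (h.rank _ (ne_spec S.pE))
  have hr := bt_rec w _ _ _ n3
  have g0 : g 0 = 0 := ge 0
  have g1 : g 1 = -S.uu ^ 0 := go 0
  have g2 : g 2 = 0 := ge 1
  have g3 : g 3 = -S.uu ^ 1 := go 1
  have g4 : g 4 = 0 := ge 2
  have g5 : g 5 = -S.uu ^ 2 := go 2
  have g6 : g 6 = 0 := ge 3
  have g7 : g 7 = -S.uu ^ 3 := go 3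
  have g8 : g 8 = 0 := ge 4
  have g9 : g 9 = -S.uu ^ 4 := go 4
  refine ⟨_, _, _, ?_, ?_, ?_, ?_, ?_, ?_, ?_, ?_, ?_, ?_, ?_, fun k => hQ' ▸ hr (k + 1)⟩
  iterate 8
    simp only [ht, sum_range_succ, sum_range_zero, Nat.choose, Nat.reduceSub, Nat.reduceAdd,
      Nat.sub_self, g0, g1, g2, g3, g4, g5, g6, g7, g8, g9, q0]
    push_cast
    ring
  · rw [hQ, bt_succ, bt_zero, bt_zero, h0, ← n1]
    ring
  · simp only [hQ, bt_succ w _ 1, bt_succ w _ 0, bt_zero, Nat.zero_add, Nat.reduceAdd, h0, n2, n1]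
    ring
  · have := hr 0
    rw [← hQ', q0] at this
    linear_combination this

end Vale.Agent.P280Z.Al
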