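import Mathlib.Data.Real.Basic
import Mathlib.Tactic.LinearCombination
import Mathlib.Tactic.Linarith
import Mathlib.Tactic.FieldSimp

/-!
# P280Z, block Al: the polynomial equations
-/

noncomputable section

namespace Vale.Agent.P280Z.Al

set_option linter.unusedVariables false

/-- an equation -/
def p4_400 (a d X2 X3 X4 X5 X6 : ℝ) : ℝ :=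
  -336*a*X2^4 + 1296*a*X2^2*X3 + 504*a*X2^2 - 768*a*X2*X4 - 432*a*X3^2 - 180*a*X3 + 144*a*X5 -
  345*a + 72*d - 336*X2^4 + 1440*X2^2*X3 + 168*X2^2 - 1152*X2*X4 - 504*X3^2 - 120*X3 + 432*X5 +
  115

/-- an equation -/
def p4_201 (a d X2 X3 X4 X5 X6 : ℝ) : ℝ :=
  -12*d*X2^2 + 12*d*X3 - 5*d

/-- an equation -/
def p4_210 (a d X2 X3 X4 X5 X6 : ℝ) : ℝ :=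
  -240*a*X2^4 + 864*a*X2^2*X3 + 504*a*X2^2 - 384*a*X2*X4 - 288*a*X3^2 - 120*a*X3 - 575*a -
  192*X2^4 + 864*X2^2*X3 - 768*X2*X4 - 288*X3^2 - 120*X3 + 288*X5 + 460

/-- an equation -/
def p4_020 (a d X2 X3 X4 X5 X6 : ℝ) : ℝ :=
  -96*a*X2^4 + 288*a*X2^2*X3 + 336*a*X2^2 - 144*a*X3^2 + 120*a*X3 - 1150*a - 48*X2^4 +
  288*X2^2*X3 - 168*X2^2 - 384*X2*X4 - 360*X3 + 1725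

/-- an equation -/
def p5_300 (a d X2 X3 X4 X5 X6 : ℝ) : ℝ :=
  -108*a*X2^3*X3 - 12*a*X2^3 + 144*a*X2^2*X4 + 216*a*X2*X3^2 + 45*a*X2*X3 - 72*a*X2*X5 + 153*a*X2
  - 180*a*X3*X4 - 36*d*X2 - 120*X2^3*X3 - 4*X2^3 + 216*X2^2*X4 + 252*X2*X3^2 + 30*X2*X3 -
  216*X2*X5 - 51*X2 - 240*X3*X4 + 10*X4 + 72*X6

/-- an equation -/
def p5_101 (a d X2 X3 X4 X5 X6 : ℝ) : ℝ :=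
  4*d*X2^3 - 24*d*X2*X3 + 5*d*X2 + 20*d*X4

/-- an equation -/
def p5_110 (a d X2 X3 X4 X5 X6 : ℝ) : ℝ :=
  -72*a*X2^3*X3 - 12*a*X2^3 + 72*a*X2^2*X4 + 144*a*X2*X3^2 + 30*a*X2*X3 + 255*a*X2 - 120*a*X3*X4
  - 10*a*X4 - 72*X2^3*X3 + 144*X2^2*X4 + 144*X2*X3^2 + 30*X2*X3 - 144*X2*X5 - 204*X2 - 120*X3*X4
  + 20*X4

/-- an equation -/
def p6_200 (a d X2 X3 X4 X5 X6 : ℝ) : ℝ :=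
  -144*a*X2^4 - 384*a*X2^3*X4 + 648*a*X2^2*X3 + 288*a*X2^2*X5 - 144*a*X2^2 + 864*a*X2*X3*X4 -
  288*a*X3^2 - 288*a*X3*X5 + 114*a*X3 - 384*a*X4^2 - 456*a*X5 + 1105*a - 144*d - 48*X2^4 -
  576*X2^3*X4 + 432*X2^2*X3 + 864*X2^2*X5 + 48*X2^2 + 1152*X2*X3*X4 - 624*X2*X4 - 576*X2*X6 -
  144*X3^2 - 576*X3*X5 + 228*X3 - 384*X4^2 + 456*X5 - 1105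

/-- an equation -/
def p6_001 (a d X2 X3 X4 X5 X6 : ℝ) : ℝ :=
  36*d*X2^2 - 48*d*X2*X4 - 48*d*X3 + 48*d*X5 - 19*d

/-- an equation -/
def p6_010 (a d X2 X3 X4 X5 X6 : ℝ) : ℝ :=
  -144*a*X2^4 - 192*a*X2^3*X4 + 432*a*X2^2*X3 - 240*a*X2^2 + 576*a*X2*X3*X4 + 624*a*X2*X4 -
  576*a*X3^2 - 1140*a*X3 - 384*a*X4^2 + 5525*a - 384*X2^3*X4 + 432*X2^2*X3 + 576*X2^2*X5 +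
  192*X2^2 + 576*X2*X3*X4 - 1248*X2*X4 + 576*X3^2 - 576*X3*X5 + 2508*X3 - 912*X5 - 8840

/-- an equation -/
def p7_100 (a d X2 X3 X4 X5 X6 : ℝ) : ℝ :=
  -36*a*X2^3*X3 - 24*a*X2^3*X5 + 60*a*X2^3 + 72*a*X2*X3^2 + 72*a*X2*X3*X5 - 45*a*X2*X3 +
  126*a*X2*X5 - 89*a*X2 - 84*a*X3*X4 - 48*a*X4*X5 - 364*a*X4 + 36*d*X2 - 24*X2^3*X3 - 72*X2^3*X5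
  - 20*X2^3 + 120*X2^2*X4 + 72*X2^2*X6 + 36*X2*X3^2 + 144*X2*X3*X5 - 90*X2*X3 - 126*X2*X5 + 89*X2
  - 72*X3*X6 - 48*X4*X5 + 546*X4 - 186*X6

/-- an equation -/
def p8_000 (a d X2 X3 X4 X5 X6 : ℝ) : ℝ :=
  -336*a*X2^4 + 672*a*X2^2*X3 - 1440*a*X2^2*X5 - 1080*a*X2^2 + 960*a*X2*X3*X4 + 6976*a*X2*X4 -
  3024*a*X3^2 + 1440*a*X3*X5 - 18000*a*X3 - 1280*a*X4^2 + 3384*a*X5 + 26235*a + 504*d + 112*X2^4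
  - 640*X2^3*X4 - 384*X2^3*X6 + 1344*X2^2*X3 + 1440*X2^2*X5 + 1080*X2^2 + 1152*X2*X3*X6 -
  10464*X2*X4 + 3168*X2*X6 + 4536*X3^2 - 2880*X3*X5 + 36000*X3 + 1280*X4^2 - 768*X4*X6 - 16920*X5
  - 43725

/-- an equation -/
def q4_3010 (a y X2 Y2 X3 Y3 X4 Y4 X5 X6 : ℝ) : ℝ :=
  96*a^2*y*Y2^4 - 1536*a*y*X2*Y2^3 - 144*a*y*Y2^4 + 1008*a*y*Y2^2*Y3 + 480*a*X2^3*Y2 +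
  144*a*X2^2*Y2^2 - 144*a*X2^2*Y3 - 1152*a*X2*Y2*X3 + 168*a*X2*Y2 - 144*a*Y2^2*X3 + 84*a*Y2^2 +
  576*a*Y2*X4 + 144*a*X3*Y3 - 60*a*Y3 - 1008*y^2*Y2^4 + 2304*y*X2^2*Y2^2 - 1344*y*X2*Y2^3 -
  1440*y*X2*Y2*Y3 - 672*y*Y2^4 - 1728*y*Y2^2*X3 + 720*y*Y2^2*Y3 + 192*y*Y2*Y4 + 72*y*Y3^2 -
  336*X2^4 + 1344*X2^3*Y2 + 288*X2^2*Y2^2 + 1440*X2^2*X3 - 720*X2^2*Y3 + 168*X2^2 - 2880*X2*Y2*X3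
  - 336*X2*Y2 - 1152*X2*X4 + 192*X2*Y4 - 288*Y2^2*X3 + 168*Y2^2 + 1152*Y2*X4 - 504*X3^2 +
  576*X3*Y3 - 120*X3 - 60*Y3 + 432*X5 + 115

/-- an equation -/
def q4_4000 (a y X2 Y2 X3 Y3 X4 Y4 X5 X6 : ℝ) : ℝ :=
  -384*a*y^2*Y2^4 + 720*a*y*X2^2*Y2^2 + 96*a*y*X2*Y2^3 - 288*a*y*X2*Y2*Y3 - 576*a*y*Y2^2*X3 +
  84*a*y*Y2^2 - 336*a*X2^4 + 1296*a*X2^2*X3 + 504*a*X2^2 - 768*a*X2*X4 - 432*a*X3^2 - 180*a*X3 +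
  144*a*X5 - 345*a + 1536*y^2*X2*Y2^3 - 336*y^2*Y2^4 - 720*y^2*Y2^2*Y3 - 1344*y*X2^3*Y2 +
  2016*y*X2^2*Y2^2 + 720*y*X2^2*Y3 + 192*y*X2*Y2^3 + 2880*y*X2*Y2*X3 - 1440*y*X2*Y2*Y3 +
  336*y*X2*Y2 - 192*y*X2*Y4 - 1440*y*Y2^2*X3 - 168*y*Y2^2 - 1152*y*Y2*X4 + 192*y*Y2*Y4 -
  576*y*X3*Y3 + 72*y*Y3^2 + 60*y*Y3 - 336*X2^4 + 1440*X2^2*X3 + 168*X2^2 - 1152*X2*X4 - 504*X3^2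
  - 120*X3 + 432*X5 + 115

/-- an equation -/
def q4_2001 (a y X2 Y2 X3 Y3 X4 Y4 X5 X6 : ℝ) : ℝ :=
  48*a^2*y*Y2^4 - 448*a*y*X2*Y2^3 + 288*a*y*Y2^2*Y3 + 64*a*X2^3*Y2 - 192*a*X2*Y2*X3 + 112*a*X2*Y2
  + 128*a*Y2*X4 - 272*y^2*Y2^4 + 480*y*X2^2*Y2^2 - 320*y*X2*Y2^3 - 192*y*X2*Y2*Y3 - 192*y*Y2^4 -
  384*y*Y2^2*X3 + 96*y*Y2^2*Y3 + 56*y*Y2^2 - 48*y*Y3^2 - 80*X2^4 + 320*X2^3*Y2 + 384*X2^2*X3 -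
  96*X2^2*Y3 - 56*X2^2 - 768*X2*Y2*X3 + 112*X2*Y2 - 384*X2*X4 + 384*Y2*X4 - 144*X3^2 + 96*X3*Y3 -
  40*Y3 + 192*X5 + 115

/-- an equation -/
def q4_1110 (a y X2 Y2 X3 Y3 X4 Y4 X5 X6 : ℝ) : ℝ :=
  24*a^2*y*Y2^4 - 240*a*y*X2*Y2^3 + 144*a*y*Y2^2*Y3 + 48*a*X2^3*Y2 - 144*a*X2*Y2*X3 + 84*a*X2*Y2
  + 96*a*Y2*X4 - 144*y^2*Y2^4 + 288*y*X2^2*Y2^2 - 192*y*X2*Y2^3 - 144*y*X2*Y2*Y3 - 96*y*Y2^4 -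
  216*y*Y2^2*X3 + 72*y*Y2^2*Y3 - 48*X2^4 + 192*X2^3*Y2 + 216*X2^2*X3 - 72*X2^2*Y3 - 432*X2*Y2*X3
  - 192*X2*X4 + 192*Y2*X4 - 72*X3^2 + 72*X3*Y3 - 30*X3 - 30*Y3 + 72*X5 + 115

/-- an equation -/
def q4_2100 (a y X2 Y2 X3 Y3 X4 Y4 X5 X6 : ℝ) : ℝ :=
  -240*a*y^2*Y2^4 + 288*a*y*X2^2*Y2^2 - 288*a*y*Y2^2*X3 + 168*a*y*Y2^2 - 240*a*X2^4 +
  864*a*X2^2*X3 + 504*a*X2^2 - 384*a*X2*X4 - 288*a*X3^2 - 120*a*X3 - 575*a + 768*y^2*X2*Y2^3 -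
  192*y^2*Y2^4 - 288*y^2*Y2^2*Y3 - 768*y*X2^3*Y2 + 1152*y*X2^2*Y2^2 + 288*y*X2^2*Y3 +
  1728*y*X2*Y2*X3 - 576*y*X2*Y2*Y3 - 864*y*Y2^2*X3 - 768*y*Y2*X4 - 288*y*X3*Y3 + 120*y*Y3 -
  192*X2^4 + 864*X2^2*X3 - 768*X2*X4 - 288*X3^2 - 120*X3 + 288*X5 + 460

/-- an equation -/
def q4_0101 (a y X2 Y2 X3 Y3 X4 Y4 X5 X6 : ℝ) : ℝ :=
  48*a^2*y*Y2^4 - 384*a*y*X2*Y2^3 + 288*a*y*Y2^2*Y3 - 240*y^2*Y2^4 + 288*y*X2^2*Y2^2 -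
  192*y*X2*Y2^3 - 192*y*Y2^4 - 288*y*Y2^2*X3 + 168*y*Y2^2 - 144*y*Y3^2 - 48*X2^4 + 192*X2^3*Y2 +
  288*X2^2*X3 - 168*X2^2 - 576*X2*Y2*X3 + 336*X2*Y2 - 384*X2*X4 + 384*Y2*X4 - 144*X3^2 + 120*X3 +
  288*X5 - 115

/-- an equation -/
def q4_0200 (a y X2 Y2 X3 Y3 X4 Y4 X5 X6 : ℝ) : ℝ :=
  -96*a*y^2*Y2^4 - 96*a*X2^4 + 288*a*X2^2*X3 + 336*a*X2^2 - 144*a*X3^2 + 120*a*X3 - 1150*a +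
  192*y^2*X2*Y2^3 - 48*y^2*Y2^4 - 192*y*X2^3*Y2 + 288*y*X2^2*Y2^2 + 576*y*X2*Y2*X3 - 336*y*X2*Y2
  - 288*y*Y2^2*X3 + 168*y*Y2^2 - 384*y*Y2*X4 - 48*X2^4 + 288*X2^2*X3 - 168*X2^2 - 384*X2*X4 -
  360*X3 + 1725

/-- an equation -/
def q5_2010 (a y X2 Y2 X3 Y3 X4 Y4 X5 X6 : ℝ) : ℝ :=
  72*a^2*y*Y2^3*Y3 - 504*a*y*X2*Y2^2*Y3 - 264*a*y*Y2^3*X3 - 16*a*y*Y2^3 + 144*a*y*Y2^2*Y4 +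
  216*a*y*Y2*Y3^2 + 24*a*X2^3*Y3 + 288*a*X2^2*Y2*X3 - 12*a*X2^2*Y2 + 72*a*X2*Y2^2*X3 -
  12*a*X2*Y2^2 - 432*a*X2*Y2*X4 - 144*a*X2*X3*Y3 + 30*a*X2*Y3 - 72*a*Y2^2*X4 - 216*a*Y2*X3^2 +
  288*a*Y2*X5 + 153*a*Y2 + 120*a*Y3*X4 - 408*y^2*Y2^3*Y3 + 360*y*X2^2*Y2*Y3 + 864*y*X2*Y2^2*X3 -
  360*y*X2*Y2^2*Y3 - 144*y*X2*Y2*Y4 - 72*y*X2*Y3^2 - 240*y*Y2^3*X3 - 288*y*Y2^3*Y3 - 8*y*Y2^3 -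
  576*y*Y2^2*X4 + 72*y*Y2^2*Y4 - 576*y*Y2*X3*Y3 + 72*y*Y2*Y3^2 + 30*y*Y2*Y3 - 240*X2^3*X3 +
  120*X2^3*Y3 - 8*X2^3 + 720*X2^2*Y2*X3 + 24*X2^2*Y2 + 432*X2^2*X4 - 72*X2^2*Y4 + 144*X2*Y2^2*X3
  - 24*X2*Y2^2 - 864*X2*Y2*X4 + 504*X2*X3^2 - 576*X2*X3*Y3 + 60*X2*X3 + 30*X2*Y3 - 432*X2*X5 -
  102*X2 - 144*Y2^2*X4 - 504*Y2*X3^2 - 60*Y2*X3 + 432*Y2*X5 + 102*Y2 - 480*X3*X4 + 120*X3*Y4 +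
  360*Y3*X4 + 20*X4 + 10*Y4 + 144*X6

/-- an equation -/
def q5_3000 (a y X2 Y2 X3 Y3 X4 Y4 X5 X6 : ℝ) : ℝ :=
  -84*a*y^2*Y2^3*Y3 + 36*a*y*X2^2*Y2*Y3 + 144*a*y*X2*Y2^2*X3 - 6*a*y*X2*Y2^2 + 12*a*y*Y2^3*X3 -
  2*a*y*Y2^3 - 108*a*y*Y2^2*X4 - 72*a*y*Y2*X3*Y3 + 15*a*y*Y2*Y3 - 108*a*X2^3*X3 - 12*a*X2^3 +
  144*a*X2^2*X4 + 216*a*X2*X3^2 + 45*a*X2*X3 - 72*a*X2*X5 + 153*a*X2 - 180*a*X3*X4 +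
  180*y^2*X2*Y2^2*Y3 + 144*y^2*Y2^3*X3 - 60*y^2*Y2^3*Y3 - 36*y^2*Y2^2*Y4 - 36*y^2*Y2*Y3^2 -
  60*y*X2^3*Y3 - 360*y*X2^2*Y2*X3 + 180*y*X2^2*Y2*Y3 - 12*y*X2^2*Y2 + 36*y*X2^2*Y4 +
  360*y*X2*Y2^2*X3 + 12*y*X2*Y2^2 + 432*y*X2*Y2*X4 - 72*y*X2*Y2*Y4 + 288*y*X2*X3*Y3 -
  36*y*X2*Y3^2 - 15*y*X2*Y3 + 24*y*Y2^3*X3 - 4*y*Y2^3 - 216*y*Y2^2*X4 + 252*y*Y2*X3^2 -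
  288*y*Y2*X3*Y3 + 30*y*Y2*X3 + 15*y*Y2*Y3 - 216*y*Y2*X5 - 51*y*Y2 - 60*y*X3*Y4 - 180*y*Y3*X4 -
  5*y*Y4 - 120*X2^3*X3 - 4*X2^3 + 216*X2^2*X4 + 252*X2*X3^2 + 30*X2*X3 - 216*X2*X5 - 51*X2 -
  240*X3*X4 + 10*X4 + 72*X6

/-- an equation -/
def q5_1001 (a y X2 Y2 X3 Y3 X4 Y4 X5 X6 : ℝ) : ℝ :=
  48*a^2*y*Y2^3*Y3 - 216*a*y*X2*Y2^2*Y3 - 120*a*y*Y2^3*X3 + 24*a*y*Y2^3*Y3 - 4*a*y*Y2^3 +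
  72*a*y*Y2^2*Y4 + 72*a*y*Y2*Y3^2 + 72*a*X2^2*Y2*X3 - 12*a*X2^2*Y2 - 144*a*X2*Y2*X4 -
  72*a*Y2*X3^2 + 30*a*Y2*X3 + 144*a*Y2*X5 - 51*a*Y2 - 168*y^2*Y2^3*Y3 + 72*y*X2^2*Y2*Y3 +
  288*y*X2*Y2^2*X3 - 72*y*X2*Y2^2*Y3 - 12*y*X2*Y2^2 + 72*y*X2*Y3^2 - 96*y*Y2^3*X3 - 144*y*Y2^3*Y3
  + 4*y*Y2^3 - 216*y*Y2^2*X4 - 144*y*Y2*X3*Y3 - 72*y*Y2*Y3^2 + 30*y*Y2*Y3 - 120*y*Y3*Y4 -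
  96*X2^3*X3 + 24*X2^3*Y3 + 4*X2^3 + 288*X2^2*Y2*X3 - 12*X2^2*Y2 + 216*X2^2*X4 - 432*X2*Y2*X4 +
  216*X2*X3^2 - 144*X2*X3*Y3 + 30*X2*Y3 - 288*X2*X5 - 153*X2 - 216*Y2*X3^2 + 288*Y2*X5 + 153*Y2 -
  240*X3*X4 + 120*Y3*X4 + 10*X4 + 144*X6

/-- an equation -/
def q5_0110 (a y X2 Y2 X3 Y3 X4 Y4 X5 X6 : ℝ) : ℝ :=
  24*a^2*y*Y2^3*Y3 - 144*a*y*X2*Y2^2*Y3 - 72*a*y*Y2^3*X3 - 12*a*y*Y2^3 + 72*a*y*Y2*Y3^2 +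
  72*a*X2^2*Y2*X3 - 12*a*X2^2*Y2 - 144*a*X2*Y2*X4 - 72*a*Y2*X3^2 + 30*a*Y2*X3 + 144*a*Y2*X5 -
  51*a*Y2 - 120*y^2*Y2^3*Y3 + 72*y*X2^2*Y2*Y3 + 216*y*X2*Y2^2*X3 - 72*y*X2*Y2^2*Y3 - 72*y*Y2^3*X3
  - 96*y*Y2^3*Y3 - 144*y*Y2^2*X4 - 144*y*Y2*X3*Y3 + 30*y*Y2*Y3 - 72*X2^3*X3 + 24*X2^3*Y3 +
  216*X2^2*Y2*X3 + 144*X2^2*X4 - 288*X2*Y2*X4 + 144*X2*X3^2 - 144*X2*X3*Y3 + 30*X2*X3 + 30*X2*Y3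
  - 144*X2*X5 - 204*X2 - 144*Y2*X3^2 - 30*Y2*X3 + 144*Y2*X5 + 204*Y2 - 120*X3*X4 + 120*Y3*X4 +
  20*X4

/-- an equation -/
def q5_1100 (a y X2 Y2 X3 Y3 X4 Y4 X5 X6 : ℝ) : ℝ :=
  -48*a*y^2*Y2^3*Y3 + 72*a*y*X2*Y2^2*X3 - 12*a*y*X2*Y2^2 - 72*a*y*Y2^2*X4 - 72*a*X2^3*X3 -
  12*a*X2^3 + 72*a*X2^2*X4 + 144*a*X2*X3^2 + 30*a*X2*X3 + 255*a*X2 - 120*a*X3*X4 - 10*a*X4 +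
  72*y^2*X2*Y2^2*Y3 + 72*y^2*Y2^3*X3 - 24*y^2*Y2^3*Y3 - 24*y*X2^3*Y3 - 216*y*X2^2*Y2*X3 +
  72*y*X2^2*Y2*Y3 + 216*y*X2*Y2^2*X3 + 288*y*X2*Y2*X4 + 144*y*X2*X3*Y3 - 30*y*X2*Y3 -
  144*y*Y2^2*X4 + 144*y*Y2*X3^2 - 144*y*Y2*X3*Y3 + 30*y*Y2*X3 + 30*y*Y2*Y3 - 144*y*Y2*X5 -
  204*y*Y2 - 120*y*Y3*X4 - 72*X2^3*X3 + 144*X2^2*X4 + 144*X2*X3^2 + 30*X2*X3 - 144*X2*X5 - 204*X2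
  - 120*X3*X4 + 20*X4

/-- an equation -/
def q6_1010 (a y X2 Y2 X3 Y3 X4 Y4 X5 X6 : ℝ) : ℝ :=
  96*a^2*y*Y2^4 + 96*a^2*y*Y2^3*Y4 - 384*a*y*X2*Y2^3 - 576*a*y*X2*Y2^2*Y4 + 144*a*y*Y2^4 -
  576*a*y*Y2^3*X4 + 216*a*y*Y2^2*Y3 + 288*a*y*Y2*Y3*Y4 - 96*a*X2^3*Y2 - 144*a*X2^2*Y2^2 +
  864*a*X2^2*Y2*X4 + 216*a*X2^2*Y3 + 288*a*X2*Y2^2*X4 - 1152*a*X2*Y2*X5 - 144*a*X2*Y2 -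
  288*a*X2*Y3*X4 + 216*a*Y2^2*X3 - 288*a*Y2^2*X5 + 24*a*Y2^2 - 576*a*Y2*X3*X4 + 312*a*Y2*X4 +
  576*a*Y2*X6 - 288*a*X3*Y3 + 288*a*Y3*X5 - 114*a*Y3 - 144*y^2*Y2^4 - 480*y^2*Y2^3*Y4 +
  288*y*X2^2*Y2*Y4 - 192*y*X2*Y2^3 + 2304*y*X2*Y2^2*X4 - 288*y*X2*Y2^2*Y4 + 432*y*X2*Y2*Y3 -
  96*y*Y2^4 - 576*y*Y2^3*X4 - 384*y*Y2^3*Y4 - 216*y*Y2^2*Y3 - 1440*y*Y2^2*X5 - 288*y*Y2*X3*Y4 -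
  864*y*Y2*Y3*X4 - 312*y*Y2*Y4 - 144*y*Y3^2 - 48*X2^4 + 192*X2^3*Y2 - 576*X2^3*X4 + 96*X2^3*Y4 -
  288*X2^2*Y2^2 + 1728*X2^2*Y2*X4 + 432*X2^2*X3 + 216*X2^2*Y3 + 864*X2^2*X5 + 48*X2^2 +
  576*X2*Y2^2*X4 - 864*X2*Y2*X3 - 1728*X2*Y2*X5 - 96*X2*Y2 + 1152*X2*X3*X4 - 288*X2*X3*Y4 -
  864*X2*Y3*X4 - 624*X2*X4 - 312*X2*Y4 - 576*X2*X6 + 432*Y2^2*X3 - 576*Y2^2*X5 + 48*Y2^2 -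
  1152*Y2*X3*X4 + 624*Y2*X4 + 576*Y2*X6 - 144*X3^2 - 576*X3*X5 + 228*X3 + 576*Y3*X5 + 342*Y3 -
  384*X4^2 + 384*X4*Y4 + 456*X5 - 1105

/-- an equation -/
def q6_2000 (a y X2 Y2 X3 Y3 X4 Y4 X5 X6 : ℝ) : ℝ :=
  -96*a*y^2*Y2^4 - 192*a*y^2*Y2^3*Y4 - 144*a*y*X2^2*Y2^2 - 96*a*y*X2*Y2^3 + 864*a*y*X2*Y2^2*X4 +
  432*a*y*X2*Y2*Y3 + 96*a*y*Y2^3*X4 - 576*a*y*Y2^2*X5 - 72*a*y*Y2^2 - 288*a*y*Y2*Y3*X4 -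
  144*a*X2^4 - 384*a*X2^3*X4 + 648*a*X2^2*X3 + 288*a*X2^2*X5 - 144*a*X2^2 + 864*a*X2*X3*X4 -
  288*a*X3^2 - 288*a*X3*X5 + 114*a*X3 - 384*a*X4^2 - 456*a*X5 + 1105*a + 288*y^2*X2*Y2^2*Y4 -
  48*y^2*Y2^4 + 768*y^2*Y2^3*X4 - 96*y^2*Y2^3*Y4 + 216*y^2*Y2^2*Y3 - 192*y*X2^3*Y2 - 96*y*X2^3*Y4
  + 288*y*X2^2*Y2^2 - 1728*y*X2^2*Y2*X4 + 288*y*X2^2*Y2*Y4 - 216*y*X2^2*Y3 - 192*y*X2*Y2^3 +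
  1728*y*X2*Y2^2*X4 + 864*y*X2*Y2*X3 + 432*y*X2*Y2*Y3 + 1728*y*X2*Y2*X5 + 96*y*X2*Y2 +
  288*y*X2*X3*Y4 + 864*y*X2*Y3*X4 + 312*y*X2*Y4 + 192*y*Y2^3*X4 - 432*y*Y2^2*X3 - 864*y*Y2^2*X5 -
  48*y*Y2^2 + 1152*y*Y2*X3*X4 - 288*y*Y2*X3*Y4 - 864*y*Y2*Y3*X4 - 624*y*Y2*X4 - 312*y*Y2*Y4 -
  576*y*Y2*X6 - 144*y*Y3^2 - 576*y*Y3*X5 - 342*y*Y3 - 384*y*X4*Y4 - 48*X2^4 - 576*X2^3*X4 +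
  432*X2^2*X3 + 864*X2^2*X5 + 48*X2^2 + 1152*X2*X3*X4 - 624*X2*X4 - 576*X2*X6 - 144*X3^2 -
  576*X3*X5 + 228*X3 - 384*X4^2 + 456*X5 - 1105

/-- an equation -/
def q6_0001 (a y X2 Y2 X3 Y3 X4 Y4 X5 X6 : ℝ) : ℝ :=
  48*a^2*y*Y2^4 + 192*a^2*y*Y2^3*Y4 - 192*a*y*X2*Y2^3 - 576*a*y*X2*Y2^2*Y4 - 576*a*y*Y2^3*X4 +
  192*a*y*Y2^3*Y4 + 432*a*y*Y2^2*Y3 - 192*a*X2^3*Y2 + 576*a*X2^2*Y2*X4 + 864*a*X2*Y2*X3 -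
  1152*a*X2*Y2*X5 + 96*a*X2*Y2 - 576*a*Y2*X3*X4 - 624*a*Y2*X4 + 1152*a*Y2*X6 - 144*y^2*Y2^4 -
  384*y^2*Y2^3*Y4 - 288*y*X2^2*Y2^2 + 192*y*X2*Y2^3 + 1728*y*X2*Y2^2*X4 + 864*y*X2*Y2*Y3 +
  576*y*X2*Y3*Y4 - 192*y*Y2^4 - 576*y*Y2^3*X4 - 384*y*Y2^3*Y4 - 432*y*Y2^2*Y3 - 1152*y*Y2^2*X5 -
  144*y*Y2^2 - 576*y*Y2*Y3*X4 - 576*y*Y2*Y3*Y4 - 864*y*Y3^2 - 384*y*Y4^2 + 48*X2^4 - 192*X2^3*Y2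
  - 576*X2^3*X4 + 1728*X2^2*Y2*X4 + 432*X2^2*Y3 + 1152*X2^2*X5 + 144*X2^2 - 2304*X2*Y2*X5 -
  288*X2*Y2 + 1152*X2*X3*X4 - 576*X2*Y3*X4 - 624*X2*X4 - 1152*X2*X6 - 1152*Y2*X3*X4 + 624*Y2*X4 +
  1152*Y2*X6 - 288*X3^2 - 576*X3*Y3 - 576*X3*X5 - 912*X3 + 576*Y3*X5 - 228*Y3 - 384*X4^2 +
  1824*X5 + 1105

/-- an equation -/
def q6_0100 (a y X2 Y2 X3 Y3 X4 Y4 X5 X6 : ℝ) : ℝ :=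
  -144*a*y^2*Y2^4 - 288*a*y*X2^2*Y2^2 + 576*a*y*X2*Y2^2*X4 + 432*a*y*Y2^2*X3 - 576*a*y*Y2^2*X5 +
  48*a*y*Y2^2 - 144*a*X2^4 - 192*a*X2^3*X4 + 432*a*X2^2*X3 - 240*a*X2^2 + 576*a*X2*X3*X4 +
  624*a*X2*X4 - 576*a*X3^2 - 1140*a*X3 - 384*a*X4^2 + 5525*a + 384*y^2*Y2^3*X4 + 432*y^2*Y2^2*Y3
  - 1152*y*X2^2*Y2*X4 - 432*y*X2^2*Y3 + 1152*y*X2*Y2^2*X4 + 864*y*X2*Y2*X3 + 864*y*X2*Y2*Y3 +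
  1152*y*X2*Y2*X5 + 384*y*X2*Y2 + 576*y*X2*Y3*X4 - 432*y*Y2^2*X3 - 576*y*Y2^2*X5 - 192*y*Y2^2 +
  576*y*Y2*X3*X4 - 576*y*Y2*Y3*X4 - 1248*y*Y2*X4 + 576*y*X3*Y3 - 576*y*Y3*X5 + 228*y*Y3 -
  384*X2^3*X4 + 432*X2^2*X3 + 576*X2^2*X5 + 192*X2^2 + 576*X2*X3*X4 - 1248*X2*X4 + 576*X3^2 -
  576*X3*X5 + 2508*X3 - 912*X5 - 8840

/-- an equation -/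
def q7_0010 (a y X2 Y2 X3 Y3 X4 Y4 X5 X6 : ℝ) : ℝ :=
  24*a^2*y*Y2^3*Y3 - 72*a*y*X2*Y2^2*Y3 - 24*a*y*Y2^3*X3 - 144*a*y*Y2^3*X5 + 160*a*y*Y2^3 -
  240*a*y*Y2^2*Y4 + 72*a*y*Y2*Y3^2 - 24*a*X2^3*Y3 + 288*a*X2^2*Y2*X5 + 180*a*X2^2*Y2 -
  72*a*X2*Y2^2*X3 + 144*a*X2*Y2^2*X5 - 60*a*X2*Y2^2 - 240*a*X2*Y2*X4 - 288*a*X2*Y2*X6 +
  144*a*X2*X3*Y3 - 144*a*X2*Y3*X5 + 90*a*X2*Y3 + 120*a*Y2^2*X4 - 144*a*Y2^2*X6 - 72*a*Y2*X3^2 -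
  144*a*Y2*X3*X5 - 360*a*Y2*X3 + 504*a*Y2*X5 + 89*a*Y2 - 168*a*Y3*X4 + 144*a*Y3*X6 -
  72*y^2*Y2^3*Y3 - 72*y*X2^2*Y2*Y3 + 72*y*X2*Y2^2*Y3 + 720*y*X2*Y2^2*X5 + 240*y*X2*Y2*Y4 +
  72*y*X2*Y3^2 - 48*y*Y2^3*X3 - 96*y*Y2^3*Y3 - 144*y*Y2^3*X5 - 40*y*Y2^3 - 120*y*Y2^2*Y4 -
  432*y*Y2^2*X6 - 72*y*Y2*Y3^2 - 288*y*Y2*Y3*X5 - 270*y*Y2*Y3 - 48*X2^3*X3 - 24*X2^3*Y3 -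
  144*X2^3*X5 - 40*X2^3 + 144*X2^2*Y2*X3 + 432*X2^2*Y2*X5 + 120*X2^2*Y2 + 240*X2^2*X4 +
  120*X2^2*Y4 + 144*X2^2*X6 - 144*X2*Y2^2*X3 + 288*X2*Y2^2*X5 - 120*X2*Y2^2 - 480*X2*Y2*X4 -
  288*X2*Y2*X6 + 72*X2*X3^2 + 288*X2*X3*X5 - 180*X2*X3 - 288*X2*Y3*X5 - 270*X2*Y3 - 252*X2*X5 +
  178*X2 + 240*Y2^2*X4 - 288*Y2^2*X6 - 72*Y2*X3^2 - 288*Y2*X3*X5 + 180*Y2*X3 + 252*Y2*X5 - 178*Y2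
  - 168*X3*Y4 - 144*X3*X6 + 168*Y3*X4 + 144*Y3*X6 - 96*X4*X5 + 1092*X4 + 96*Y4*X5 - 182*Y4 -
  372*X6

/-- an equation -/
def q7_1000 (a y X2 Y2 X3 Y3 X4 Y4 X5 X6 : ℝ) : ℝ :=
  -12*a*y^2*Y2^3*Y3 - 36*a*y*X2^2*Y2*Y3 + 144*a*y*X2*Y2^2*X5 + 90*a*y*X2*Y2^2 - 12*a*y*Y2^3*X3 +
  24*a*y*Y2^3*X5 - 10*a*y*Y2^3 - 60*a*y*Y2^2*X4 - 72*a*y*Y2^2*X6 + 72*a*y*Y2*X3*Y3 -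
  72*a*y*Y2*Y3*X5 + 45*a*y*Y2*Y3 - 36*a*X2^3*X3 - 24*a*X2^3*X5 + 60*a*X2^3 + 72*a*X2*X3^2 +
  72*a*X2*X3*X5 - 45*a*X2*X3 + 126*a*X2*X5 - 89*a*X2 - 84*a*X3*X4 - 48*a*X4*X5 - 364*a*X4 -
  36*y^2*X2*Y2^2*Y3 + 12*y^2*Y2^3*Y3 + 120*y^2*Y2^3*X5 + 60*y^2*Y2^2*Y4 + 36*y^2*Y2*Y3^2 +
  12*y*X2^3*Y3 - 72*y*X2^2*Y2*X3 - 36*y*X2^2*Y2*Y3 - 216*y*X2^2*Y2*X5 - 60*y*X2^2*Y2 -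
  60*y*X2^2*Y4 + 72*y*X2*Y2^2*X3 + 216*y*X2*Y2^2*X5 + 60*y*X2*Y2^2 + 240*y*X2*Y2*X4 +
  120*y*X2*Y2*Y4 + 144*y*X2*Y2*X6 + 36*y*X2*Y3^2 + 144*y*X2*Y3*X5 + 135*y*X2*Y3 - 24*y*Y2^3*X3 +
  48*y*Y2^3*X5 - 20*y*Y2^3 - 120*y*Y2^2*X4 - 72*y*Y2^2*X6 + 36*y*Y2*X3^2 + 144*y*Y2*X3*X5 -
  90*y*Y2*X3 - 144*y*Y2*Y3*X5 - 135*y*Y2*Y3 - 126*y*Y2*X5 + 89*y*Y2 + 84*y*X3*Y4 - 84*y*Y3*X4 -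
  72*y*Y3*X6 - 48*y*Y4*X5 + 91*y*Y4 - 24*X2^3*X3 - 72*X2^3*X5 - 20*X2^3 + 120*X2^2*X4 +
  72*X2^2*X6 + 36*X2*X3^2 + 144*X2*X3*X5 - 90*X2*X3 - 126*X2*X5 + 89*X2 - 72*X3*X6 - 48*X4*X5 +
  546*X4 - 186*X6

/-- an equation -/
def q8_0000 (a y X2 Y2 X3 Y3 X4 Y4 X5 X6 : ℝ) : ℝ :=
  -448*a*y^2*Y2^4 + 640*a*y^2*Y2^3*Y4 - 1008*a*y*X2^2*Y2^2 + 224*a*y*X2*Y2^3 + 960*a*y*X2*Y2^2*X4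
  + 1152*a*y*X2*Y2^2*X6 - 1344*a*y*X2*Y2*Y3 - 320*a*y*Y2^3*X4 + 384*a*y*Y2^3*X6 +
  2688*a*y*Y2^2*X3 - 2880*a*y*Y2^2*X5 + 540*a*y*Y2^2 + 960*a*y*Y2*Y3*X4 - 1152*a*y*Y2*Y3*X6 -
  336*a*X2^4 + 672*a*X2^2*X3 - 1440*a*X2^2*X5 - 1080*a*X2^2 + 960*a*X2*X3*X4 + 6976*a*X2*X4 -
  3024*a*X3^2 + 1440*a*X3*X5 - 18000*a*X3 - 1280*a*X4^2 + 3384*a*X5 + 26235*a -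
  960*y^2*X2*Y2^2*Y4 + 112*y^2*Y2^4 + 320*y^2*Y2^3*Y4 + 1152*y^2*Y2^3*X6 + 2016*y^2*Y2^2*Y3 +
  448*y*X2^3*Y2 + 320*y*X2^3*Y4 - 672*y*X2^2*Y2^2 - 1920*y*X2^2*Y2*X4 - 960*y*X2^2*Y2*Y4 -
  1152*y*X2^2*Y2*X6 - 2016*y*X2^2*Y3 + 448*y*X2*Y2^3 + 1920*y*X2*Y2^2*X4 + 1152*y*X2*Y2^2*X6 +
  2688*y*X2*Y2*X3 + 4032*y*X2*Y2*Y3 + 2880*y*X2*Y2*X5 + 2160*y*X2*Y2 - 960*y*X2*X3*Y4 +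
  960*y*X2*Y3*X4 + 1152*y*X2*Y3*X6 - 1744*y*X2*Y4 - 640*y*Y2^3*X4 + 768*y*Y2^3*X6 -
  1344*y*Y2^2*X3 - 1440*y*Y2^2*X5 - 1080*y*Y2^2 + 960*y*Y2*X3*Y4 + 1152*y*Y2*X3*X6 -
  960*y*Y2*Y3*X4 - 1152*y*Y2*Y3*X6 - 10464*y*Y2*X4 + 1744*y*Y2*Y4 + 3168*y*Y2*X6 + 4032*y*X3*Y3 +
  504*y*Y3^2 - 2880*y*Y3*X5 + 6000*y*Y3 + 1280*y*X4*Y4 - 768*y*Y4*X6 + 112*X2^4 - 640*X2^3*X4 -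
  384*X2^3*X6 + 1344*X2^2*X3 + 1440*X2^2*X5 + 1080*X2^2 + 1152*X2*X3*X6 - 10464*X2*X4 +
  3168*X2*X6 + 4536*X3^2 - 2880*X3*X5 + 36000*X3 + 1280*X4^2 - 768*X4*X6 - 16920*X5 - 43725

/-- the equations in the case `b₄ = 1` -/
structure E1 (a d X2 X3 X4 X5 X6 : ℝ) : Prop where
  h4_400 : p4_400 a d X2 X3 X4 X5 X6 = 0
  h4_201 : p4_201 a d X2 X3 X4 X5 X6 = 0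
  h4_210 : p4_210 a d X2 X3 X4 X5 X6 = 0
  h4_020 : p4_020 a d X2 X3 X4 X5 X6 = 0
  h5_300 : p5_300 a d X2 X3 X4 X5 X6 = 0
  h5_101 : p5_101 a d X2 X3 X4 X5 X6 = 0
  h5_110 : p5_110 a d X2 X3 X4 X5 X6 = 0
  h6_200 : p6_200 a d X2 X3 X4 X5 X6 = 0
  h6_001 : p6_001 a d X2 X3 X4 X5 X6 = 0
  h6_010 : p6_010 a d X2 X3 X4 X5 X6 = 0
  h7_100 : p7_100 a d X2 X3 X4 X5 X6 = 0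
  h8_000 : p8_000 a d X2 X3 X4 X5 X6 = 0

/-- the equations in the case `b₄ = 2` -/
structure E2 (a y X2 Y2 X3 Y3 X4 Y4 X5 X6 : ℝ) : Prop where
  h4_3010 : q4_3010 a y X2 Y2 X3 Y3 X4 Y4 X5 X6 = 0
  h4_4000 : q4_4000 a y X2 Y2 X3 Y3 X4 Y4 X5 X6 = 0
  h4_2001 : q4_2001 a y X2 Y2 X3 Y3 X4 Y4 X5 X6 = 0
  h4_1110 : q4_1110 a y X2 Y2 X3 Y3 X4 Y4 X5 X6 = 0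
  h4_2100 : q4_2100 a y X2 Y2 X3 Y3 X4 Y4 X5 X6 = 0
  h4_0101 : q4_0101 a y X2 Y2 X3 Y3 X4 Y4 X5 X6 = 0
  h4_0200 : q4_0200 a y X2 Y2 X3 Y3 X4 Y4 X5 X6 = 0
  h5_2010 : q5_2010 a y X2 Y2 X3 Y3 X4 Y4 X5 X6 = 0
  h5_3000 : q5_3000 a y X2 Y2 X3 Y3 X4 Y4 X5 X6 = 0
  h5_1001 : q5_1001 a y X2 Y2 X3 Y3 X4 Y4 X5 X6 = 0
  h5_0110 : q5_0110 a y X2 Y2 X3 Y3 X4 Y4 X5 X6 = 0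
  h5_1100 : q5_1100 a y X2 Y2 X3 Y3 X4 Y4 X5 X6 = 0
  h6_1010 : q6_1010 a y X2 Y2 X3 Y3 X4 Y4 X5 X6 = 0
  h6_2000 : q6_2000 a y X2 Y2 X3 Y3 X4 Y4 X5 X6 = 0
  h6_0001 : q6_0001 a y X2 Y2 X3 Y3 X4 Y4 X5 X6 = 0
  h6_0100 : q6_0100 a y X2 Y2 X3 Y3 X4 Y4 X5 X6 = 0
  h7_0010 : q7_0010 a y X2 Y2 X3 Y3 X4 Y4 X5 X6 = 0
  h7_1000 : q7_1000 a y X2 Y2 X3 Y3 X4 Y4 X5 X6 = 0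
  h8_0000 : q8_0000 a y X2 Y2 X3 Y3 X4 Y4 X5 X6 = 0

/-- row CERT1 -/
def CERT1 : Prop := ∀ a d X2 X3 X4 X5 X6 : ℝ, 0 ≤ a → ¬ E1 a d X2 X3 X4 X5 X6

/-- row CERT2 -/
def CERT2 : Prop := ∀ a y X2 Y2 X3 Y3 X4 Y4 X5 X6 : ℝ, 0 ≤ a → 0 < y →
  E2 a y X2 Y2 X3 Y3 X4 Y4 X5 X6 → a = 5 / 3 ∧ y = 1 / 9 ∧ X3 = -1 / 3 ∧ Y3 = 3 ∧ X5 = 0 ∧
  ((X2 = 11 / 10 ∧ Y2 = 3 / 5 ∧ X4 = -3 / 4 ∧ Y4 = 21 / 2 ∧ X6 = 7 / 3) ∨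
    (X2 = -11 / 10 ∧ Y2 = -3 / 5 ∧ X4 = 3 / 4 ∧ Y4 = -21 / 2 ∧ X6 = -7 / 3) ∨
    (X2 = 1 / 2 ∧ Y2 = 3 ∧ X4 = -1 / 4 ∧ Y4 = -3 / 2 ∧ X6 = 0) ∨
    (X2 = -1 / 2 ∧ Y2 = -3 ∧ X4 = 1 / 4 ∧ Y4 = 3 / 2 ∧ X6 = 0))

end Vale.Agent.P280Z.Al
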