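import Vale.Agent.P280Z.Al.Tab2
import Vale.Agent.P280Z.Al.Eqs

/-!
# P280Z, block Al: the equations in the case `b₄ = 1`
-/

noncomputable section

namespace Vale.Agent.P280Z.Al

/-- the relations in the ring of the space of curves -/
structure R1 {R : Type} [CommRing R] [Algebra ℝ R] (J : R →ₗ[ℝ] ℝ) (A e s : R) (a d : ℝ) :
    Prop where
  g1 : e * s = 0
  g2 : A * s ^ 2 + d • Hn A e 5 = 0
  g5 : Hn A e 6 = 0
  g6 : e * Hn A e 5 = 0
  n1 : J (Hn A e 3 * Hn A e 5) = 1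
  n2 : J (Hn A e 4 * Hn A e 4) = a

/-- the classes `T (ps (T_X) k)` in the case `b₄ = 1` -/
structure P1 {R : Type} [CommRing R] [Algebra ℝ R] (A e s U : R) (p : ℕ → R)
    (X2 X3 X4 X5 X6 : ℝ) : Prop where
  u : U = (1 / 4 : ℝ) • (A ^ 2 - 4 * e)
  p2 : p 2 = (2 : ℝ) • (X2 • A)
  p3 : p 3 = (3 : ℝ) • (X3 • Hn A e 2 + s)
  p4 : p 4 = (4 : ℝ) • (X4 • Hn A e 3)
  p5 : p 5 = (5 : ℝ) • (X5 • Hn A e 4)
  p6 : p 6 = (6 : ℝ) • (X6 • Hn A e 5)
  p7 : p 7 = 0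
  p8 : p 8 = 0
  p9 : p 9 = 0

namespace Eq1

/-- the linear relations -/
structure L1 (j : ℕ → ℕ → ℕ → ℝ) (a d : ℝ) : Prop where
  n2 :
    (1) * j 8 0 0 + (-6) * j 6 1 0 + (11) * j 4 2 0 + (-6) * j 2 3 0 + (1) * j 0 4 0 = a
  n1 :
    (1) * j 8 0 0 + (-6) * j 6 1 0 + (11) * j 4 2 0 + (-6) * j 2 3 0 = 1
  r1_400 :
    (1) * j 4 1 1 = 0
  r1_201 :
    (1) * j 2 1 2 = 0
  r1_002 :
    (1) * j 0 1 3 = 0
  r1_210 :
    (1) * j 2 2 1 = 0
  r1_011 :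
    (1) * j 0 2 2 = 0
  r1_020 :
    (1) * j 0 3 1 = 0
  r2_300 :
    (d) * j 8 0 0 + (-4*d) * j 6 1 0 + (3*d) * j 4 2 0 + (1) * j 4 0 2 = 0
  r2_101 :
    (d) * j 6 0 1 + (-4*d) * j 4 1 1 + (3*d) * j 2 2 1 + (1) * j 2 0 3 = 0
  r5_200 :
    (1) * j 8 0 0 + (-5) * j 6 1 0 + (6) * j 4 2 0 + (-1) * j 2 3 0 = 0
  r5_001 :
    (1) * j 6 0 1 + (-5) * j 4 1 1 + (6) * j 2 2 1 + (-1) * j 0 3 1 = 0
  r5_010 :
    (1) * j 6 1 0 + (-5) * j 4 2 0 + (6) * j 2 3 0 + (-1) * j 0 4 0 = 0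
  r6_100 :
    (1) * j 6 1 0 + (-4) * j 4 2 0 + (3) * j 2 3 0 = 0

set_option linter.unusedSimpArgs false

variable {R : Type} [CommRing R] [Algebra ℝ R] {J : R →ₗ[ℝ] ℝ} {A e s U f1 f2 f3 : R}
  {p Q : ℕ → R} {a d X2 X3 X4 X5 X6 : ℝ} {j : ℕ → ℕ → ℕ → ℝ}

theorem G1 (h : R1 J A e s a d) :
    (1 : ℝ) • Mn A e s s 0 1 1 0 = 0 := by
  have k := h.g1
  simp only [Mn, Hn] at k ⊢
  linear_combination (norm := algebra) k

theorem G2 (h : R1 J A e s a d) :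
    (d : ℝ) • Mn A e s s 5 0 0 0 + (-4*d : ℝ) • Mn A e s s 3 1 0 0 + (3*d : ℝ) • Mn A e s s 1 2 0
    0 + (1 : ℝ) • Mn A e s s 1 0 2 0 = 0 := by
  have k := h.g2
  simp only [Mn, Hn] at k ⊢
  linear_combination (norm := algebra) k

theorem G5 (h : R1 J A e s a d) :
    (1 : ℝ) • Mn A e s s 6 0 0 0 + (-5 : ℝ) • Mn A e s s 4 1 0 0 + (6 : ℝ) • Mn A e s s 2 2 0 0 +
    (-1 : ℝ) • Mn A e s s 0 3 0 0 = 0 := by
  have k := h.g5
  simp only [Mn, Hn] at k ⊢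
  linear_combination (norm := algebra) k

theorem G6 (h : R1 J A e s a d) :
    (1 : ℝ) • Mn A e s s 5 1 0 0 + (-4 : ℝ) • Mn A e s s 3 2 0 0 + (3 : ℝ) • Mn A e s s 1 3 0 0 =
    0 := by
  have k := h.g6
  simp only [Mn, Hn] at k ⊢
  linear_combination (norm := algebra) k

theorem N1 (h : R1 J A e s a d) :
    J ((1 : ℝ) • Mn A e s s 8 0 0 0 + (-6 : ℝ) • Mn A e s s 6 1 0 0 + (11 : ℝ) • Mn A e s s 4 2 0
    0 + (-6 : ℝ) • Mn A e s s 2 3 0 0) = 1 := by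
  refine Eq.trans (congrArg J ?_) h.n1
  simp only [Mn, Hn]
  algebra

theorem N2 (h : R1 J A e s a d) :
    J ((1 : ℝ) • Mn A e s s 8 0 0 0 + (-6 : ℝ) • Mn A e s s 6 1 0 0 + (11 : ℝ) • Mn A e s s 4 2 0
    0 + (-6 : ℝ) • Mn A e s s 2 3 0 0 + (1 : ℝ) • Mn A e s s 0 4 0 0) = a := by
  refine Eq.trans (congrArg J ?_) h.n2
  simp only [Mn, Hn]
  algebra

theorem l1 (h : R1 J A e s a d) : L1 (fun i j k => J (Mn A e s s i j k 0)) a d := by
  have K : ∀ {x : R}, x = 0 → ∀ i j k, J (x * Mn A e s s i j k 0) = 0 := fun h _ _ _ => by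
    rw [h, zero_mul, map_zero]
  constructor
  · simpa only [map_add, map_smul, smul_eq_mul] using N2 h
  · simpa only [map_add, map_smul, smul_eq_mul] using N1 h
  · simpa only [add_mul, smul_mul_assoc, Mn_mul, Nat.reduceAdd, map_add, map_smul, smul_eq_mul]
      using K (G1 h) 4 0 0
  · simpa only [add_mul, smul_mul_assoc, Mn_mul, Nat.reduceAdd, map_add, map_smul, smul_eq_mul]
      using K (G1 h) 2 0 1
  · simpa only [add_mul, smul_mul_assoc, Mn_mul, Nat.reduceAdd, map_add, map_smul, smul_eq_mul]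
      using K (G1 h) 0 0 2
  · simpa only [add_mul, smul_mul_assoc, Mn_mul, Nat.reduceAdd, map_add, map_smul, smul_eq_mul]
      using K (G1 h) 2 1 0
  · simpa only [add_mul, smul_mul_assoc, Mn_mul, Nat.reduceAdd, map_add, map_smul, smul_eq_mul]
      using K (G1 h) 0 1 1
  · simpa only [add_mul, smul_mul_assoc, Mn_mul, Nat.reduceAdd, map_add, map_smul, smul_eq_mul]
      using K (G1 h) 0 2 0
  · simpa only [add_mul, smul_mul_assoc, Mn_mul, Nat.reduceAdd, map_add, map_smul, smul_eq_mul]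
      using K (G2 h) 3 0 0
  · simpa only [add_mul, smul_mul_assoc, Mn_mul, Nat.reduceAdd, map_add, map_smul, smul_eq_mul]
      using K (G2 h) 1 0 1
  · simpa only [add_mul, smul_mul_assoc, Mn_mul, Nat.reduceAdd, map_add, map_smul, smul_eq_mul]
      using K (G5 h) 2 0 0
  · simpa only [add_mul, smul_mul_assoc, Mn_mul, Nat.reduceAdd, map_add, map_smul, smul_eq_mul]
      using K (G5 h) 0 0 1
  · simpa only [add_mul, smul_mul_assoc, Mn_mul, Nat.reduceAdd, map_add, map_smul, smul_eq_mul]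
      using K (G5 h) 0 1 0
  · simpa only [add_mul, smul_mul_assoc, Mn_mul, Nat.reduceAdd, map_add, map_smul, smul_eq_mul]
      using K (G6 h) 1 0 0

theorem v800 (h : L1 j a d) : j 8 0 0 = 14*a + 14 := by
  linear_combination
    (19) * h.r6_100 + (14) * h.r5_010 + (-27) * h.r5_200 + (14) * h.n1 + (14) * h.n2

theorem v601 (h : L1 j a d) : j 6 0 1 = 0 := by
  linear_combination
    (1) * h.r5_001 + (5) * h.r1_400 + (-6) * h.r1_210 + (1) * h.r1_020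

theorem v402 (h : L1 j a d) : j 4 0 2 = -d := by
  linear_combination
    (1) * h.r2_300 + (-2*d) * h.r6_100 + (-d) * h.n1

theorem v203 (h : L1 j a d) : j 2 0 3 = 0 := by
  linear_combination
    (1) * h.r2_101 + (-d) * h.r1_400 + (3*d) * h.r1_210 + (-d) * h.r5_001 + (-d) * h.r1_020

theorem v610 (h : L1 j a d) : j 6 1 0 = 5*a + 4 := by
  linear_combination
    (5) * h.r5_010 + (-9) * h.r5_200 + (4) * h.n1 + (5) * h.n2 + (5) * h.r6_100

theorem v411 (h : L1 j a d) : j 4 1 1 = 0 := by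
  linear_combination
    (1) * h.r1_400

theorem v212 (h : L1 j a d) : j 2 1 2 = 0 := by
  linear_combination
    (1) * h.r1_201

theorem v013 (h : L1 j a d) : j 0 1 3 = 0 := by
  linear_combination
    (1) * h.r1_002

theorem v420 (h : L1 j a d) : j 4 2 0 = 2*a + 1 := by
  linear_combination
    (-3) * h.r5_200 + (1) * h.n1 + (1) * h.r6_100 + (2) * h.r5_010 + (2) * h.n2

theorem v221 (h : L1 j a d) : j 2 2 1 = 0 := by
  linear_combination
    (1) * h.r1_210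

theorem v022 (h : L1 j a d) : j 0 2 2 = 0 := by
  linear_combination
    (1) * h.r1_011

theorem v230 (h : L1 j a d) : j 2 3 0 = a := by
  linear_combination
    (1) * h.r5_010 + (-1) * h.r5_200 + (1) * h.n2

theorem v031 (h : L1 j a d) : j 0 3 1 = 0 := by
  linear_combination
    (1) * h.r1_020

theorem v040 (h : L1 j a d) : j 0 4 0 = a - 1 := by
  linear_combination
    (1) * h.n2 + (-1) * h.n1

theorem q1 (h : Chn p Q U f1 f2 f3) (k : P1 A e s U p X2 X3 X4 X5 X6) :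
    Q 1 = (X2 : ℝ) • Mn A e s s 1 0 0 0 := by
  have h1 := h.t2
  rw [k.p2] at h1
  simp only [Mn, Hn] at h1 ⊢
  linear_combination (norm := algebra) (-1 / 2 : ℝ) • h1

theorem q2 (h : Chn p Q U f1 f2 f3) (k : P1 A e s U p X2 X3 X4 X5 X6) :
    Q 2 = (X3 - (11/12) : ℝ) • Mn A e s s 2 0 0 0 + (-X3 + (11/3) : ℝ) • Mn A e s s 0 1 0 0 + (1
    : ℝ) • Mn A e s s 0 0 1 0 := by
  have h1 := h.t3
  rw [k.p3, k.u] at h1
  simp only [Mn, Hn] at h1 ⊢
  linear_combination (norm := algebra) (-1 / 3 : ℝ) • h1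

theorem q3 (h : Chn p Q U f1 f2 f3) (k : P1 A e s U p X2 X3 X4 X5 X6) :
    Q 3 = (-(1/4)*X2 + X4 : ℝ) • Mn A e s s 3 0 0 0 + (X2 - 2*X4 : ℝ) • Mn A e s s 1 1 0 0 := by
  have h1 := h.t4
  rw [k.p4, q1 h k, k.u] at h1
  simp only [Mn, Hn] at h1 ⊢
  linear_combination (norm := algebra) (-1 / 4 : ℝ) • h1

theorem q4 (h : Chn p Q U f1 f2 f3) (k : P1 A e s U p X2 X3 X4 X5 X6) :
    Q 4 = (-(1/2)*X3 + X5 + (1/48) : ℝ) • Mn A e s s 4 0 0 0 + ((5/2)*X3 - 3*X5 - (1/6) : ℝ) • Mn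
    A e s s 2 1 0 0 + (-(1/2) : ℝ) • Mn A e s s 2 0 1 0 + (-2*X3 + X5 + (1/3) : ℝ) • Mn A e s s 0
    2 0 0 + (2 : ℝ) • Mn A e s s 0 1 1 0 := by
  have h1 := h.t5
  rw [k.p5, q2 h k, k.u] at h1
  simp only [Mn, Hn] at h1 ⊢
  linear_combination (norm := algebra) (-1 / 5 : ℝ) • h1

theorem q5 (h : Chn p Q U f1 f2 f3) (k : P1 A e s U p X2 X3 X4 X5 X6) :
    Q 5 = ((7/48)*X2 - (5/6)*X4 + X6 : ℝ) • Mn A e s s 5 0 0 0 + (-(7/6)*X2 + 5*X4 - 4*X6 : ℝ) •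
    Mn A e s s 3 1 0 0 + ((7/3)*X2 - (20/3)*X4 + 3*X6 : ℝ) • Mn A e s s 1 2 0 0 := by
  have h1 := h.t6
  rw [k.p6, q1 h k, q3 h k, k.u] at h1
  simp only [Mn, Hn] at h1 ⊢
  linear_combination (norm := algebra) (-1 / 6 : ℝ) • h1

theorem q6 (h : Chn p Q U f1 f2 f3) (k : P1 A e s U p X2 X3 X4 X5 X6) :
    Q 6 = ((7/16)*X3 - (5/4)*X5 - (197/1344) : ℝ) • Mn A e s s 6 0 0 0 + (-(63/16)*X3 + (35/4)*X5
    + (197/112) : ℝ) • Mn A e s s 4 1 0 0 + ((7/16) : ℝ) • Mn A e s s 4 0 1 0 + ((21/2)*X3 -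
    (65/4)*X5 - (197/28) : ℝ) • Mn A e s s 2 2 0 0 + (-(7/2) : ℝ) • Mn A e s s 2 1 1 0 + (-7*X3 +
    5*X5 + (197/21) : ℝ) • Mn A e s s 0 3 0 0 + (7 : ℝ) • Mn A e s s 0 2 1 0 := by
  have h1 := h.t7
  rw [k.p7, q2 h k, q4 h k, k.u] at h1
  simp only [Mn, Hn] at h1 ⊢
  linear_combination (norm := algebra) (-1 / 7 : ℝ) • h1

theorem q7 (h : Chn p Q U f1 f2 f3) (k : P1 A e s U p X2 X3 X4 X5 X6) :
    Q 7 = (-(31/192)*X2 + (49/48)*X4 - (7/4)*X6 : ℝ) • Mn A e s s 7 0 0 0 + ((31/16)*X2 -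
    (245/24)*X4 + 14*X6 : ℝ) • Mn A e s s 5 1 0 0 + (-(31/4)*X2 + (98/3)*X4 - (133/4)*X6 : ℝ) •
    Mn A e s s 3 2 0 0 + ((31/3)*X2 - (98/3)*X4 + 21*X6 : ℝ) • Mn A e s s 1 3 0 0 := by
  have h1 := h.t8
  rw [k.p8, q1 h k, q3 h k, q5 h k, k.u] at h1
  simp only [Mn, Hn] at h1 ⊢
  linear_combination (norm := algebra) (-1 / 8 : ℝ) • h1

theorem q8 (h : Chn p Q U f1 f2 f3) (k : P1 A e s U p X2 X3 X4 X5 X6) :
    Q 8 = (-(31/48)*X3 + (49/24)*X5 + (121/768) : ℝ) • Mn A e s s 8 0 0 0 + ((403/48)*X3 -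
    (539/24)*X5 - (121/48) : ℝ) • Mn A e s s 6 1 0 0 + (-(31/48) : ℝ) • Mn A e s s 6 0 1 0 +
    (-(155/4)*X3 + (2009/24)*X5 + (121/8) : ℝ) • Mn A e s s 4 2 0 0 + ((31/4) : ℝ) • Mn A e s s 4
    1 1 0 + ((217/3)*X3 - (343/3)*X5 - (121/3) : ℝ) • Mn A e s s 2 3 0 0 + (-31 : ℝ) • Mn A e s s
    2 2 1 0 + (-(124/3)*X3 + (98/3)*X5 + (121/3) : ℝ) • Mn A e s s 0 4 0 0 + ((124/3) : ℝ) • Mn A
    e s s 0 3 1 0 := by
  have h1 := h.t9
  rw [k.p9, q2 h k, q4 h k, q6 h k, k.u] at h1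
  simp only [Mn, Hn] at h1 ⊢
  linear_combination (norm := algebra) (-1 / 9 : ℝ) • h1

theorem e1 (h : Chn p Q U f1 f2 f3) (k : P1 A e s U p X2 X3 X4 X5 X6) :
    f1 = (X2 : ℝ) • Mn A e s s 1 0 0 0 :=
  h.n1.symm.trans (q1 h k)

theorem e2 (h : Chn p Q U f1 f2 f3) (k : P1 A e s U p X2 X3 X4 X5 X6) :
    f2 = ((1/2)*X2^2 - (1/2)*X3 + (11/24) : ℝ) • Mn A e s s 2 0 0 0 + ((1/2)*X3 - (11/6) : ℝ) •
    Mn A e s s 0 1 0 0 + (-(1/2) : ℝ) • Mn A e s s 0 0 1 0 := by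
  have h1 := h.n2
  rw [q1 h k, q2 h k, e1 h k] at h1
  simp only [Mn] at h1 ⊢
  linear_combination (norm := algebra) (1 / 2 : ℝ) • h1

theorem e3 (h : Chn p Q U f1 f2 f3) (k : P1 A e s U p X2 X3 X4 X5 X6) :
    f3 = ((1/6)*X2^3 - (1/2)*X2*X3 + (3/8)*X2 + (1/3)*X4 : ℝ) • Mn A e s s 3 0 0 0 + ((1/2)*X2*X3
    - (3/2)*X2 - (2/3)*X4 : ℝ) • Mn A e s s 1 1 0 0 + (-(1/2)*X2 : ℝ) • Mn A e s s 1 0 1 0 := by
  have h1 := h.n3
  rw [q1 h k, q2 h k, q3 h k, e1 h k, e2 h k] at h1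
  simp only [Mn] at h1 ⊢
  linear_combination (norm := algebra) (-1 / 3 : ℝ) • h1

set_option maxHeartbeats 1000000 in
theorem h4_400 (h : Chn p Q U f1 f2 f3) (k : P1 A e s U p X2 X3 X4 X5 X6)
    (v : L1 (fun i j k => J (Mn A e s s i j k 0)) a d) :
    p4_400 a d X2 X3 X4 X5 X6 = 0 := by
  have h1 := congrArg (fun x => J (x * Mn A e s s 4 0 0 0)) (h.nk 0)
  simp only [Nat.reduceAdd, zero_add] at h1
  rw [q4 h k, q3 h k, q2 h k, q1 h k, e1 h k, e2 h k, e3 h k] at h1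
  simp only [add_mul, mul_add, sub_mul, smul_mul_assoc, mul_smul_comm, Mn_mul, Nat.reduceAdd,
    map_add, map_sub, map_smul, smul_eq_mul, v402 v, v411 v, v420 v, v601 v, v610 v,
    v800 v] at h1
  unfold p4_400
  linear_combination 144 * h1

set_option maxHeartbeats 1000000 in
theorem h4_201 (h : Chn p Q U f1 f2 f3) (k : P1 A e s U p X2 X3 X4 X5 X6)
    (v : L1 (fun i j k => J (Mn A e s s i j k 0)) a d) :
    p4_201 a d X2 X3 X4 X5 X6 = 0 := by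
  have h1 := congrArg (fun x => J (x * Mn A e s s 2 0 1 0)) (h.nk 0)
  simp only [Nat.reduceAdd, zero_add] at h1
  rw [q4 h k, q3 h k, q2 h k, q1 h k, e1 h k, e2 h k, e3 h k] at h1
  simp only [add_mul, mul_add, sub_mul, smul_mul_assoc, mul_smul_comm, Mn_mul, Nat.reduceAdd,
    map_add, map_sub, map_smul, smul_eq_mul, v203 v, v212 v, v221 v, v402 v, v411 v,
    v601 v] at h1
  unfold p4_201
  linear_combination 12 * h1

set_option maxHeartbeats 1000000 in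
theorem h4_210 (h : Chn p Q U f1 f2 f3) (k : P1 A e s U p X2 X3 X4 X5 X6)
    (v : L1 (fun i j k => J (Mn A e s s i j k 0)) a d) :
    p4_210 a d X2 X3 X4 X5 X6 = 0 := by
  have h1 := congrArg (fun x => J (x * Mn A e s s 2 1 0 0)) (h.nk 0)
  simp only [Nat.reduceAdd, zero_add] at h1
  rw [q4 h k, q3 h k, q2 h k, q1 h k, e1 h k, e2 h k, e3 h k] at h1
  simp only [add_mul, mul_add, sub_mul, smul_mul_assoc, mul_smul_comm, Mn_mul, Nat.reduceAdd,
    map_add, map_sub, map_smul, smul_eq_mul, v212 v, v221 v, v230 v, v411 v, v420 v,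
    v610 v] at h1
  unfold p4_210
  linear_combination 288 * h1

set_option maxHeartbeats 1000000 in
theorem h4_020 (h : Chn p Q U f1 f2 f3) (k : P1 A e s U p X2 X3 X4 X5 X6)
    (v : L1 (fun i j k => J (Mn A e s s i j k 0)) a d) :
    p4_020 a d X2 X3 X4 X5 X6 = 0 := by
  have h1 := congrArg (fun x => J (x * Mn A e s s 0 2 0 0)) (h.nk 0)
  simp only [Nat.reduceAdd, zero_add] at h1
  rw [q4 h k, q3 h k, q2 h k, q1 h k, e1 h k, e2 h k, e3 h k] at h1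
  simp only [add_mul, mul_add, sub_mul, smul_mul_assoc, mul_smul_comm, Mn_mul, Nat.reduceAdd,
    map_add, map_sub, map_smul, smul_eq_mul, v022 v, v031 v, v040 v, v221 v, v230 v,
    v420 v] at h1
  unfold p4_020
  linear_combination 288 * h1

set_option maxHeartbeats 1000000 in
theorem h5_300 (h : Chn p Q U f1 f2 f3) (k : P1 A e s U p X2 X3 X4 X5 X6)
    (v : L1 (fun i j k => J (Mn A e s s i j k 0)) a d) :
    p5_300 a d X2 X3 X4 X5 X6 = 0 := by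
  have h1 := congrArg (fun x => J (x * Mn A e s s 3 0 0 0)) (h.nk 1)
  simp only [Nat.reduceAdd, zero_add] at h1
  rw [q5 h k, q4 h k, q3 h k, q2 h k, e1 h k, e2 h k, e3 h k] at h1
  simp only [add_mul, mul_add, sub_mul, smul_mul_assoc, mul_smul_comm, Mn_mul, Nat.reduceAdd,
    map_add, map_sub, map_smul, smul_eq_mul, v402 v, v411 v, v420 v, v601 v, v610 v,
    v800 v] at h1
  unfold p5_300
  linear_combination 72 * h1

set_option maxHeartbeats 1000000 in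
theorem h5_101 (h : Chn p Q U f1 f2 f3) (k : P1 A e s U p X2 X3 X4 X5 X6)
    (v : L1 (fun i j k => J (Mn A e s s i j k 0)) a d) :
    p5_101 a d X2 X3 X4 X5 X6 = 0 := by
  have h1 := congrArg (fun x => J (x * Mn A e s s 1 0 1 0)) (h.nk 1)
  simp only [Nat.reduceAdd, zero_add] at h1
  rw [q5 h k, q4 h k, q3 h k, q2 h k, e1 h k, e2 h k, e3 h k] at h1
  simp only [add_mul, mul_add, sub_mul, smul_mul_assoc, mul_smul_comm, Mn_mul, Nat.reduceAdd,
    map_add, map_sub, map_smul, smul_eq_mul, v203 v, v212 v, v221 v, v402 v, v411 v,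
    v601 v] at h1
  unfold p5_101
  linear_combination 24 * h1

set_option maxHeartbeats 1000000 in
theorem h5_110 (h : Chn p Q U f1 f2 f3) (k : P1 A e s U p X2 X3 X4 X5 X6)
    (v : L1 (fun i j k => J (Mn A e s s i j k 0)) a d) :
    p5_110 a d X2 X3 X4 X5 X6 = 0 := by
  have h1 := congrArg (fun x => J (x * Mn A e s s 1 1 0 0)) (h.nk 1)
  simp only [Nat.reduceAdd, zero_add] at h1
  rw [q5 h k, q4 h k, q3 h k, q2 h k, e1 h k, e2 h k, e3 h k] at h1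
  simp only [add_mul, mul_add, sub_mul, smul_mul_assoc, mul_smul_comm, Mn_mul, Nat.reduceAdd,
    map_add, map_sub, map_smul, smul_eq_mul, v212 v, v221 v, v230 v, v411 v, v420 v,
    v610 v] at h1
  unfold p5_110
  linear_combination 144 * h1

set_option maxHeartbeats 1000000 in
theorem h6_200 (h : Chn p Q U f1 f2 f3) (k : P1 A e s U p X2 X3 X4 X5 X6)
    (v : L1 (fun i j k => J (Mn A e s s i j k 0)) a d) :
    p6_200 a d X2 X3 X4 X5 X6 = 0 := by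
  have h1 := congrArg (fun x => J (x * Mn A e s s 2 0 0 0)) (h.nk 2)
  simp only [Nat.reduceAdd, zero_add] at h1
  rw [q6 h k, q5 h k, q4 h k, q3 h k, e1 h k, e2 h k, e3 h k] at h1
  simp only [add_mul, mul_add, sub_mul, smul_mul_assoc, mul_smul_comm, Mn_mul, Nat.reduceAdd,
    map_add, map_sub, map_smul, smul_eq_mul, v212 v, v221 v, v230 v, v402 v, v411 v, v420 v,
    v601 v, v610 v, v800 v] at h1
  unfold p6_200
  linear_combination 576 * h1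

set_option maxHeartbeats 1000000 in
theorem h6_001 (h : Chn p Q U f1 f2 f3) (k : P1 A e s U p X2 X3 X4 X5 X6)
    (v : L1 (fun i j k => J (Mn A e s s i j k 0)) a d) :
    p6_001 a d X2 X3 X4 X5 X6 = 0 := by
  have h1 := congrArg (fun x => J (x * Mn A e s s 0 0 1 0)) (h.nk 2)
  simp only [Nat.reduceAdd, zero_add] at h1
  rw [q6 h k, q5 h k, q4 h k, q3 h k, e1 h k, e2 h k, e3 h k] at h1
  simp only [add_mul, mul_add, sub_mul, smul_mul_assoc, mul_smul_comm, Mn_mul, Nat.reduceAdd,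
    map_add, map_sub, map_smul, smul_eq_mul, v013 v, v022 v, v031 v, v203 v, v212 v, v221 v,
    v402 v, v411 v, v601 v] at h1
  unfold p6_001
  linear_combination 96 * h1

set_option maxHeartbeats 1000000 in
theorem h6_010 (h : Chn p Q U f1 f2 f3) (k : P1 A e s U p X2 X3 X4 X5 X6)
    (v : L1 (fun i j k => J (Mn A e s s i j k 0)) a d) :
    p6_010 a d X2 X3 X4 X5 X6 = 0 := by
  have h1 := congrArg (fun x => J (x * Mn A e s s 0 1 0 0)) (h.nk 2)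
  simp only [Nat.reduceAdd, zero_add] at h1
  rw [q6 h k, q5 h k, q4 h k, q3 h k, e1 h k, e2 h k, e3 h k] at h1
  simp only [add_mul, mul_add, sub_mul, smul_mul_assoc, mul_smul_comm, Mn_mul, Nat.reduceAdd,
    map_add, map_sub, map_smul, smul_eq_mul, v022 v, v031 v, v040 v, v212 v, v221 v, v230 v,
    v411 v, v420 v, v610 v] at h1
  unfold p6_010
  linear_combination 1152 * h1

set_option maxHeartbeats 1000000 in
theorem h7_100 (h : Chn p Q U f1 f2 f3) (k : P1 A e s U p X2 X3 X4 X5 X6)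
    (v : L1 (fun i j k => J (Mn A e s s i j k 0)) a d) :
    p7_100 a d X2 X3 X4 X5 X6 = 0 := by
  have h1 := congrArg (fun x => J (x * Mn A e s s 1 0 0 0)) (h.nk 3)
  simp only [Nat.reduceAdd, zero_add] at h1
  rw [q7 h k, q6 h k, q5 h k, q4 h k, e1 h k, e2 h k, e3 h k] at h1
  simp only [add_mul, mul_add, sub_mul, smul_mul_assoc, mul_smul_comm, Mn_mul, Nat.reduceAdd,
    map_add, map_sub, map_smul, smul_eq_mul, v212 v, v221 v, v230 v, v402 v, v411 v, v420 v,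
    v601 v, v610 v, v800 v] at h1
  unfold p7_100
  linear_combination 144 * h1

set_option maxHeartbeats 1000000 in
theorem h8_000 (h : Chn p Q U f1 f2 f3) (k : P1 A e s U p X2 X3 X4 X5 X6)
    (v : L1 (fun i j k => J (Mn A e s s i j k 0)) a d) :
    p8_000 a d X2 X3 X4 X5 X6 = 0 := by
  have h1 := congrArg (fun x => J (x * Mn A e s s 0 0 0 0)) (h.nk 4)
  simp only [Nat.reduceAdd, zero_add] at h1
  rw [q8 h k, q7 h k, q6 h k, q5 h k, e1 h k, e2 h k, e3 h k] at h1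
  simp only [add_mul, mul_add, sub_mul, smul_mul_assoc, mul_smul_comm, Mn_mul, Nat.reduceAdd,
    map_add, map_sub, map_smul, smul_eq_mul, v022 v, v031 v, v040 v, v212 v, v221 v, v230 v,
    v402 v, v411 v, v420 v, v601 v, v610 v, v800 v] at h1
  unfold p8_000
  linear_combination 2304 * h1

end Eq1

open Eq1 in
/-- the equations in the case `b₄ = 1` -/
theorem eq1 {R : Type} [CommRing R] [Algebra ℝ R] {J : R →ₗ[ℝ] ℝ} {A e s U f1 f2 f3 : R}
    {p Q : ℕ → R} {a d X2 X3 X4 X5 X6 : ℝ} (r : R1 J A e s a d)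
    (h : Chn p Q U f1 f2 f3) (k : P1 A e s U p X2 X3 X4 X5 X6) : E1 a d X2 X3 X4 X5 X6 :=
  ⟨h4_400 h k (l1 r), h4_201 h k (l1 r), h4_210 h k (l1 r), h4_020 h k (l1 r), h5_300 h k (l1 r),
  h5_101 h k (l1 r), h5_110 h k (l1 r), h6_200 h k (l1 r), h6_001 h k (l1 r), h6_010 h k (l1 r),
  h7_100 h k (l1 r), h8_000 h k (l1 r)⟩

end Vale.Agent.P280Z.Al
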