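import Vale.Agent.P280Z.Al.Eq2a
import Vale.Agent.P280Z.Al.Eq2b
import Vale.Agent.P280Z.Al.Eq2c
import Vale.Agent.P280Z.Al.Eq2d

/-!
# P280Z, block Al: the equations in the case `b₄ = 2`
-/

namespace Vale.Agent.P280Z.Al

open Eq2 in
/-- the equations in the case `b₄ = 2` -/
theorem eq2 {R : Type} [CommRing R] [Algebra ℝ R] {J : R →ₗ[ℝ] ℝ} {A e t r U f1 f2 f3 : R}
    {p Q : ℕ → R} {a y X2 Y2 X3 Y3 X4 Y4 X5 X6 : ℝ} (g : R2 J A e t r a y) (hy : y ≠ 0)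
    (h : Chn p Q U f1 f2 f3) (k : P2 A e t r U p X2 Y2 X3 Y3 X4 Y4 X5 X6) :
    E2 a y X2 Y2 X3 Y3 X4 Y4 X5 X6 :=
  have n := nf2 h k
  have v := tab2 g
  ⟨h4_3010 n v hy, h4_4000 n v, h4_2001 n v hy, h4_1110 n v hy, h4_2100 n v, h4_0101 n v hy,
  h4_0200 n v, h5_2010 n v hy, h5_3000 n v, h5_1001 n v hy, h5_0110 n v hy, h5_1100 n v,
  h6_1010 n v hy, h6_2000 n v, h6_0001 n v hy, h6_0100 n v, h7_0010 n v hy, h7_1000 n v,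
  h8_0000 n v⟩

end Vale.Agent.P280Z.Al
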