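import Vale.Agent.P280Z.Al.Defs

/-!
# P280Z, block Al: the ring of `X` in dimension six
-/

noncomputable section

namespace Vale.Agent.P280Z.Al

namespace X4a

section Gr

variable {A : Type} [CommRing A] [Algebra ℝ A] {G : GA A} {n j k : ℕ} {a b : A}

theorem dg_add (ha : G.Dg k a) (hb : G.Dg k b) : G.Dg k (a + b) := by
  unfold GA.Dg at *
  rw [map_add, ha, hb]

theorem dg_sub (ha : G.Dg k a) (hb : G.Dg k b) : G.Dg k (a - b) := by
  unfold GA.Dg at *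
  rw [map_sub, ha, hb]

theorem dg_smul (c : ℝ) (ha : G.Dg k a) : G.Dg k (c • a) := by
  unfold GA.Dg at *
  rw [map_smul, ha]

theorem dg_pow (hG : G.OK n) (ha : G.Dg 1 a) (k : ℕ) : G.Dg k (a ^ k) := by
  induction k with
  | zero => simpa using hG.dg_one
  | succ k ih => simpa [pow_succ] using hG.dg_mul _ _ _ _ ih ha

theorem pd' (hG : G.OK n) (ha : G.Dg j a) (hjk : j + k = n)
    (h : ∀ b, G.Dg k b → G.int (a * b) = 0) : a = 0 := by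
  refine hG.pd a fun b => ?_
  rw [← hG.pr_sum b, Finset.mul_sum, map_sum]
  refine Finset.sum_eq_zero fun i _ => ?_
  have hi : G.Dg i (G.pr i b) := by simp [GA.Dg, hG.pr_pr]
  by_cases e : i = k
  · exact h _ (e ▸ hi)
  · have h1 : G.pr (j + i) (a * G.pr i b) = a * G.pr i b := hG.dg_mul _ _ _ _ ha hi
    rw [← hG.int_pr, ← h1, hG.pr_pr, if_neg (by omega), map_zero]

end Gr

variable {A B : Type} [CommRing A] [Algebra ℝ A] [CommRing B] [Algebra ℝ B] {S : NS A B}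
  {D a : ℝ}

/-- primitive classes of degree two -/
def Prim (S : NS A B) (p : A) : Prop := S.GX.Dg 2 p ∧ S.η ^ 3 * p = 0

theorem swap (hO : S.OK 6 3) (β γ : A) :
    S.GX.int (β * S.Sg γ) = S.GX.int (γ * S.Sg β) := by
  rw [mul_comm β, mul_comm γ, NS.Sg, NS.Sg, ← hO.proj, ← hO.proj, hO.el_int, hO.el_int, hO.T_int,
    mul_comm]

theorem dg_Sg (hL : S.Lei) (hE : S.Elr) {k : ℕ} {c : A} (hc : S.GX.Dg (k + 4) c) :
    S.GX.Dg k (S.Sg c) := hE.dl _ _ (hL.dT _ _ (hL.de _ _ hc))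

theorem dη (hO : S.OK 6 3) (k : ℕ) : S.GX.Dg k (S.η ^ k) := dg_pow hO.gx hO.dη k

theorem dh (hO : S.OK 6 3) (hL : S.Lei) : S.GU.Dg 1 S.hh := hL.de _ _ hO.dη

theorem dk (hO : S.OK 6 3) (hL : S.Lei) : S.GU.Dg 1 S.hc := dg_sub (dh hO hL) hO.dτ

theorem tau (S : NS A B) : S.τ = S.hh - S.hc := by simp [NS.hc]

theorem Prim.int4 {p : A} (hp : Prim S p) : S.GX.int (S.η ^ 4 * p) = 0 := by
  rw [pow_succ', mul_assoc, hp.2, mul_zero, map_zero]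

theorem split2 (hO : S.OK 6 3) (hE : S.Elr) {c : A} (hc : S.GX.Dg 2 c) :
    ∃ (x : ℝ) (p : A), Prim S p ∧ c = x • S.η ^ 2 + p := by
  obtain ⟨x, hx⟩ := hE.d5 _ (hO.gx.dg_mul _ _ _ _ (dη hO 3) hc)
  refine ⟨x, c - x • S.η ^ 2, ⟨dg_sub hc (dg_smul _ (dη hO 2)), ?_⟩, by ring⟩
  rw [mul_sub, hx, mul_smul_comm, ← pow_add, sub_self]

theorem split3 (hO : S.OK 6 3) {c : A} (hc : S.GX.Dg 3 c) :
    ∃ c' δ, S.GX.Dg 2 c' ∧ S.GX.Dg 3 δ ∧ S.η * δ = 0 ∧ c = S.η * c' + δ := by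
  obtain ⟨c', h1, h2⟩ := (hO.hl 2 2 rfl).2 _ (hO.gx.dg_mul 1 3 _ _ hO.dη hc)
  exact ⟨c', c - S.η * c', h1, dg_sub hc (hO.gx.dg_mul _ _ _ _ hO.dη h1),
    by linear_combination -h2, by ring⟩

theorem nondeg (hO : S.OK 6 3) (hE : S.Elr) {p : A} (hp : Prim S p)
    (h : ∀ q, Prim S q → S.GX.int (p * q * S.η ^ 2) = 0) : p = 0 := by
  refine pd' hO.gx hp.1 (k := 4) rfl fun b hb => ?_
  obtain ⟨c, h1, rfl⟩ := (hO.hl 2 2 rfl).2 b hb
  obtain ⟨x, q, hq, rfl⟩ := split2 hO hE h1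
  rw [show p * (S.η ^ 2 * (x • S.η ^ 2 + q)) = x • (S.η ^ 4 * p) + p * q * S.η ^ 2 by
    simp only [Algebra.smul_def]; ring, map_add, map_smul, hp.int4, h q hq, smul_zero, add_zero]

theorem prim_w (hO : S.OK 6 3) (hL : S.Lei) (hE : S.Elr) (hN : S.Num D a) :
    Prim S (S.Sg (S.η ^ 6) - D • S.η ^ 2) := by
  have h1 := dg_sub (dg_Sg hL hE (k := 2) (dη hO 6)) (dg_smul D (dη hO 2))
  obtain ⟨x, hx⟩ := hE.d5 _ (hO.gx.dg_mul _ _ _ _ (dη hO 3) h1)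
  have h2 := congrArg (fun z => S.GX.int (S.η * z)) hx
  simp only [← mul_assoc, ← pow_succ', mul_sub, mul_smul_comm, ← pow_add, map_sub, map_smul] at h2
  rw [swap hO, hN.s4, mul_comm, ← Algebra.smul_def, map_smul, sub_self] at h2
  refine ⟨h1, ?_⟩
  rw [hx, (mul_eq_zero.1 h2.symm).resolve_right hO.vol.ne', zero_smul]

theorem T_prim (hL : S.Lei) {p : A} (hp : Prim S p) :
    S.T (S.es p) * S.hc ^ 3 = -(S.es p * S.H 2) := by
  have h1 := hL.mul (S.es p) (S.hh ^ 3)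
  rw [hL.pow 2, show S.es p * S.hh ^ 3 = 0 by
    rw [NS.hh, ← map_pow, ← map_mul, mul_comm, hp.2, map_zero], map_zero, tau] at h1
  simp only [NS.H, Hn, NS.aa, NS.ee] at h1 ⊢
  linear_combination -h1

theorem el_H2 (hO : S.OK 6 3) (hL : S.Lei) (hE : S.Elr) {p : A} (hp : Prim S p) :
    S.el (S.H 2 * S.T (S.es p)) = S.Sg (S.η ^ 2 * p) := by
  have h1 := hL.mul (S.hh ^ 2) (S.es p)
  have h2 := dg_add (dh hO hL) (dk hO hL)
  have h3 := hE.lo 2 _ (by norm_num) (hO.gu.dg_mul _ _ _ _ h2 (hL.dT 1 _ (hL.de _ _ hp.1)))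
  have h4 : S.H 2 * S.T (S.es p) + (S.hh + S.hc) * S.es p =
      S.T (S.hh ^ 2 * S.es p) + (S.hh + S.hc) * S.T (S.es p) * S.es S.η := by
    rw [h1, hL.pow 1, tau]
    simp only [NS.H, Hn, NS.aa, NS.ee, ← show S.hh = S.es S.η from rfl]
    ring
  have h5 := congrArg S.el h4
  rw [map_add, map_add, hO.proj, hO.proj, h3, hE.lo 1 _ (by norm_num) h2, zero_mul, zero_mul,
    add_zero, add_zero] at h5
  rw [h5, NS.Sg, map_mul S.es, map_pow S.es, NS.hh]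

/-- any two primitive classes satisfy a linear relation -/
theorem rel1 (hO : S.OK 6 3) (hL : S.Lei) (hE : S.Elr) {p q : A} (hp : Prim S p) (hq : Prim S q) :
    S.GX.int ((S.Sg (S.η ^ 6) - D • S.η ^ 2) * q * S.η ^ 2) • p =
      S.GX.int ((S.Sg (S.η ^ 6) - D • S.η ^ 2) * p * S.η ^ 2) • q := by
  have h1 : ∀ {p q : A}, Prim S p → Prim S q →
      S.el (S.T (S.es p) * S.T (S.es q) * S.hc ^ 3) = -(S.Sg (S.η ^ 2 * q) * p) := fun hp hq => by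
    rw [← el_H2 hO hL hE hq, ← hO.proj, ← map_neg, mul_right_comm, T_prim hL hp]
    congr 1
    ring
  have h2 : ∀ {q : A}, Prim S q → S.GX.int (S.η ^ 6) • S.Sg (S.η ^ 2 * q) = algebraMap ℝ A
      (S.GX.int ((S.Sg (S.η ^ 6) - D • S.η ^ 2) * q * S.η ^ 2)) := fun {q} hq => by
    obtain ⟨c, hc⟩ := hO.h0 _ (dg_Sg hL hE (k := 0) (hO.gx.dg_mul 2 2 _ _ (dη hO 2) hq.1))
    have k1 := swap hO (S.η ^ 2 * q) (S.η ^ 6)
    rw [hc, mul_comm (S.η ^ 6), ← Algebra.smul_def, map_smul, smul_eq_mul] at k1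
    rw [show (S.Sg (S.η ^ 6) - D • S.η ^ 2) * q * S.η ^ 2 = S.η ^ 2 * q * S.Sg (S.η ^ 6) -
      D • (S.η ^ 4 * q) by simp only [Algebra.smul_def]; ring, map_sub, map_smul, hq.int4, k1, hc,
      smul_zero, sub_zero, Algebra.smul_def, ← map_mul, mul_comm]
  have h3 := h1 hp hq
  rw [mul_comm (S.T _), h1 hq hp, neg_inj] at h3
  rw [Algebra.smul_def _ p, Algebra.smul_def _ q, ← h2 hp, ← h2 hq, smul_mul_assoc,
    smul_mul_assoc, h3]

theorem rel2 (hO : S.OK 6 3) (hL : S.Lei) (hE : S.Elr) (hN : S.Num D a) {p q : A} (hp : Prim S p)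
    (hq : Prim S q) : S.GX.int (p * q * S.Sg (S.η ^ 6)) =
      -((a + 1) * D) * S.GX.int (p * q * S.η ^ 2) := by
  have h7 : S.hh ^ 7 = 0 := by
    rw [NS.hh, ← map_pow, hE.hi 7 _ (by norm_num) (dη hO 7), map_zero]
  have h1 := hL.pow 6
  rw [h7, map_zero] at h1
  have h2 : S.hc ^ 7 = 0 := by
    simp only [NS.H, Hn, NS.aa, NS.ee] at h1
    linear_combination h7 + (S.hh - S.hc) * h1
  have h3 : S.H 2 ^ 2 * S.hc * S.es (p * q) = 0 := by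
    rw [map_mul]
    linear_combination S.T (S.es p) * S.T (S.es q) * h2 -
      S.hc * (S.T (S.es q) * S.hc ^ 3) * T_prim hL hp + S.hc * (S.es p * S.H 2) * T_prim hL hq
  have d1 := dh hO hL
  have d2 := dk hO hL
  have m := fun {x y : B} (hx : S.GU.Dg 1 x) (hy : S.GU.Dg 1 y) => hO.gu.dg_mul _ _ _ _ hx hy
  have h4 := hE.lo 2 _ (by norm_num) (m (dg_add d1 d2) (dg_add d1 d2))
  have h5 := hE.lo 2 _ (by norm_num) (m (dg_add d1 d1) d1)
  have h6 : S.H 2 ^ 2 * S.hc = S.T (S.es (S.η ^ 6)) + S.T (S.es (S.η ^ 5)) * S.es S.η +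
      S.T (S.es (S.η ^ 4)) * S.es (S.η ^ 2) - (S.hh + S.hc) * (S.hh + S.hc) * S.es (S.η ^ 3) -
      (S.hh + S.hh) * S.hh * S.es (S.η ^ 3) := by
    simp only [map_pow, ← show S.hh = S.es S.η from rfl]
    rw [hL.pow 5, hL.pow 4, hL.pow 3]
    simp only [NS.H, Hn, NS.aa, NS.ee]
    ring
  have h8 := congrArg S.el h3
  rw [hO.proj, h6, map_sub, map_sub, map_add, map_add, hO.proj, hO.proj, hO.proj, hO.proj, h4, h5,
    map_zero] at h8
  have e4 := hN.s4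
  have e5 := hN.s5
  unfold NS.Sg at *
  rw [e4, e5] at h8
  rw [← smul_eq_mul (-((a + 1) * D)), ← map_smul]
  congr 1
  simp only [Algebra.smul_def, map_neg, map_mul, map_add, map_one] at h8 ⊢
  linear_combination h8

theorem rel3 (hO : S.OK 6 3) (hL : S.Lei) (hE : S.Elr) {y z : A} (hy : S.GX.Dg 3 y)
    (hz : S.GX.Dg 3 z) (ez : S.η * z = 0) : ∃ c : ℝ, S.Sg (y * z) = c • S.η ^ 2 := by
  have h1 := hL.mul S.hh (S.es z)
  rw [NS.hh, ← map_mul, ez, map_zero, map_zero, hO.Tη] at h1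
  have dy := hL.dT 2 _ (hL.de _ _ hy)
  have dz := hL.dT 2 _ (hL.de _ _ hz)
  obtain ⟨c, hc⟩ := hO.b2 _ (hE.dl 1 _ (hO.gu.dg_mul 2 2 _ _ dy dz))
  have h2 : S.T (S.es (y * z)) =
      S.T (S.es z) * S.es y - S.T (S.es y) * S.T (S.es z) * S.es S.η := by
    rw [map_mul, hL.mul]
    linear_combination -S.T (S.es y) * h1
  refine ⟨-c, ?_⟩
  rw [NS.Sg, h2, map_sub, hO.proj, hO.proj, hc, hE.lo 2 _ (by norm_num) dz, zero_mul, zero_sub,
    smul_mul_assoc, neg_smul, sq]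

end X4a

open X4a

theorem x4 : X4 := by
  intro A B _ _ _ _ S D a hO hL hE hN
  have hw := prim_w hO hL hE hN
  have v0 := hO.vol
  have D0 := hN.pos
  have a0 := hN.nn
  by_cases h0 : S.Sg (S.η ^ 6) - D • S.η ^ 2 = 0
  · have h1 : ∀ p, Prim S p → p = 0 := fun p hp => nondeg hO hE hp fun q hq => by
      have k1 := rel2 hO hL hE hN hp hq
      rw [sub_eq_zero.1 h0, mul_smul_comm, map_smul, smul_eq_mul] at k1
      have k2 : ((a + 2) * D) * S.GX.int (p * q * S.η ^ 2) = 0 := by linarith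
      exact (mul_eq_zero.1 k2).resolve_left (by positivity)
    have h2 : ∀ c, S.GX.Dg 2 c → ∃ x : ℝ, c = x • S.η ^ 2 := fun c hc => by
      obtain ⟨x, p, hp, rfl⟩ := split2 hO hE hc
      exact ⟨x, by rw [h1 p hp, add_zero]⟩
    refine Or.inl ⟨h2, fun c hc => ?_, fun c hc => ?_⟩
    · obtain ⟨c', δ, k1, k2, k3, rfl⟩ := split3 hO hc
      obtain ⟨x, rfl⟩ := h2 c' k1
      exact ⟨x, δ, k2, k3, by rw [mul_smul_comm, ← pow_succ']⟩
    · obtain ⟨c', k1, rfl⟩ := (hO.hl 2 2 rfl).2 c hc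
      obtain ⟨x, rfl⟩ := h2 c' k1
      exact ⟨x, by rw [mul_smul_comm, ← pow_add]⟩
  have hr := fun {p q : A} (hp : Prim S p) (hq : Prim S q) => rel1 (D := D) hO hL hE hp hq
  obtain ⟨ω, hω⟩ : ∃ ω, S.Sg (S.η ^ 6) - D • S.η ^ 2 = D • ω :=
    ⟨D⁻¹ • _, (smul_inv_smul₀ D0.ne' _).symm⟩
  have s6 : S.Sg (S.η ^ 6) = D • (ω + S.η ^ 2) := by rw [smul_add, ← hω, sub_add_cancel]
  rw [hω] at hw h0 hr
  have ω0 : ω ≠ 0 := fun e => h0 (by rw [e, smul_zero])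
  have pω : Prim S ω := ⟨by simpa [smul_smul, D0.ne'] using dg_smul D⁻¹ hw.1,
    (smul_eq_zero.1 ((mul_smul_comm _ _ _).symm.trans hw.2)).resolve_left D0.ne'⟩
  have h1 : ∀ p, Prim S p →
      S.GX.int (ω * ω * S.η ^ 2) • p = S.GX.int (ω * p * S.η ^ 2) • ω := fun p hp => by
    have k1 := hr hp pω
    simp only [smul_mul_assoc, map_smul, smul_eq_mul, mul_smul] at k1
    exact smul_right_injective A D0.ne' k1
  have h2 : S.GX.int (ω * ω * S.η ^ 2) ≠ 0 := fun e => ω0 (nondeg hO hE pω fun q hq => by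
    have k1 := h1 q hq
    rw [e, zero_smul] at k1
    exact (smul_eq_zero.1 k1.symm).resolve_right ω0)
  have h3 : ∀ p, Prim S p → ∃ z : ℝ, p = z • ω := fun p hp =>
    ⟨_, by rw [mul_smul, ← h1 p hp, inv_smul_smul₀ h2]⟩
  have h4 := hO.hr 2 2 rfl ω pω.1 pω.2 (fun b h1 h2 => h3 b ⟨h1, h2⟩) ω0
  rw [neg_one_sq, one_mul] at h4
  have d2 : ∀ b, S.GX.Dg 2 b → ∃ x z : ℝ, b = x • S.η ^ 2 + z • ω := fun c hc => by
    obtain ⟨x, p, hp, rfl⟩ := split2 hO hE hc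
    obtain ⟨z, rfl⟩ := h3 p hp
    exact ⟨x, z, rfl⟩
  have d4 : ∀ b, S.GX.Dg 4 b → ∃ x z : ℝ, b = x • S.η ^ 4 + z • (S.η ^ 2 * ω) := fun c hc => by
    obtain ⟨c', k1, rfl⟩ := (hO.hl 2 2 rfl).2 c hc
    obtain ⟨x, z, rfl⟩ := d2 c' k1
    exact ⟨x, z, by rw [mul_add, mul_smul_comm, mul_smul_comm, ← pow_add]⟩
  obtain ⟨y, z, hy⟩ := d4 _ (hO.gx.dg_mul _ _ _ _ pω.1 pω.1)
  have h5 : S.GX.int (ω * ω * S.η ^ 2) = y * S.GX.int (S.η ^ 6) := by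
    rw [hy, show (y • S.η ^ 4 + z • (S.η ^ 2 * ω)) * S.η ^ 2 = y • S.η ^ 6 + z • (S.η ^ 4 * ω) by
      simp only [Algebra.smul_def]; ring, map_add, map_smul, map_smul, pω.int4, smul_zero, add_zero,
      smul_eq_mul]
  have h6 : S.GX.int (ω * ω * ω) = z * S.GX.int (ω * ω * S.η ^ 2) := by
    conv_lhs => rw [hy]
    rw [show (y • S.η ^ 4 + z • (S.η ^ 2 * ω)) * ω = y • (S.η ^ 4 * ω) + z • (ω * ω * S.η ^ 2) by
      simp only [Algebra.smul_def]; ring, map_add, map_smul, map_smul, pω.int4, smul_zero, zero_add,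
      smul_eq_mul]
  have h7 := rel2 hO hL hE hN pω pω
  rw [s6, mul_smul_comm, mul_add, map_smul, map_add, h6, smul_eq_mul] at h7
  have h8 : z = -(a + 2) := mul_right_cancel₀ (mul_pos D0 h4).ne' (by linarith)
  have h9 : ∀ δ δ', S.GX.Dg 3 δ → S.GX.Dg 3 δ' → S.η * δ' = 0 → δ * δ' = 0 := fun δ δ' k1 k2 e => by
    obtain ⟨c, hc⟩ := rel3 hO hL hE k1 k2 e
    obtain ⟨s, hs⟩ := hE.d6 _ (hO.gx.dg_mul _ _ _ _ k1 k2)
    rw [hs, NS.Sg, map_smul, map_smul, map_smul, ← NS.Sg, s6, smul_add, smul_add, smul_smul,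
      smul_smul, ← eq_sub_iff_add_eq, ← sub_smul] at hc
    have k3 := congrArg (fun u => S.GX.int (ω * u * S.η ^ 2)) hc
    simp only [mul_smul_comm, smul_mul_assoc, map_smul, smul_eq_mul, mul_assoc ω (S.η ^ 2),
      ← pow_add, mul_comm ω (S.η ^ 4), pω.int4, mul_zero] at k3
    rw [hs, (mul_eq_zero.1 ((mul_eq_zero.1 k3).resolve_right h2)).resolve_right D0.ne', zero_smul]
  refine Or.inr ⟨y, ω, pω.1, pω.2, (mul_pos_iff_of_pos_right v0).1 (h5 ▸ h4), ?_, s6, d2,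
    fun c hc => ?_, d4⟩
  · rw [sq, hy, h8, neg_smul, sub_eq_add_neg]
  · obtain ⟨c', δ, k1, k2, k3, rfl⟩ := split3 hO hc
    obtain ⟨x, z, rfl⟩ := d2 c' k1
    have k4 : δ = 0 := pd' hO.gx k2 (k := 3) rfl fun b hb => by
      obtain ⟨c', δ', -, k5, k6, rfl⟩ := split3 hO hb
      rw [mul_add, h9 δ δ' k2 k5 k6, ← mul_assoc, mul_comm δ, k3, zero_mul, add_zero, map_zero]
    exact ⟨x, z, by rw [k4, add_zero, mul_add, mul_smul_comm, mul_smul_comm, ← pow_succ']⟩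

end Vale.Agent.P280Z.Al
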