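import Vale.Agent.P280Z.Al.Lei
import Vale.Agent.P280Z.Al.Elr
import Vale.Agent.P280Z.Al.X4
import Vale.Agent.P280Z.Al.Chn
import Vale.Agent.P280Z.Al.Eq1
import Vale.Agent.P280Z.Al.Eq2

/-!
# P280Z, block Al: from the numerical structure to the equations
-/

noncomputable section

namespace Vale.Agent.P280Z.Al

variable {A B : Type} [CommRing A] [Algebra ℝ A] [CommRing B] [Algebra ℝ B] {S : NS A B}
  {D a y : ℝ} {ω : A}

/-- the normalised integral on the space of curves -/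
def Jn (S : NS A B) (D : ℝ) : B →ₗ[ℝ] ℝ :=
  (D * S.GX.int (S.η ^ 6))⁻¹ • S.GU.int.comp (LinearMap.mulLeft ℝ S.hh)

namespace Asm

theorem es_pow (S : NS A B) (k : ℕ) : S.es (S.η ^ k) = S.hh ^ k := map_pow _ _ _

theorem Tp (hL : S.Lei) (k : ℕ) : S.T (S.es (S.η ^ (k + 1))) = Hn S.aa S.ee k := by
  rw [es_pow, hL.pow]
  rfl

theorem J_T (hL : S.Lei) (x : B) :
    Jn S D (S.T x) = (D * S.GX.int (S.η ^ 6))⁻¹ * S.GU.int x := by
  rw [hL.int x]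
  rfl

theorem J_TT (hO : S.OK 6 3) (hL : S.Lei) (hN : S.Num D a) (α β : A) (c : ℝ)
    (h : S.GX.int (α * S.Sg β) = c * (D * S.GX.int (S.η ^ 6))) :
    Jn S D (S.T (S.es β) * S.T (S.es α)) = c := by
  rw [mul_comm, ← hO.T_mul, J_T hL, ← hO.el_int, mul_comm (S.es α), hO.proj, mul_comm _ α]
  change _ * S.GX.int (α * S.Sg β) = c
  rw [h, mul_comm, mul_assoc, mul_inv_cancel₀ (mul_pos hN.pos hO.vol).ne', mul_one]

theorem h7 (hO : S.OK 6 3) (hE : S.Elr) : S.η ^ 7 = 0 := hE.hi 7 _ (by norm_num) (X4a.dη hO 7)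

theorem g5 (hO : S.OK 6 3) (hL : S.Lei) (hE : S.Elr) : Hn S.aa S.ee 6 = 0 := by
  rw [← Tp hL 6, h7 hO hE, map_zero, map_zero]

theorem g6 (hO : S.OK 6 3) (hL : S.Lei) (hE : S.Elr) : S.ee * Hn S.aa S.ee 5 = 0 := by
  have h := Tp hL 7
  rw [pow_succ, h7 hO hE, zero_mul, map_zero, map_zero, Hn, g5 hO hL hE] at h
  linear_combination h

theorem n1 (hO : S.OK 6 3) (hL : S.Lei) (hN : S.Num D a) :
    Jn S D (Hn S.aa S.ee 3 * Hn S.aa S.ee 5) = 1 := by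
  rw [← Tp hL 3, ← Tp hL 5]
  refine J_TT hO hL hN _ _ _ ?_
  rw [hN.s4, mul_comm, ← Algebra.smul_def, map_smul, smul_eq_mul, one_mul]

theorem n2 (hO : S.OK 6 3) (hL : S.Lei) (hN : S.Num D a) :
    Jn S D (Hn S.aa S.ee 4 * Hn S.aa S.ee 4) = a := by
  rw [← Tp hL 4]
  refine J_TT hO hL hN _ _ _ ?_
  rw [hN.s5, mul_smul_comm, ← pow_succ, map_smul, smul_eq_mul, mul_assoc]

theorem uu (S : NS A B) : S.uu = (1 / 4 : ℝ) • (S.aa ^ 2 - 4 * S.ee) := by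
  simp only [NS.uu, NS.aa, NS.ee, NS.hc]
  algebra

theorem hi (hO : S.OK 6 3) (hE : S.Elr) (k : ℕ) (hk : 6 < k) : S.T (S.es (S.pX k)) = 0 := by
  rw [hE.hi k _ hk (hO.dX k), map_zero, map_zero]

theorem Th (hO : S.OK 6 3) (hL : S.Lei) (w : B) : S.T (S.hh * w) = w + S.hc * S.T w := by
  rw [hL.mul, show S.T S.hh = 1 from hO.Tη, NS.hc]
  ring

theorem Thh (hL : S.Lei) (w : B) :
    S.T (S.hh * (S.hh * w)) = S.aa * S.T (S.hh * w) - S.ee * S.T w := by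
  rw [← hL.ker _ _ hL.aa, ← hL.ker _ _ hL.ee, ← map_sub]
  refine congrArg S.T ?_
  rw [NS.aa, NS.ee]
  ring

theorem Tsq (hO : S.OK 6 3) (hL : S.Lei) (w : B) :
    S.T (w ^ 2) = 2 * S.T w * S.T (S.hh * w) - S.aa * S.T w ^ 2 := by
  rw [pow_two, hL.mul, Th hO hL, NS.aa, NS.hc]
  ring

theorem c1 (hO : S.OK 6 3) (hL : S.Lei) (hE : S.Elr) (hN : S.Num D a) (h : S.C1) :
    ∃ d X2 X3 X4 X5 X6, E1 a d X2 X3 X4 X5 X6 := by
  obtain ⟨f1, f2, f3, hC⟩ := chn S hO.toOK0 hL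
  obtain ⟨x2, e2⟩ := h.d2 _ (hO.dX 2)
  obtain ⟨x3, δ, dδ, pδ, e3⟩ := h.d3 _ (hO.dX 3)
  obtain ⟨x4, e4⟩ := h.d4 _ (hO.dX 4)
  obtain ⟨x5, e5⟩ := hE.d5 _ (hO.dX 5)
  obtain ⟨x6, e6⟩ := hE.d6 _ (hO.dX 6)
  obtain ⟨d, ed⟩ := hE.d6 _ (hO.gx.dg_mul 3 3 _ _ dδ dδ)
  have k0 : S.hh * S.es δ = 0 := by rw [NS.hh, ← map_mul, pδ, map_zero]
  have k1 := Th hO hL (S.es δ)
  have k2 := Tsq hO hL (S.es δ)
  rw [k0, map_zero] at k1 k2
  rw [pow_two, ← map_mul, ed, map_smul, map_smul, Tp hL 5] at k2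
  refine ⟨d / 9, x2 / 2, x3 / 3, x4 / 4, x5 / 5, x6 / 6, eq1 (J := Jn S D) (A := S.aa) (e := S.ee)
    (s := (1 / 3 : ℝ) • S.T (S.es δ)) ⟨?_, ?_, g5 hO hL hE, g6 hO hL hE, n1 hO hL hN, n2 hO hL hN⟩
    hC ⟨uu S, ?_, ?_, ?_, ?_, ?_, hi hO hE 7 (by norm_num), hi hO hE 8 (by norm_num),
      hi hO hE 9 (by norm_num)⟩⟩
  · rw [NS.ee]
    linear_combination (norm := algebra) (-1 / 3 : ℝ) • (S.hh * k1) - (1 / 3 : ℝ) • k0
  · linear_combination (norm := algebra) (1 / 9 : ℝ) • k2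
  · simp only [e2, map_smul, Tp hL 1, Hn]
    algebra
  · simp only [e3, map_add, map_smul, Tp hL 2]
    algebra
  · simp only [e4, map_smul, Tp hL 3]
    algebra
  · simp only [e5, map_smul, Tp hL 4]
    algebra
  · simp only [e6, map_smul, Tp hL 5]
    algebra

theorem i22 (h : S.C2 D a y ω) : S.η ^ 2 * ω ^ 2 = y • S.η ^ 6 := by
  linear_combination (norm := algebra) S.η ^ 2 * h.sq - (a + 2) • (S.η * h.prim)

theorem r2 (hO : S.OK 6 3) (hL : S.Lei) (hE : S.Elr) (hN : S.Num D a) (h : S.C2 D a y ω) :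
    R2 (Jn S D) S.aa S.ee (S.T (S.es ω)) (S.T (S.hh * S.es ω)) a y := by
  have k3 : S.hh * (S.hh * (S.hh * S.es ω)) = 0 := by
    have := congrArg S.es h.prim
    rw [map_mul, es_pow, map_zero] at this
    linear_combination this
  have t2 := Thh hL (S.es ω)
  have t3 := Thh hL (S.hh * S.es ω)
  have t4 := Thh hL (S.hh * (S.hh * S.es ω))
  rw [k3, map_zero, t2] at t3
  rw [k3, mul_zero, map_zero, t2] at t4
  have sq : S.es ω ^ 2 = y • S.hh ^ 4 - (a + 2) • (S.hh * (S.hh * S.es ω)) := by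
    rw [← map_pow, h.sq, map_sub, map_smul, map_smul, map_mul, es_pow, es_pow, pow_two, mul_assoc]
  have s1 := Tsq hO hL (S.es ω)
  have s2 := Th hO hL (S.es ω ^ 2)
  have s3 := Th hO hL (S.es ω)
  rw [s1] at s2
  nth_rewrite 1 [sq] at s2
  rw [mul_sub, mul_smul_comm, mul_smul_comm, k3, smul_zero, sub_zero, ← pow_succ', map_smul,
    hL.pow 4] at s2
  rw [sq, map_sub, map_smul, map_smul, t2, hL.pow 3] at s1
  refine ⟨s1.symm, ?_, t3.symm, by linear_combination t4, g5 hO hL hE, g6 hO hL hE, n1 hO hL hN,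
    n2 hO hL hN, ?_⟩
  · change _ = y • S.H 4
    rw [s2, s3, NS.aa, NS.ee]
    ring
  · rw [← t2, ← Tp hL 5, mul_comm, show S.hh * (S.hh * S.es ω) = S.es (S.η ^ 2 * ω) by
      rw [map_mul, es_pow, pow_two, mul_assoc]]
    refine J_TT hO hL hN _ _ _ ?_
    rw [h.s6, show S.η ^ 2 * ω * D • (ω + S.η ^ 2) = D • (y • S.η ^ 6) by
      linear_combination (norm := algebra) D • i22 h + D • (S.η * h.prim), map_smul, map_smul,
      smul_eq_mul, smul_eq_mul]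
    ring

theorem p2 (hO : S.OK 6 3) (hL : S.Lei) (hE : S.Elr) (h : S.C2 D a y ω) :
    ∃ X2 Y2 X3 Y3 X4 Y4 X5 X6 : ℝ, S.pX 2 = (2 : ℝ) • (X2 • S.η ^ 2 + Y2 • ω) ∧
      S.pX 4 = (4 : ℝ) • (X4 • S.η ^ 4 + Y4 • (S.η ^ 2 * ω)) ∧ S.pX 6 = (6 : ℝ) • (X6 • S.η ^ 6) ∧
      P2 S.aa S.ee (S.T (S.es ω)) (S.T (S.hh * S.es ω)) S.uu (fun k => S.T (S.es (S.pX k)))
        X2 Y2 X3 Y3 X4 Y4 X5 X6 := by
  obtain ⟨x2, y2, e2⟩ := h.d2 _ (hO.dX 2)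
  obtain ⟨x3, y3, e3⟩ := h.d3 _ (hO.dX 3)
  obtain ⟨x4, y4, e4⟩ := h.d4 _ (hO.dX 4)
  obtain ⟨x5, e5⟩ := hE.d5 _ (hO.dX 5)
  obtain ⟨x6, e6⟩ := hE.d6 _ (hO.dX 6)
  have t2 : S.T (S.es (S.η ^ 2 * ω)) = S.aa * S.T (S.hh * S.es ω) - S.ee * S.T (S.es ω) := by
    rw [map_mul, es_pow, pow_two, mul_assoc, Thh hL]
  have t1 : S.es (S.η * ω) = S.hh * S.es ω := map_mul _ _ _
  refine ⟨x2 / 2, y2 / 2, x3 / 3, y3 / 3, x4 / 4, y4 / 4, x5 / 5, x6 / 6, ?_, ?_, ?_, uu S, ?_, ?_, ?_,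
    ?_, ?_, hi hO hE 7 (by norm_num), hi hO hE 8 (by norm_num), hi hO hE 9 (by norm_num)⟩
  · rw [e2]
    algebra
  · rw [e4]
    algebra
  · rw [e6]
    algebra
  · simp only [e2, map_add, map_smul, Tp hL 1, Hn]
    algebra
  · simp only [e3, map_add, map_smul, Tp hL 2, t1]
    algebra
  · simp only [e4, map_add, map_smul, Tp hL 3, t2]
    algebra
  · simp only [e5, map_smul, Tp hL 4]
    algebra
  · simp only [e6, map_smul, Tp hL 5]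
    algebra

end Asm

end Vale.Agent.P280Z.Al
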