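import Vale.Agent.P280Z.Al.Eq3

/-!
# P280Z, block Al: the equations at the pinned parameters
-/

namespace Vale.Agent.P280Z.Al.C4

/-- the equations with integer coefficients -/
structure F (X2 Y2 X3 Y3 X4 Y4 X5 X6 : ℝ) : Prop where
  f4_3010 :
    11664*X5 + 216*Y3^2 + 22032*Y3*X3 - 13608*X3^2 + 576*Y4*Y2 + 57024*X4*Y2 + 7200*Y3*Y2^2 -
    19440*X3*Y2^2 - 2272*Y2^4 + 5184*Y4*X2 - 31104*X4*X2 - 4320*Y3*Y2*X2 - 129600*X3*Y2*X2 -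
    11712*Y2^3*X2 - 25920*Y3*X2^2 + 38880*X3*X2^2 + 21168*Y2^2*X2^2 + 57888*Y2*X2^3 - 9072*X2^4 -
    4320*Y3 - 3240*X3 + 8316*Y2^2 - 1512*Y2*X2 + 4536*X2^2 + 3105 = 0
  f4_4000 :
    13608*X5 + 162*Y3^2 - 1296*Y3*X3 - 24786*X3^2 + 432*Y4*Y2 - 2592*X4*Y2 - 180*Y3*Y2^2 -
    5400*X3*Y2^2 - 244*Y2^4 - 432*Y4*X2 - 49248*X4*X2 - 4320*Y3*Y2*X2 + 6480*X3*Y2*X2 +
    1176*Y2^3*X2 + 1620*Y3*X2^2 + 72900*X3*X2^2 + 7236*Y2^2*X2^2 - 3024*Y2*X2^3 - 18144*X2^4 +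
    135*Y3 - 8505*X3 - 63*Y2^2 + 756*Y2*X2 + 20412*X2^2 - 9315 = 0
  f4_2001 :
    15552*X5 - 432*Y3^2 + 7776*Y3*X3 - 11664*X3^2 + 48384*X4*Y2 + 5184*Y3*Y2^2 - 3456*X3*Y2^2 -
    800*Y2^4 - 31104*X4*X2 - 1728*Y3*Y2*X2 - 88128*X3*Y2*X2 - 9600*Y2^3*X2 - 7776*Y3*X2^2 +
    31104*X3*X2^2 + 4320*Y2^2*X2^2 + 34560*Y2*X2^3 - 6480*X2^4 - 3240*Y3 + 504*Y2^2 + 24192*Y2*X2
    - 4536*X2^2 + 9315 = 0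
  f4_1110 :
    1944*X5 + 1944*Y3*X3 - 1944*X3^2 + 9504*X4*Y2 + 936*Y3*Y2^2 - 648*X3*Y2^2 - 136*Y2^4 -
    5184*X4*X2 - 432*Y3*Y2*X2 - 18144*X3*Y2*X2 - 1776*Y2^3*X2 - 1944*Y3*X2^2 + 5832*X3*X2^2 +
    864*Y2^2*X2^2 + 7344*Y2*X2^3 - 1296*X2^4 - 810*Y3 - 810*X3 + 3780*Y2*X2 + 3105 = 0
  f4_2100 :
    23328*X5 - 2592*Y3*X3 - 62208*X3^2 - 6912*X4*Y2 - 288*Y3*Y2^2 - 12096*X3*Y2^2 - 592*Y2^4 -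
    114048*X4*X2 - 5184*Y3*Y2*X2 + 15552*X3*Y2*X2 + 768*Y2^3*X2 + 2592*Y3*X2^2 + 186624*X3*X2^2 +
    14688*Y2^2*X2^2 - 6912*Y2*X2^3 - 47952*X2^4 + 1080*Y3 - 25920*X3 + 2520*Y2^2 + 68040*X2^2 -
    40365 = 0
  f4_0101 :
    7776*X5 - 432*Y3^2 - 3888*X3^2 + 10368*X4*Y2 + 1440*Y3*Y2^2 - 864*X3*Y2^2 - 256*Y2^4 -
    10368*X4*X2 - 15552*X3*Y2*X2 - 2496*Y2^3*X2 + 7776*X3*X2^2 + 864*Y2^2*X2^2 + 5184*Y2*X2^3 -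
    1296*X2^4 + 3240*X3 + 504*Y2^2 + 9072*Y2*X2 - 4536*X2^2 - 3105 = 0
  f4_0200 :
    -19440*X3^2 - 3456*X4*Y2 - 2592*X3*Y2^2 - 208*Y2^4 - 31104*X4*X2 + 5184*X3*Y2*X2 +
    192*Y2^3*X2 + 62208*X3*X2^2 + 2592*Y2^2*X2^2 - 1728*Y2*X2^3 - 16848*X2^4 - 12960*X3 +
    1512*Y2^2 - 3024*Y2*X2 + 31752*X2^2 - 15525 = 0
  f5_2010 :
    3888*X6 + 15120*X4*Y3 + 3240*Y4*X3 - 12960*X4*X3 + 24624*X5*Y2 + 1296*Y3^2*Y2 - 1728*Y3*X3*Y2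
    - 23328*X3^2*Y2 + 936*Y4*Y2^2 - 8856*X4*Y2^2 - 400*Y3*Y2^3 - 2040*X3*Y2^3 - 11664*X5*X2 -
    216*Y3^2*X2 - 22032*Y3*X3*X2 + 13608*X3^2*X2 - 432*Y4*Y2*X2 - 42768*X4*Y2*X2 -
    3600*Y3*Y2^2*X2 + 9720*X3*Y2^2*X2 - 1944*Y4*X2^2 + 11664*X4*X2^2 + 1080*Y3*Y2*X2^2 +
    32400*X3*Y2*X2^2 + 4320*Y3*X2^3 - 6480*X3*X2^3 + 270*Y4 + 540*X4 + 90*Y3*Y2 - 1620*X3*Y2 -
    104*Y2^3 + 2160*Y3*X2 + 1620*X3*X2 - 1188*Y2^2*X2 + 108*Y2*X2^2 - 216*X2^3 + 9639*Y2 -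
    2754*X2 = 0
  f5_3000 :
    5832*X6 - 1620*X4*Y3 - 540*Y4*X3 - 43740*X4*X3 - 1944*X5*Y2 - 36*Y3^2*Y2 - 3672*Y3*X3*Y2 +
    2268*X3^2*Y2 - 36*Y4*Y2^2 - 3564*X4*Y2^2 - 200*Y3*Y2^3 + 540*X3*Y2^3 - 27216*X5*X2 -
    324*Y3^2*X2 + 2592*Y3*X3*X2 + 49572*X3^2*X2 - 648*Y4*Y2*X2 + 3888*X4*Y2*X2 + 180*Y3*Y2^2*X2 +
    5400*X3*Y2^2*X2 + 324*Y4*X2^2 + 36936*X4*X2^2 + 2160*Y3*Y2*X2^2 - 3240*X3*Y2*X2^2 -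
    540*Y3*X2^3 - 24300*X3*X2^3 - 45*Y4 + 810*X4 + 360*Y3*Y2 + 270*X3*Y2 - 66*Y2^3 - 135*Y3*X2 +
    8505*X3*X2 + 18*Y2^2*X2 - 108*Y2*X2^2 - 1944*X2^3 - 459*Y2 + 16524*X2 = 0
  f5_1001 :
    3888*X6 - 360*Y4*Y3 + 3240*X4*Y3 - 6480*X4*X3 + 14256*X5*Y2 + 144*Y3^2*Y2 - 432*Y3*X3*Y2 -
    9072*X3^2*Y2 + 360*Y4*Y2^2 - 648*X4*Y2^2 + 32*Y3*Y2^3 - 888*X3*Y2^3 - 7776*X5*X2 +
    216*Y3^2*X2 - 3888*Y3*X3*X2 + 5832*X3^2*X2 - 18144*X4*Y2*X2 - 1296*Y3*Y2^2*X2 +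
    864*X3*Y2^2*X2 + 5832*X4*X2^2 + 216*Y3*Y2*X2^2 + 11016*X3*Y2*X2^2 + 648*Y3*X2^3 -
    2592*X3*X2^3 + 270*X4 + 90*Y3*Y2 + 1350*X3*Y2 - 8*Y2^3 + 810*Y3*X2 - 36*Y2^2*X2 - 864*Y2*X2^2
    + 108*X2^3 + 1836*Y2 - 4131*X2 = 0
  f5_0110 :
    3240*X4*Y3 - 3240*X4*X3 + 10368*X5*Y2 + 360*Y3^2*Y2 - 432*Y3*X3*Y2 - 7128*X3^2*Y2 -
    432*X4*Y2^2 - 128*Y3*Y2^3 - 576*X3*Y2^3 - 3888*X5*X2 - 3888*Y3*X3*X2 + 3888*X3^2*X2 -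
    14256*X4*Y2*X2 - 936*Y3*Y2^2*X2 + 648*X3*Y2^2*X2 + 3888*X4*X2^2 + 216*Y3*Y2*X2^2 +
    9072*X3*Y2*X2^2 + 648*Y3*X2^3 - 1944*X3*X2^3 + 540*X4 + 90*Y3*Y2 + 540*X3*Y2 - 60*Y2^3 +
    810*Y3*X2 + 810*X3*X2 - 540*Y2*X2^2 + 3213*Y2 - 5508*X2 = 0
  f5_1100 :
    -1080*X4*Y3 - 25920*X4*X3 - 1296*X5*Y2 - 1296*Y3*X3*Y2 + 1296*X3^2*Y2 - 2376*X4*Y2^2 -
    104*Y3*Y2^3 + 72*X3*Y2^3 - 11664*X5*X2 + 1296*Y3*X3*X2 + 31104*X3^2*X2 + 2592*X4*Y2*X2 +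
    72*Y3*Y2^2*X2 + 3024*X3*Y2^2*X2 + 21384*X4*X2^2 + 648*Y3*Y2*X2^2 - 1944*X3*Y2*X2^2 -
    216*Y3*X2^3 - 15552*X3*X2^3 + 270*X4 + 270*Y3*Y2 + 270*X3*Y2 - 270*Y3*X2 + 6480*X3*X2 -
    180*Y2^2*X2 - 1620*X2^3 - 1836*Y2 + 17901*X2 = 0
  f6_1010 :
    10368*Y4*X4 - 10368*X4^2 + 28512*X5*Y3 - 15552*X5*X3 + 41472*X6*Y2 + 1440*Y4*Y3*Y2 -
    2592*X4*Y3*Y2 - 864*Y4*X3*Y2 - 57024*X4*X3*Y2 - 32832*X5*Y2^2 - 512*Y4*Y2^3 - 4608*X4*Y2^3 -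
    15552*X6*X2 - 36288*X4*Y3*X2 - 7776*Y4*X3*X2 + 31104*X4*X3*X2 - 98496*X5*Y2*X2 -
    3744*Y4*Y2^2*X2 + 35424*X4*Y2^2*X2 + 23328*X5*X2^2 + 864*Y4*Y2*X2^2 + 85536*X4*Y2*X2^2 +
    2592*Y4*X2^3 - 15552*X4*X2^3 + 12312*X5 - 432*Y3^2 - 12960*Y3*X3 - 3888*X3^2 - 936*Y4*Y2 +
    30888*X4*Y2 + 432*Y3*Y2^2 + 21384*X3*Y2^2 + 1184*Y2^4 - 8424*Y4*X2 - 16848*X4*X2 +
    1296*Y3*Y2*X2 - 23328*X3*Y2*X2 - 2496*Y2^3*X2 + 15552*Y3*X2^2 + 11664*X3*X2^2 -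
    14256*Y2^2*X2^2 + 864*Y2*X2^3 - 1296*X2^4 + 4104*Y3 + 6156*X3 + 2376*Y2^2 - 9072*Y2*X2 +
    1296*X2^2 - 29835 = 0
  f6_2000 :
    -1728*Y4*X4 - 41472*X4^2 - 2592*X5*Y3 - 42768*X5*X3 - 2592*X6*Y2 - 6048*X4*Y3*Y2 -
    1296*Y4*X3*Y2 + 5184*X4*X3*Y2 - 8208*X5*Y2^2 - 208*Y4*Y2^3 + 1968*X4*Y2^3 - 23328*X6*X2 +
    3888*X4*Y3*X2 + 1296*Y4*X3*X2 + 104976*X4*X3*X2 + 7776*X5*Y2*X2 + 144*Y4*Y2^2*X2 +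
    14256*X4*Y2^2*X2 + 54432*X5*X2^2 + 1296*Y4*Y2*X2^2 - 7776*X4*Y2*X2^2 - 432*Y4*X2^3 -
    49248*X4*X2^3 - 12312*X5 - 648*Y3^2 - 25272*X3^2 - 1404*Y4*Y2 - 2808*X4*Y2 + 108*Y3*Y2^2 -
    1944*X3*Y2^2 - 104*Y2^4 + 1404*Y4*X2 - 25272*X4*X2 + 5184*Y3*Y2*X2 + 3888*X3*Y2*X2 -
    1584*Y2^3*X2 - 972*Y3*X2^2 + 61236*X3*X2^2 + 216*Y2^2*X2^2 - 864*Y2*X2^3 - 11664*X2^4 -
    1539*Y3 + 16929*X3 - 756*Y2^2 + 432*Y2*X2 - 7776*X2^2 + 29835 = 0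
  f6_0001 :
    -1152*Y4^2 - 10368*X4^2 + 15552*X5*Y3 - 15552*X5*X3 + 82944*X6*Y2 - 1728*Y4*Y3*Y2 -
    1728*X4*Y3*Y2 - 57024*X4*X3*Y2 - 3456*X5*Y2^2 + 1280*Y4*Y2^3 - 4608*X4*Y2^3 - 31104*X6*X2 +
    1728*Y4*Y3*X2 - 15552*X4*Y3*X2 + 31104*X4*X3*X2 - 114048*X5*Y2*X2 - 2880*Y4*Y2^2*X2 +
    5184*X4*Y2^2*X2 + 31104*X5*X2^2 + 72576*X4*Y2*X2^2 - 15552*X4*X2^3 + 49248*X5 - 2592*Y3^2 -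
    15552*Y3*X3 - 7776*X3^2 - 11232*X4*Y2 + 864*Y3*Y2^2 - 224*Y2^4 - 16848*X4*X2 + 2592*Y3*Y2*X2
    + 38880*X3*Y2*X2 - 384*Y2^3*X2 + 11664*Y3*X2^2 - 864*Y2^2*X2^2 - 13824*Y2*X2^3 + 1296*X2^4 -
    6156*Y3 - 24624*X3 - 432*Y2^2 - 3456*Y2*X2 + 3888*X2^2 + 29835 = 0
  f6_0100 :
    -17280*X4^2 - 1728*X5*Y3 - 15552*X5*X3 - 1728*X4*Y3*Y2 + 1728*X4*X3*Y2 - 4608*X5*Y2^2 +
    128*X4*Y2^3 + 1728*X4*Y3*X2 + 41472*X4*X3*X2 + 3456*X5*Y2*X2 + 6336*X4*Y2^2*X2 +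
    15552*X5*X2^2 - 3456*X4*Y2*X2^2 - 19008*X4*X2^3 - 24624*X5 + 1728*Y3*X3 - 10368*X3^2 -
    3744*X4*Y2 + 144*Y3*Y2^2 + 864*X3*Y2^2 - 80*Y2^4 - 5616*X4*X2 + 2592*Y3*Y2*X2 + 2592*X3*Y2*X2
    - 1296*Y3*X2^2 + 31104*X3*X2^2 - 1440*Y2^2*X2^2 - 6480*X2^4 + 684*Y3 + 16416*X3 - 336*Y2^2 +
    1152*Y2*X2 - 5616*X2^2 + 9945 = 0
  f7_0010 :
    2592*X5*Y4 - 2592*X5*X4 + 10368*X6*Y3 - 3888*X6*X3 - 864*X5*Y3*Y2 - 14256*X5*X3*Y2 -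
    15552*X6*Y2^2 - 1152*X5*Y2^3 - 14256*X5*Y3*X2 + 7776*X5*X3*X2 - 20736*X6*Y2*X2 +
    16416*X5*Y2^2*X2 + 3888*X6*X2^2 + 24624*X5*Y2*X2^2 - 3888*X5*X2^3 - 10044*X6 - 3024*X4*Y3 -
    4536*Y4*X3 + 29484*X5*Y2 + 144*Y3^2*Y2 - 5184*X3^2*Y2 - 1560*Y4*Y2^2 + 11880*X4*Y2^2 -
    112*Y3*Y2^3 - 264*X3*Y2^3 - 6804*X5*X2 + 216*Y3^2*X2 + 6480*Y3*X3*X2 + 1944*X3^2*X2 +
    720*Y4*Y2*X2 - 23760*X4*Y2*X2 - 144*Y3*Y2^2*X2 - 7128*X3*Y2^2*X2 + 3240*Y4*X2^2 +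
    6480*X4*X2^2 - 216*Y3*Y2*X2^2 + 3888*X3*Y2*X2^2 - 1728*Y3*X2^3 - 1296*X3*X2^3 - 4914*Y4 +
    29484*X4 - 810*Y3*Y2 - 11340*X3*Y2 + 680*Y2^3 - 3240*Y3*X2 - 4860*X3*X2 - 5940*Y2^2*X2 +
    11340*Y2*X2^2 - 1080*X2^3 - 801*Y2 + 4806*X2 = 0
  f7_1000 :
    -432*X5*Y4 - 10368*X5*X4 - 648*X6*Y3 - 5832*X6*X3 - 2376*X5*Y3*Y2 + 1296*X5*X3*Y2 -
    1728*X6*Y2^2 + 912*X5*Y2^3 + 1296*X5*Y3*X2 + 21384*X5*X3*X2 + 1296*X6*Y2*X2 + 4104*X5*Y2^2*X2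
    + 5832*X6*X2^2 - 1944*X5*Y2*X2^2 - 9072*X5*X2^3 - 15066*X6 - 756*X4*Y3 + 756*Y4*X3 -
    11340*X4*X3 - 1134*X5*Y2 + 36*Y3^2*Y2 + 1080*Y3*X3*Y2 + 324*X3^2*Y2 + 60*Y4*Y2^2 -
    1980*X4*Y2^2 - 8*Y3*Y2^3 - 396*X3*Y2^3 + 6804*X5*X2 + 324*Y3^2*X2 + 12636*X3^2*X2 +
    1080*Y4*Y2*X2 + 2160*X4*Y2*X2 - 36*Y3*Y2^2*X2 + 648*X3*Y2^2*X2 - 540*Y4*X2^2 + 9720*X4*X2^2 -
    864*Y3*Y2*X2^2 - 648*X3*Y2*X2^2 + 108*Y3*X2^3 - 6804*X3*X2^3 + 819*Y4 - 4914*X4 - 540*Y3*Y2 -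
    810*X3*Y2 - 330*Y2^3 + 1215*Y3*X2 - 13365*X3*X2 + 1890*Y2^2*X2 - 540*Y2*X2^2 + 6480*X2^3 +
    801*Y2 - 4806*X2 = 0
  f8_0000 :
    -5184*X6*Y4 - 46656*X6*X4 - 20736*X6*Y3*Y2 + 7776*X6*X3*Y2 + 10368*X6*Y2^3 + 7776*X6*Y3*X2 +
    69984*X6*X3*X2 + 20736*X6*Y2^2*X2 - 7776*X6*Y2*X2^2 - 23328*X6*X2^3 + 8640*Y4*X4 - 51840*X4^2
    - 19440*X5*Y3 - 29160*X5*X3 + 21384*X6*Y2 + 4320*X4*Y3*Y2 + 6480*Y4*X3*Y2 - 42120*X5*Y2^2 +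
    1040*Y4*Y2^3 - 7920*X4*Y2^3 + 192456*X6*X2 + 6480*X4*Y3*X2 - 6480*Y4*X3*X2 + 97200*X4*X3*X2 +
    19440*X5*Y2*X2 - 720*Y4*Y2^2*X2 + 23760*X4*Y2^2*X2 - 58320*X5*X2^2 - 6480*Y4*Y2*X2^2 -
    12960*X4*Y2*X2^2 + 2160*Y4*X2^3 - 38880*X4*X2^3 - 685260*X5 + 3402*Y3^2 + 27216*Y3*X3 -
    30618*X3^2 + 11772*Y4*Y2 - 70632*X4*Y2 + 1512*Y3*Y2^2 + 21168*X3*Y2^2 - 476*Y2^4 -
    11772*Y4*X2 + 70632*X4*X2 + 12096*Y3*Y2*X2 + 18144*X3*Y2*X2 + 5544*Y2^3*X2 - 13608*Y3*X2^2 +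
    149688*X3*X2^2 - 15876*Y2^2*X2^2 + 3024*Y2*X2^3 - 27216*X2^4 + 40500*Y3 + 364500*X3 -
    1215*Y2^2 + 14580*Y2*X2 - 43740*X2^2 = 0
  f4_U :
    33696*X5 + 288*Y3^2 - 10368*X3^2 - 4992*Y4*Y2 + 38016*X4*Y2 - 1344*Y3*Y2^2 - 3168*X3*Y2^2 +
    1408*Y2^4 + 1152*Y4*X2 - 38016*X4*X2 - 1152*Y3*Y2*X2 - 57024*X3*Y2*X2 - 9472*Y2^3*X2 -
    864*Y3*X2^2 + 15552*X3*X2^2 + 7488*Y2^2*X2^2 + 19008*Y2*X2^3 - 432*X2^4 + 1080*Y3 + 15120*X3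
    - 5712*Y2^2 + 33264*Y2*X2 - 31752*X2^2 + 7245 = 0

theorem f_of {X2 Y2 X3 Y3 X4 Y4 X5 X6 : ℝ} (h : E2 (5 / 3) (1 / 9) X2 Y2 X3 Y3 X4 Y4 X5 X6)
    (u : q4_U (5 / 3) (1 / 9) X2 Y2 X3 Y3 X4 Y4 X5 X6 = 0) : F X2 Y2 X3 Y3 X4 Y4 X5 X6 where
  f4_3010 := by have e := h.h4_3010; rw [q4_3010] at e; linear_combination (27) * e
  f4_4000 := by have e := h.h4_4000; rw [q4_4000] at e; linear_combination (81 / 4) * e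
  f4_2001 := by have e := h.h4_2001; rw [q4_2001] at e; linear_combination (81) * e
  f4_1110 := by have e := h.h4_1110; rw [q4_1110] at e; linear_combination (27) * e
  f4_2100 := by have e := h.h4_2100; rw [q4_2100] at e; linear_combination (81) * e
  f4_0101 := by have e := h.h4_0101; rw [q4_0101] at e; linear_combination (27) * e
  f4_0200 := by have e := h.h4_0200; rw [q4_0200] at e; linear_combination (81) * e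
  f5_2010 := by have e := h.h5_2010; rw [q5_2010] at e; linear_combination (27) * e
  f5_3000 := by have e := h.h5_3000; rw [q5_3000] at e; linear_combination (81) * e
  f5_1001 := by have e := h.h5_1001; rw [q5_1001] at e; linear_combination (27) * e
  f5_0110 := by have e := h.h5_0110; rw [q5_0110] at e; linear_combination (27) * e
  f5_1100 := by have e := h.h5_1100; rw [q5_1100] at e; linear_combination (81) * e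
  f6_1010 := by have e := h.h6_1010; rw [q6_1010] at e; linear_combination (27) * e
  f6_2000 := by have e := h.h6_2000; rw [q6_2000] at e; linear_combination (81 / 2) * e
  f6_0001 := by have e := h.h6_0001; rw [q6_0001] at e; linear_combination (27) * e
  f6_0100 := by have e := h.h6_0100; rw [q6_0100] at e; linear_combination (27) * e
  f7_0010 := by have e := h.h7_0010; rw [q7_0010] at e; linear_combination (27) * e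
  f7_1000 := by have e := h.h7_1000; rw [q7_1000] at e; linear_combination (81) * e
  f8_0000 := by have e := h.h8_0000; rw [q8_0000] at e; linear_combination (243 / 4) * e
  f4_U := by have e := u; rw [q4_U] at e; linear_combination (27) * e

end Vale.Agent.P280Z.Al.C4
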