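import Vale.Agent.P280Z.Al.Eq3

/-!
# P280Z, block Al: the equations at `a = 5 / 3`, `y = 1 / 9`
-/

noncomputable section

namespace Vale.Agent.P280Z.Al

/-- row CERT4 -/
def CERT4 : Prop := ∀ X2 Y2 X3 Y3 X4 Y4 X5 X6 : ℝ,
  E2 (5 / 3) (1 / 9) X2 Y2 X3 Y3 X4 Y4 X5 X6 → q4_U (5 / 3) (1 / 9) X2 Y2 X3 Y3 X4 Y4 X5 X6 = 0 →
  X3 = -1 / 3 ∧ Y3 = 3 ∧ X5 = 0 ∧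
  ((X2 = 11 / 10 ∧ Y2 = 3 / 5 ∧ X4 = -3 / 4 ∧ Y4 = 21 / 2 ∧ X6 = 7 / 3) ∨
    (X2 = -11 / 10 ∧ Y2 = -3 / 5 ∧ X4 = 3 / 4 ∧ Y4 = -21 / 2 ∧ X6 = -7 / 3) ∨
    (X2 = 1 / 2 ∧ Y2 = 3 ∧ X4 = -1 / 4 ∧ Y4 = -3 / 2 ∧ X6 = 0) ∨
    (X2 = -1 / 2 ∧ Y2 = -3 ∧ X4 = 1 / 4 ∧ Y4 = 3 / 2 ∧ X6 = 0))

end Vale.Agent.P280Z.Al
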