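import Vale.Agent.P280Z.Al.C4b
import Vale.Agent.P280Z.Al.C4c
import Vale.Agent.P280Z.Al.Eq4

/-!
# P280Z, block Al: the solutions at the pinned parameters
-/

namespace Vale.Agent.P280Z.Al

open C4 in
/-- **CERT4** -/
theorem cert4b : CERT4 := by
  intro X2 Y2 X3 Y3 X4 Y4 X5 X6 h u
  have f := f_of h u
  obtain rfl : Y3 = -9 * X3 := by linarith [y3 f]
  obtain rfl : X5 = 0 := x5 f
  have k : (Y2 - 6 * X2) * (Y2 - 6 / 11 * X2) = 0 := by linear_combination (1 / 11 : ℝ) * y2 f
  rcases mul_eq_zero.1 k with k | k <;> obtain rfl := sub_eq_zero.1 k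
  · obtain ⟨a, b, c, d, e⟩ := brA f
    have k2 : (X2 - 1 / 2) * (X2 + 1 / 2) = 0 := by linear_combination b
    refine ⟨a, by linarith, rfl, .inr (.inr ?_)⟩
    rcases mul_eq_zero.1 k2 with k2 | k2
    · exact .inl ⟨by linarith, by linarith, by linarith, by linarith, e⟩
    · exact .inr ⟨by linarith, by linarith, by linarith, by linarith, e⟩
  · obtain ⟨a, b, c, d, e⟩ := brB f
    have k2 : (X2 - 11 / 10) * (X2 + 11 / 10) = 0 := by linear_combination b
    refine ⟨a, by linarith, rfl, ?_⟩
    rcases mul_eq_zero.1 k2 with k2 | k2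
    · exact .inl ⟨by linarith, by linarith, by linarith, by linarith, by linarith⟩
    · exact .inr (.inl ⟨by linarith, by linarith, by linarith, by linarith, by linarith⟩)

end Vale.Agent.P280Z.Al
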