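import Vale.Agent.P280Z.Ma.Ns

/-!
# P280Z, block Al: the algebra of the case of dimension six and degree five (definitions, rows)
-/

noncomputable section

namespace Vale.Agent.P280Z

namespace Al

/-- the complete symmetric functions of two variables with sum `a` and product `e` -/
def Hn {B : Type} [CommRing B] (a e : B) : ℕ → B
  | 0 => 1
  | 1 => a
  | k + 2 => a * Hn a e (k + 1) - e * Hn a e k

end Al

namespace NS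
variable {A B : Type} [CommRing A] [Algebra ℝ A] [CommRing B] [Algebra ℝ B] (S : NS A B)

/-- the class `η` on the universal curve -/
def hh : B := S.es S.η

/-- the conjugate class `η'` -/
def hc : B := S.hh - S.τ

/-- the sum `η + η'` -/
def aa : B := S.hh + S.hc

/-- the product `η η'` -/
def ee : B := S.hh * S.hc

/-- `T (η ^ (k + 1))` -/
def H (k : ℕ) : B := Al.Hn S.aa S.ee k

/-- `(τ / 2) ^ 2` -/
def uu : B := ((2 : ℝ)⁻¹ • S.τ) ^ 2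

/-- the invariant power sums -/
def Q (k : ℕ) : B := ∑ j ∈ Finset.range (k + 1),
  (k.choose j : ℝ) • (S.pE j * ((2 : ℝ)⁻¹ • S.τ) ^ (k - j))

/-- the operator `e_* p^* p_* e^*` -/
def Sg (a : A) : A := S.el (S.T (S.es a))

/-- the rules for `T` -/
structure Lei : Prop where
  one : S.T 1 = 0
  TT : ∀ x, S.T (S.T x) = 0
  ker : ∀ r x, S.T r = 0 → S.T (r * x) = r * S.T x
  mul : ∀ x y, S.T (x * y) = S.T x * y + x * S.T y - S.τ * S.T x * S.T y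
  aa : S.T S.aa = 0
  ee : S.T S.ee = 0
  pow : ∀ k, S.T (S.hh ^ (k + 1)) = S.H k
  int : ∀ x, S.GU.int x = S.GU.int (S.hh * S.T x)
  dT : ∀ k x, S.GU.Dg (k + 1) x → S.GU.Dg k (S.T x)
  d0 : ∀ x, S.GU.Dg 0 x → S.T x = 0
  de : ∀ k a, S.GX.Dg k a → S.GU.Dg k (S.es a)

/-- the rules for `e_*`, for fibres of dimension three -/
structure Elr : Prop where
  dl : ∀ k x, S.GU.Dg (k + 3) x → S.GX.Dg k (S.el x)
  lo : ∀ k x, k < 3 → S.GU.Dg k x → S.el x = 0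
  hi : ∀ k a, 6 < k → S.GX.Dg k a → a = 0
  d5 : ∀ a, S.GX.Dg 5 a → ∃ x : ℝ, a = x • S.η ^ 5
  d6 : ∀ a, S.GX.Dg 6 a → ∃ x : ℝ, a = x • S.η ^ 6

/-- the numbers `D` and `n₀ v = a D` -/
structure Num (D a : ℝ) : Prop where
  pos : 0 < D
  nn : 0 ≤ a
  el3 : S.el ((-S.τ) ^ 3) = algebraMap ℝ A D
  s4 : S.Sg (S.η ^ 4) = algebraMap ℝ A D
  s5 : S.Sg (S.η ^ 5) = (a * D) • S.η

/-- the case `b₄ = 1` -/
structure C1 : Prop where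
  d2 : ∀ a, S.GX.Dg 2 a → ∃ x : ℝ, a = x • S.η ^ 2
  d3 : ∀ a, S.GX.Dg 3 a → ∃ (x : ℝ) (δ : A), S.GX.Dg 3 δ ∧ S.η * δ = 0 ∧ a = x • S.η ^ 3 + δ
  d4 : ∀ a, S.GX.Dg 4 a → ∃ x : ℝ, a = x • S.η ^ 4

/-- the case `b₄ = 2` -/
structure C2 (D a y : ℝ) (ω : A) : Prop where
  dg : S.GX.Dg 2 ω
  prim : S.η ^ 3 * ω = 0
  pos : 0 < y
  sq : ω ^ 2 = y • S.η ^ 4 - (a + 2) • (S.η ^ 2 * ω)
  s6 : S.Sg (S.η ^ 6) = D • (ω + S.η ^ 2)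
  d2 : ∀ b, S.GX.Dg 2 b → ∃ x z : ℝ, b = x • S.η ^ 2 + z • ω
  d3 : ∀ b, S.GX.Dg 3 b → ∃ x z : ℝ, b = x • S.η ^ 3 + z • (S.η * ω)
  d4 : ∀ b, S.GX.Dg 4 b → ∃ x z : ℝ, b = x • S.η ^ 4 + z • (S.η ^ 2 * ω)

end NS

namespace Al

/-- the relations between the classes `t k = T (ps (T_X) k)` and the invariant power sums -/
structure Chn {B : Type} [CommRing B] (t Q : ℕ → B) (U f1 f2 f3 : B) : Prop where
  t2 : t 2 = 2 * Q 1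
  t3 : t 3 = 3 * Q 2 + 11 * U
  t4 : t 4 = 4 * Q 3 + 4 * Q 1 * U
  t5 : t 5 = 5 * Q 4 + 10 * Q 2 * U + 35 * U ^ 2
  t6 : t 6 = 6 * Q 5 + 20 * Q 3 * U + 6 * Q 1 * U ^ 2
  t7 : t 7 = 7 * Q 6 + 35 * Q 4 * U + 21 * Q 2 * U ^ 2 + 131 * U ^ 3
  t8 : t 8 = 8 * Q 7 + 56 * Q 5 * U + 56 * Q 3 * U ^ 2 + 8 * Q 1 * U ^ 3
  t9 : t 9 = 9 * Q 8 + 84 * Q 6 * U + 126 * Q 4 * U ^ 2 + 36 * Q 2 * U ^ 3 + 515 * U ^ 4
  n1 : Q 1 = f1
  n2 : Q 2 = f1 * Q 1 - 2 * f2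
  n3 : Q 3 = f1 * Q 2 - f2 * Q 1 + 3 * f3
  nk : ∀ k, Q (k + 4) = f1 * Q (k + 3) - f2 * Q (k + 2) + f3 * Q (k + 1)

/-- row LEI -/
def LEI : Prop := ∀ {A B : Type} [CommRing A] [Algebra ℝ A] [CommRing B] [Algebra ℝ B]
  (S : NS A B) (n r : ℕ), S.OK0 n r → S.Lei

/-- row ELR -/
def ELR : Prop := ∀ {A B : Type} [CommRing A] [Algebra ℝ A] [CommRing B] [Algebra ℝ B]
  (S : NS A B), S.OK 6 3 → S.Lei → S.Elr ∧
    (0 ≤ S.GX.int (S.η ^ 5 * S.Sg (S.η ^ 5)) → ∃ D a, S.Num D a)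

/-- row X4 -/
def X4 : Prop := ∀ {A B : Type} [CommRing A] [Algebra ℝ A] [CommRing B] [Algebra ℝ B]
  (S : NS A B) (D a : ℝ), S.OK 6 3 → S.Lei → S.Elr → S.Num D a → S.C1 ∨ ∃ y ω, S.C2 D a y ω

/-- row CHN -/
def CHN : Prop := ∀ {A B : Type} [CommRing A] [Algebra ℝ A] [CommRing B] [Algebra ℝ B]
  (S : NS A B), S.OK0 6 3 → S.Lei →
    ∃ f1 f2 f3, Chn (fun k => S.T (S.es (S.pX k))) S.Q S.uu f1 f2 f3

end Al

end Vale.Agent.P280Z
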