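import Vale.Agent.P280Z.Al.Nf2

/-!
# P280Z, block Al: the equations in the case `b₄ = 2`
-/

noncomputable section

namespace Vale.Agent.P280Z.Al

set_option linter.unusedSimpArgs false

variable {R : Type} [CommRing R] [Algebra ℝ R] {J : R →ₗ[ℝ] ℝ} {A e t r U f1 f2 f3 : R}
  {p Q : ℕ → R} {a y X2 Y2 X3 Y3 X4 Y4 X5 X6 : ℝ}

namespace Eq2

set_option maxHeartbeats 2000000 in
theorem h4_3010 (n : N2 A e t r f1 f2 f3 Q X2 Y2 X3 Y3 X4 Y4 X5 X6)
    (v : T2 (fun i j k l => J (Mn A e t r i j k l)) a y) (hy : y ≠ 0) :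
    q4_3010 a y X2 Y2 X3 Y3 X4 Y4 X5 X6 = 0 := by
  have h := congrArg (fun x => J (x * Mn A e t r 3 0 1 0)) (n.nk 0)
  simp only [Nat.reduceAdd, zero_add] at h
  rw [n.q4, n.q3, n.q2, n.q1, n.e1, n.e2, n.e3] at h
  simp only [add_mul, mul_add, sub_mul, smul_mul_assoc, mul_smul_comm, Mn_mul, Nat.reduceAdd,
    map_add, map_sub, map_smul, smul_eq_mul, v.v3012, v.v3031, v.v3050, v.v3111, v.v3130,
    v.v3210, v.v4021, v.v4040, v.v4120, v.v5011, v.v5030, v.v5110, v.v6020, v.v7010] at h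
  refine mul_left_cancel₀ hy ?_
  unfold q4_3010
  linear_combination 144 * h

set_option maxHeartbeats 2000000 in
theorem h4_4000 (n : N2 A e t r f1 f2 f3 Q X2 Y2 X3 Y3 X4 Y4 X5 X6)
    (v : T2 (fun i j k l => J (Mn A e t r i j k l)) a y) :
    q4_4000 a y X2 Y2 X3 Y3 X4 Y4 X5 X6 = 0 := by
  have h := congrArg (fun x => J (x * Mn A e t r 4 0 0 0)) (n.nk 0)
  simp only [Nat.reduceAdd, zero_add] at h
  rw [n.q4, n.q3, n.q2, n.q1, n.e1, n.e2, n.e3] at h
  simp only [add_mul, mul_add, sub_mul, smul_mul_assoc, mul_smul_comm, Mn_mul, Nat.reduceAdd,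
    map_add, map_sub, map_smul, smul_eq_mul, v.v4002, v.v4021, v.v4040, v.v4101, v.v4120,
    v.v4200, v.v5011, v.v5030, v.v5110, v.v6001, v.v6020, v.v6100, v.v7010, v.v8000] at h
  unfold q4_4000
  linear_combination 144 * h

set_option maxHeartbeats 2000000 in
theorem h4_2001 (n : N2 A e t r f1 f2 f3 Q X2 Y2 X3 Y3 X4 Y4 X5 X6)
    (v : T2 (fun i j k l => J (Mn A e t r i j k l)) a y) (hy : y ≠ 0) :
    q4_2001 a y X2 Y2 X3 Y3 X4 Y4 X5 X6 = 0 := by
  have h := congrArg (fun x => J (x * Mn A e t r 2 0 0 1)) (n.nk 0)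
  simp only [Nat.reduceAdd, zero_add] at h
  rw [n.q4, n.q3, n.q2, n.q1, n.e1, n.e2, n.e3] at h
  simp only [add_mul, mul_add, sub_mul, smul_mul_assoc, mul_smul_comm, Mn_mul, Nat.reduceAdd,
    map_add, map_sub, map_smul, smul_eq_mul, v.v2003, v.v2022, v.v2041, v.v2102, v.v2121,
    v.v2201, v.v3012, v.v3031, v.v3111, v.v4002, v.v4021, v.v4101, v.v5011, v.v6001] at h
  refine mul_left_cancel₀ hy ?_
  unfold q4_2001
  linear_combination 96 * h

set_option maxHeartbeats 2000000 in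
theorem h4_1110 (n : N2 A e t r f1 f2 f3 Q X2 Y2 X3 Y3 X4 Y4 X5 X6)
    (v : T2 (fun i j k l => J (Mn A e t r i j k l)) a y) (hy : y ≠ 0) :
    q4_1110 a y X2 Y2 X3 Y3 X4 Y4 X5 X6 = 0 := by
  have h := congrArg (fun x => J (x * Mn A e t r 1 1 1 0)) (n.nk 0)
  simp only [Nat.reduceAdd, zero_add] at h
  rw [n.q4, n.q3, n.q2, n.q1, n.e1, n.e2, n.e3] at h
  simp only [add_mul, mul_add, sub_mul, smul_mul_assoc, mul_smul_comm, Mn_mul, Nat.reduceAdd,
    map_add, map_sub, map_smul, smul_eq_mul, v.v1112, v.v1131, v.v1150, v.v1211, v.v1230,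
    v.v1310, v.v2121, v.v2140, v.v2220, v.v3111, v.v3130, v.v3210, v.v4120, v.v5110] at h
  refine mul_left_cancel₀ hy ?_
  unfold q4_1110
  linear_combination 72 * h

set_option maxHeartbeats 2000000 in
theorem h4_2100 (n : N2 A e t r f1 f2 f3 Q X2 Y2 X3 Y3 X4 Y4 X5 X6)
    (v : T2 (fun i j k l => J (Mn A e t r i j k l)) a y) :
    q4_2100 a y X2 Y2 X3 Y3 X4 Y4 X5 X6 = 0 := by
  have h := congrArg (fun x => J (x * Mn A e t r 2 1 0 0)) (n.nk 0)
  simp only [Nat.reduceAdd, zero_add] at h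
  rw [n.q4, n.q3, n.q2, n.q1, n.e1, n.e2, n.e3] at h
  simp only [add_mul, mul_add, sub_mul, smul_mul_assoc, mul_smul_comm, Mn_mul, Nat.reduceAdd,
    map_add, map_sub, map_smul, smul_eq_mul, v.v2102, v.v2121, v.v2140, v.v2201, v.v2220,
    v.v2300, v.v3111, v.v3130, v.v3210, v.v4101, v.v4120, v.v4200, v.v5110, v.v6100] at h
  unfold q4_2100
  linear_combination 288 * h

set_option maxHeartbeats 2000000 in
theorem h4_0101 (n : N2 A e t r f1 f2 f3 Q X2 Y2 X3 Y3 X4 Y4 X5 X6)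
    (v : T2 (fun i j k l => J (Mn A e t r i j k l)) a y) (hy : y ≠ 0) :
    q4_0101 a y X2 Y2 X3 Y3 X4 Y4 X5 X6 = 0 := by
  have h := congrArg (fun x => J (x * Mn A e t r 0 1 0 1)) (n.nk 0)
  simp only [Nat.reduceAdd, zero_add] at h
  rw [n.q4, n.q3, n.q2, n.q1, n.e1, n.e2, n.e3] at h
  simp only [add_mul, mul_add, sub_mul, smul_mul_assoc, mul_smul_comm, Mn_mul, Nat.reduceAdd,
    map_add, map_sub, map_smul, smul_eq_mul, v.v0103, v.v0122, v.v0141, v.v0202, v.v0221,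
    v.v0301, v.v1112, v.v1131, v.v1211, v.v2102, v.v2121, v.v2201, v.v3111, v.v4101] at h
  refine mul_left_cancel₀ hy ?_
  unfold q4_0101
  linear_combination 288 * h

set_option maxHeartbeats 2000000 in
theorem h4_0200 (n : N2 A e t r f1 f2 f3 Q X2 Y2 X3 Y3 X4 Y4 X5 X6)
    (v : T2 (fun i j k l => J (Mn A e t r i j k l)) a y) :
    q4_0200 a y X2 Y2 X3 Y3 X4 Y4 X5 X6 = 0 := by
  have h := congrArg (fun x => J (x * Mn A e t r 0 2 0 0)) (n.nk 0)
  simp only [Nat.reduceAdd, zero_add] at h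
  rw [n.q4, n.q3, n.q2, n.q1, n.e1, n.e2, n.e3] at h
  simp only [add_mul, mul_add, sub_mul, smul_mul_assoc, mul_smul_comm, Mn_mul, Nat.reduceAdd,
    map_add, map_sub, map_smul, smul_eq_mul, v.v0202, v.v0221, v.v0240, v.v0301, v.v0320,
    v.v0400, v.v1211, v.v1230, v.v1310, v.v2201, v.v2220, v.v2300, v.v3210, v.v4200] at h
  unfold q4_0200
  linear_combination 288 * h

end Eq2

end Vale.Agent.P280Z.Al
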