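import Vale.Agent.P280Z.Al.Eqs

/-!
# P280Z, block Al: one more equation
-/

noncomputable section

namespace Vale.Agent.P280Z.Al

set_option linter.unusedVariables false

/-- the fourth relation tested against `(A ^ 2 - 4 eps) t ^ 2`, multiplied by `288 / y` -/
def q4_U (a y X2 Y2 X3 Y3 X4 Y4 X5 X6 : ℝ) : ℝ :=
  144*a^3*y*Y2^4 - 768*a^2*y*X2*Y2^3 + 384*a^2*y*Y2^4 + 288*a^2*y*Y2^2*Y3 - 432*a*y^2*Y2^4 +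
  1152*a*y*X2^2*Y2^2 - 1152*a*y*X2*Y2^3 - 576*a*y*X2*Y2*Y3 - 192*a*y*Y2^4 - 288*a*y*Y2^2*X3 -
  1344*a*y*Y2^2 - 768*a*y*Y2*Y4 + 144*a*y*Y3^2 + 48*a*X2^4 + 192*a*X2^3*Y2 - 504*a*X2^2 -
  576*a*X2*Y2*X3 + 336*a*X2*Y2 - 384*a*X2*X4 + 384*a*Y2*X4 - 144*a*X3^2 + 480*a*X3 + 576*a*X5 -
  805*a + 1152*y^2*X2*Y2^3 - 864*y^2*Y2^4 - 864*y^2*Y2^2*Y3 + 576*y*X2^2*Y2^2 - 288*y*X2^2*Y3 +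
  768*y*X2*Y2^3 + 576*y*X2*Y2*Y3 + 384*y*X2*Y4 - 768*y*Y2^4 - 576*y*Y2^2*X3 - 1152*y*Y2^2*Y3 +
  336*y*Y2^2 - 384*y*Y2*Y4 - 144*y*Y3^2 + 360*y*Y3 - 96*X2^4 + 384*X2^3*Y2 + 576*X2^2*X3 -
  336*X2^2 - 1152*X2*Y2*X3 + 672*X2*Y2 - 768*X2*X4 + 768*Y2*X4 - 144*X3^2 - 240*X3 + 288*X5 +
  1610

/-- row CERT3 -/
def CERT3 : Prop := ∀ a y X2 Y2 X3 Y3 X4 Y4 X5 X6 : ℝ, 0 ≤ a → 0 < y →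
  E2 a y X2 Y2 X3 Y3 X4 Y4 X5 X6 → q4_U a y X2 Y2 X3 Y3 X4 Y4 X5 X6 = 0 →
  a = 5 / 3 ∧ y = 1 / 9 ∧ X3 = -1 / 3 ∧ Y3 = 3 ∧ X5 = 0 ∧
  ((X2 = 11 / 10 ∧ Y2 = 3 / 5 ∧ X4 = -3 / 4 ∧ Y4 = 21 / 2 ∧ X6 = 7 / 3) ∨
    (X2 = -11 / 10 ∧ Y2 = -3 / 5 ∧ X4 = 3 / 4 ∧ Y4 = -21 / 2 ∧ X6 = -7 / 3) ∨
    (X2 = 1 / 2 ∧ Y2 = 3 ∧ X4 = -1 / 4 ∧ Y4 = -3 / 2 ∧ X6 = 0) ∨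
    (X2 = -1 / 2 ∧ Y2 = -3 ∧ X4 = 1 / 4 ∧ Y4 = 3 / 2 ∧ X6 = 0))

end Vale.Agent.P280Z.Al
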