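import Vale.Agent.P280Z.Al.Nf2
import Vale.Agent.P280Z.Al.Eq3

/-!
# P280Z, block Al: one more equation in the case `b₄ = 2`
-/

noncomputable section

namespace Vale.Agent.P280Z.Al

set_option linter.unusedSimpArgs false

set_option maxHeartbeats 2000000 in
theorem eq3 {R : Type} [CommRing R] [Algebra ℝ R] {J : R →ₗ[ℝ] ℝ} {A e t r U f1 f2 f3 : R}
    {p Q : ℕ → R} {a y X2 Y2 X3 Y3 X4 Y4 X5 X6 : ℝ} (g : R2 J A e t r a y) (hy : y ≠ 0)
    (h : Chn p Q U f1 f2 f3) (k : P2 A e t r U p X2 Y2 X3 Y3 X4 Y4 X5 X6) :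
    q4_U a y X2 Y2 X3 Y3 X4 Y4 X5 X6 = 0 := by
  have n := nf2 h k
  have v := tab2 g
  have h1 := congrArg (fun x => J (x * Mn A e t r 2 0 2 0)) (n.nk 0)
  simp only [Nat.reduceAdd, zero_add] at h1
  rw [n.q4, n.q3, n.q2, n.q1, n.e1, n.e2, n.e3] at h1
  simp only [add_mul, mul_add, sub_mul, smul_mul_assoc, mul_smul_comm, Mn_mul, Nat.reduceAdd,
    map_add, map_sub, map_smul, smul_eq_mul, zero_mul, map_zero, v.v2022, v.v2041, v.v2121,
    v.v2140, v.v2220, v.v3031, v.v3050, v.v3130, v.v4021, v.v4040, v.v4120, v.v5030,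
    v.v6020] at h1
  have h2 := congrArg (fun x => J (x * Mn A e t r 0 1 2 0)) (n.nk 0)
  simp only [Nat.reduceAdd, zero_add] at h2
  rw [n.q4, n.q3, n.q2, n.q1, n.e1, n.e2, n.e3] at h2
  simp only [add_mul, mul_add, sub_mul, smul_mul_assoc, mul_smul_comm, Mn_mul, Nat.reduceAdd,
    map_add, map_sub, map_smul, smul_eq_mul, zero_mul, map_zero, v.v0122, v.v0141, v.v0221,
    v.v0240, v.v0320, v.v1131, v.v1150, v.v1230, v.v2121, v.v2140, v.v2220, v.v3130,
    v.v4120] at h2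
  have ra := congrArg (fun x => J (x * Mn A e t r 0 0 4 0)) (Tab2.G2 g)
  simp only [add_mul, mul_add, sub_mul, smul_mul_assoc, mul_smul_comm, Mn_mul, Nat.reduceAdd,
    map_add, map_sub, map_smul, smul_eq_mul, zero_mul, map_zero, v.v0240, v.v2140, v.v4040] at ra
  have rb := congrArg (fun x => J (x * Mn A e t r 1 0 4 0)) (Tab2.G1 g)
  simp only [add_mul, mul_add, sub_mul, smul_mul_assoc, mul_smul_comm, Mn_mul, Nat.reduceAdd,
    map_add, map_sub, map_smul, smul_eq_mul, zero_mul, map_zero, v.v1150, v.v2041, v.v2140,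
    v.v4040] at rb
  have rc := congrArg (fun x => J (x * Mn A e t r 0 0 3 1)) (Tab2.G1 g)
  simp only [add_mul, mul_add, sub_mul, smul_mul_assoc, mul_smul_comm, Mn_mul, Nat.reduceAdd,
    map_add, map_sub, map_smul, smul_eq_mul, zero_mul, map_zero, v.v0141, v.v1032, v.v1131,
    v.v3031] at rc
  refine mul_left_cancel₀ hy ?_
  unfold q4_U
  linear_combination 288 * (h1 - 4 * h2) - 288 * (-(1/6)*Y2^4) * (4 * ra - 2 * rc - rb)

end Vale.Agent.P280Z.Al
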