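import Vale.Agent.P280Z.G2.Wl

/-!
# P280Z, block Al: the index theorem of Hodge for a semipositive class
-/

open scoped Manifold ContDiff Topology
open Set Filter
open Vale.Agent.P272.K Vale.Agent.P285.H281.FD Vale.Agent.P281Z Vale.Agent.P280Z.Ma

noncomputable section

namespace Vale.Agent.P280Z.Al

variable {T : CT} {m : ℕ}

/-- the reverse inequality of Cauchy and Schwarz for a Kähler class -/
theorem hix_kc (hT : T.OK) {V : Mf (m + 2)} (hV : PreconnectedSpace V.X) (z : V.X) {w g h : T.H V}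
    (hw : T.Kc V w) (tg : g ∈ T.Ty V) (dg : T.Dg V 1 g) (th : h ∈ T.Ty V) (dh : T.Dg V 1 h)
    (hg : 0 < T.int V (g * g * w ^ m)) :
    T.int V (h * h * w ^ m) * T.int V (g * g * w ^ m) ≤ T.int V (h * g * w ^ m) ^ 2 := by
  have v := kc_vol hT hw z
  have k1 := G2.WlH.hi hT hV z hw tg dg
  obtain ⟨s, hs⟩ : ∃ s, s = T.int V (g * w ^ (m + 1)) := ⟨_, rfl⟩
  obtain ⟨t, ht⟩ : ∃ t, t = T.int V (h * w ^ (m + 1)) := ⟨_, rfl⟩
  have k2 := G2.WlH.hi hT hV z hw (sub_mem ((T.Ty V).smul_mem th s) ((T.Ty V).smul_mem tg t))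
    (show T.Dg V 1 _ by rw [CT.Dg, map_sub, map_smul, map_smul, dh, dg])
  rw [show (s • h - t • g) * (s • h - t • g) * w ^ m = (s * s) • (h * h * w ^ m) -
    (2 * s * t) • (h * g * w ^ m) + (t * t) • (g * g * w ^ m) by algebra, sub_mul, smul_mul_assoc,
    smul_mul_assoc] at k2
  simp only [map_add, map_sub, map_smul, smul_eq_mul, one_mul, ← hs, ← ht] at k1 k2
  have s0 : 0 < s ^ 2 := (mul_pos hg v).trans_le k1
  have k3 : s * s * T.int V (h * h * w ^ m) - 2 * s * t * T.int V (h * g * w ^ m) +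
      t * t * T.int V (g * g * w ^ m) ≤ 0 := by
    by_contra! c
    nlinarith [mul_pos c v]
  by_contra! c
  nlinarith [mul_pos s0 (sub_pos.2 c), mul_nonneg hg.le (neg_nonneg.2 k3),
    sq_nonneg (t * T.int V (g * g * w ^ m) - s * T.int V (h * g * w ^ m))]

/-- **the index theorem for a semipositive class** -/
theorem hix (hT : T.OK) {m : ℕ} {M : Mf (m + 2)} (hc : ConnectedSpace M.X) (hk : M.Kah)
    {ν g h : T.H M} (hν : T.Nn M ν) (tg : g ∈ T.Ty M) (dg : T.Dg M 1 g) (th : h ∈ T.Ty M)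
    (dh : T.Dg M 1 h) (p : 0 < T.int M (g * g * ν ^ m)) :
    T.int M (h * h * ν ^ m) * T.int M (g * g * ν ^ m) ≤ T.int M (h * g * ν ^ m) ^ 2 := by
  obtain ⟨w, hw⟩ := (hT.po.kah M).1 hk
  obtain ⟨z⟩ := hc.toNonempty
  have c : ∀ u, Tendsto (fun t : ℝ => T.int M (u * (ν + t • w) ^ m)) (𝓝[>] 0)
      (𝓝 (T.int M (u * ν ^ m))) := fun u => by
    have := (G2.WlH.der (T.int M) ν w 0 m u).continuousAt.tendsto
    rw [zero_smul, add_zero] at this
    exact this.mono_left nhdsWithin_le_nhds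
  refine le_of_tendsto_of_tendsto ((c _).mul (c _)) ((c _).pow 2) ?_
  filter_upwards [(c (g * g)).eventually (lt_mem_nhds p), self_mem_nhdsWithin] with t h1 h2
  exact hix_kc hT hc.toPreconnectedSpace z
    (add_comm (t • w) _ ▸ kc_add hT (hT.po.smul t h2 hw) hν) tg dg th dh h1

end Vale.Agent.P280Z.Al
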