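import Vale.Agent.P280Z.Ma.Nx

/-!
# P280Z, block Al: the index theorem on the intersection of two cones (the statement)
-/

noncomputable section

namespace Vale.Agent.P280Z.NS
variable {A B : Type} [CommRing A] [Algebra ℝ A] [CommRing B] [Algebra ℝ B] (S : NS A B)

/-- the push forward from the cone of the curves through a point -/
def πc (a : B) : A := S.el (a * S.T (S.hh ^ 6))

/-- the index theorem for the class `b` on the intersection of two cones -/
def HZ (b : B) : Prop := 0 < S.GX.int (S.πc 1 * S.πc 1 * S.η ^ 2) →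
  (S.GX.int (S.πc (b * b) * S.πc 1) + S.GX.int (S.πc b * S.πc b)) *
    S.GX.int (S.πc 1 * S.πc 1 * S.η ^ 2) ≤ 2 * S.GX.int (S.πc b * S.πc 1 * S.η) ^ 2

end Vale.Agent.P280Z.NS
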