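import Vale.Agent.P280Z.Al.Asm
import Vale.Agent.P280Z.Al.HzD

/-!
# P280Z, block Al: the inequality from the intersection of two cones
-/

noncomputable section

namespace Vale.Agent.P280Z.Al

theorem vals {R : Type} [CommRing R] [Algebra ℝ R] {J : R →ₗ[ℝ] ℝ} {A e t r : R} {a y : ℝ}
    (h : R2 J A e t r a y) : J ((A + t) * Hn A e 5 * Hn A e 2) = 1 + y ∧
      J ((A + t) * Hn A e 5 * r) = -(a * y) ∧
      J ((A + t) * (A + t) * Hn A e 5 * (A + t)) = 1 - 2 * y - 4 * a * y - 3 * y ^ 2 := by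
  have v := tab2 h
  have m : ∀ i j k l, J (Mn A e t r i j k l * Hn A e 5) = J (Mn A e t r (i + 5) j k l) -
      4 * J (Mn A e t r (i + 3) (j + 1) k l) + 3 * J (Mn A e t r (i + 1) (j + 2) k l) :=
    fun i j k l => by
      rw [← smul_eq_mul (4 : ℝ), ← smul_eq_mul (3 : ℝ), ← map_smul, ← map_smul, ← map_sub,
        ← map_add]
      refine congrArg J ?_
      simp only [Mn, Hn]
      algebra
  refine ⟨?_, ?_, ?_⟩
  · rw [show (A + t) * Hn A e 5 * Hn A e 2 = Mn A e t r 3 0 0 0 * Hn A e 5 +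
      Mn A e t r 2 0 1 0 * Hn A e 5 - Mn A e t r 1 1 0 0 * Hn A e 5 -
      Mn A e t r 0 1 1 0 * Hn A e 5 by
        generalize Hn A e 5 = z
        simp only [Mn, Hn]
        ring]
    simp only [map_add, map_sub, m, Nat.reduceAdd, v.v8000, v.v6100, v.v4200, v.v2300, v.v7010,
      v.v5110, v.v3210, v.v1310]
    ring
  · rw [show (A + t) * Hn A e 5 * r = Mn A e t r 1 0 0 1 * Hn A e 5 +
      Mn A e t r 0 0 1 1 * Hn A e 5 by
        simp only [Mn]
        ring]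
    simp only [map_add, m, Nat.reduceAdd, v.v6001, v.v4101, v.v2201, v.v5011, v.v3111, v.v1211]
    ring
  · rw [show (A + t) * (A + t) * Hn A e 5 * (A + t) = Mn A e t r 3 0 0 0 * Hn A e 5 +
      (3 : ℝ) • (Mn A e t r 2 0 1 0 * Hn A e 5) + (3 : ℝ) • (Mn A e t r 1 0 2 0 * Hn A e 5) +
      Mn A e t r 0 0 3 0 * Hn A e 5 by
        generalize Hn A e 5 = z
        simp only [Mn]
        algebra]
    simp only [map_add, map_smul, smul_eq_mul, m, Nat.reduceAdd, v.v8000, v.v6100, v.v4200,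
      v.v7010, v.v5110, v.v3210, v.v6020, v.v4120, v.v2220, v.v5030, v.v3130, v.v1230]
    ring

variable {A B : Type} [CommRing A] [Algebra ℝ A] [CommRing B] [Algebra ℝ B] {S : NS A B}
  {D a y : ℝ} {ω : A}

theorem bet (hL : S.Lei) (h : S.C2 D a y ω) :
    S.T (S.es (S.Sg (S.η ^ 6))) = D • (S.aa + S.T (S.es ω)) := by
  rw [h.s6, map_smul, map_smul, map_add, map_add, Asm.Tp hL 1, Hn, add_comm]

/-- pairings of the push forward from the cone -/
theorem pc (hO : S.OK 6 3) (hL : S.Lei) (hN : S.Num D a) {x : B} (hx : S.T x = 0) (α : A) :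
    S.GX.int (S.πc x * α) = D * S.GX.int (S.η ^ 6) *
      Jn S D (x * Hn S.aa S.ee 5 * S.T (S.es α)) := by
  have e : x * Hn S.aa S.ee 5 * S.T (S.es α) = S.T (x * S.T (S.hh ^ 6) * S.es α) := by
    rw [mul_assoc x (S.T _), hL.ker _ _ hx, hL.ker _ _ (hL.TT _), hL.pow 5, mul_assoc]
    rfl
  rw [e, Asm.J_T hL, mul_inv_cancel_left₀ (mul_pos hN.pos hO.vol).ne', NS.πc, ← hO.proj,
    hO.el_int]

/-- **the first inequality** -/
theorem i1 (hO : S.OK 6 3) (hL : S.Lei) (hE : S.Elr) (hN : S.Num D a) (h : S.C2 D a y ω)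
    (hz : S.HZ (S.T (S.es (S.Sg (S.η ^ 6))))) : a ^ 2 * (1 - y) ≤ 2 * (1 + y) ^ 2 := by
  obtain ⟨v1, v2, v3⟩ := vals (Asm.r2 hO hL hE hN h)
  have i22 := Asm.i22 h
  have i41 : S.η ^ 4 * ω = 0 := by linear_combination S.η * h.prim
  have hD := hN.pos
  have hv := hO.vol
  rw [bet hL h] at hz
  set β := S.aa + S.T (S.es ω) with hβ
  have tβ : S.T β = 0 := by rw [hβ, map_add, hL.aa, hL.TT, add_zero]
  have dβ : S.GU.Dg 1 β := X4a.dg_add (X4a.dg_add (X4a.dh hO hL) (X4a.dk hO hL))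
    (hL.dT 1 _ (hL.de 2 _ h.dg))
  have p1 : S.πc 1 = D • (ω + S.η ^ 2) := by
    rw [NS.πc, one_mul, ← Asm.es_pow, ← h.s6]
    rfl
  have sm : ∀ (c : ℝ) x, S.πc (c • x) = c • S.πc x := fun c x => by
    rw [NS.πc, smul_mul_assoc, map_smul, NS.πc]
  obtain ⟨x, z, e⟩ := h.d3 (S.πc β) (hE.dl 3 _ (hO.gu.dg_mul 1 5 _ _ dβ
    (hL.dT 5 _ (X4a.dg_pow hO.gu (X4a.dh hO hL) 6))))
  have k1 := pc hO hL hN tβ (S.η ^ 3)
  have k2 := pc hO hL hN tβ (S.η * ω)
  have k3 := pc hO hL hN (x := β * β) (by rw [hL.ker _ _ tβ, tβ, mul_zero]) (ω + S.η ^ 2)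
  rw [Asm.Tp hL 2, v1, e, show (x • S.η ^ 3 + z • (S.η * ω)) * S.η ^ 3 = x • S.η ^ 6 by
    linear_combination (norm := algebra) z • i41, map_smul, smul_eq_mul] at k1
  rw [map_mul S.es, ← NS.hh, v2, e, show (x • S.η ^ 3 + z • (S.η * ω)) * (S.η * ω) =
    (z * y) • S.η ^ 6 by linear_combination (norm := algebra) x • i41 + z • i22, map_smul,
    smul_eq_mul] at k2
  rw [map_add, map_add, Asm.Tp hL 1, Hn, add_comm (S.T _), ← hβ, v3] at k3
  obtain rfl : x = D * (1 + y) := mul_right_cancel₀ hv.ne' (by linear_combination k1)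
  obtain rfl : z = -(D * a) :=
    mul_right_cancel₀ (mul_pos h.pos hv).ne' (by linear_combination k2)
  have q1 : S.πc 1 * S.πc 1 * S.η ^ 2 = (D ^ 2 * (1 + y)) • S.η ^ 6 := by
    rw [p1]
    linear_combination (norm := algebra) D ^ 2 • i22 + (2 * D ^ 2) • i41
  have q2 : S.πc (D • β) * S.πc (D • β) =
      (D ^ 4 * ((1 + y) ^ 2 + a ^ 2 * y)) • S.η ^ 6 := by
    rw [sm, e]
    linear_combination (norm := algebra) (D ^ 4 * a ^ 2) • i22 - (2 * D ^ 4 * a * (1 + y)) • i41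
  have q3 : S.πc (D • β) * S.πc 1 * S.η = (D ^ 3 * (1 + y - a * y)) • S.η ^ 6 := by
    rw [sm, e, p1]
    linear_combination (norm := algebra) (-(D ^ 3 * a)) • i22 + (D ^ 3 * (1 + y - a)) • i41
  have q4 : S.πc (D • β * D • β) * S.πc 1 = D ^ 3 • (S.πc (β * β) * (ω + S.η ^ 2)) := by
    rw [smul_mul_smul_comm, sm, p1]
    algebra
  rw [NS.HZ, q4, q1, q2, q3] at hz
  simp only [map_smul, smul_eq_mul, k3] at hz
  have y0 := h.pos
  have k := hz (by positivity)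
  refine le_of_mul_le_mul_left ?_ (by positivity : 0 < D ^ 6 * S.GX.int (S.η ^ 6) ^ 2 * y)
  linarith

end Vale.Agent.P280Z.Al
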