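import Vale.Agent.P280Z.Al.Asm
import Vale.Agent.P280Z.Ma.Nx

/-!
# P280Z, block Al: two inequalities between the numbers `a` and `y`
-/

noncomputable section

namespace Vale.Agent.P280Z.Al

namespace O2j

section ring
variable {R : Type} [CommRing R] [Algebra ℝ R] {J : R →ₗ[ℝ] ℝ} {A e t r : R} {a y : ℝ}

/-- a primitive class of degree two -/
def uP (A e t r : R) (a y : ℝ) : R :=
  (5 * (a + 2)) • r - (a + 2) • (A * t) - (11 : ℝ) • (t * t) - (44 * y) • (A * A) + (110 * y) • e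

theorem u5 (h : R2 J A e t r a y) : A ^ (4 + 1) * uP A e t r a y = 0 := by
  have g1 := h.g1
  have g2 := h.g2
  have g5 := h.g5
  simp only [Hn] at g1 g2 g5
  rw [uP]
  linear_combination (norm := algebra) (11 * e ^ 2 - 11 * A ^ 2 * e + 11 * A ^ 4) * g1 +
    (22 * A * e + 33 * A ^ 3) * g2 +
    (77 * e * t - 33 * A * r + (a + 2) • (A * e) - 22 * A ^ 2 * t - (6 * (a + 2)) • A ^ 3) * h.g3 +
    (-55 * r - (10 * (a + 2)) • e - 110 * A * t + (4 * (a + 2)) • A ^ 2) * h.g4 -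
    ((a + 2) • t) * g5

theorem Ju (h : R2 J A e t r a y) : J (uP A e t r a y * uP A e t r a y * A ^ 4) =
    y * ((a + 2) ^ 2 * (5 * a - 11) + 22 * y * (85 * a - 127)) := by
  have v := tab2 h
  have k : uP A e t r a y * uP A e t r a y * A ^ 4 =
      (25 * (a + 2) ^ 2) • Mn A e t r 4 0 0 2 + ((a + 2) ^ 2 + 968 * y) • Mn A e t r 6 0 2 0 +
      (121 : ℝ) • Mn A e t r 4 0 4 0 + (1936 * y ^ 2) • Mn A e t r 8 0 0 0 +
      (12100 * y ^ 2) • Mn A e t r 4 2 0 0 + (-10 * (a + 2) ^ 2) • Mn A e t r 5 0 1 1 +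
      (-110 * (a + 2)) • Mn A e t r 4 0 2 1 + (-440 * (a + 2) * y) • Mn A e t r 6 0 0 1 +
      (1100 * (a + 2) * y) • Mn A e t r 4 1 0 1 + (22 * (a + 2)) • Mn A e t r 5 0 3 0 +
      (88 * (a + 2) * y) • Mn A e t r 7 0 1 0 + (-220 * (a + 2) * y) • Mn A e t r 5 1 1 0 +
      (-2420 * y) • Mn A e t r 4 1 2 0 + (-9680 * y ^ 2) • Mn A e t r 6 1 0 0 := by
    simp only [uP, Mn]
    algebra
  simp only [k, map_add, map_smul, v.v4002, v.v6020, v.v4040, v.v8000, v.v4200, v.v5011, v.v4021,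
    v.v6001, v.v4101, v.v5030, v.v7010, v.v5110, v.v4120, v.v6100, smul_eq_mul]
  ring

theorem Jb (h : R2 J A e t r a y) : J ((t + A) * ((t + A) * ((t + A) * Hn A e 5))) =
    1 - 2 * y - 4 * a * y - 3 * y ^ 2 := by
  have v := tab2 h
  have k : (t + A) * ((t + A) * ((t + A) * Hn A e 5)) =
      Mn A e t r 8 0 0 0 + (-4 : ℝ) • Mn A e t r 6 1 0 0 + (3 : ℝ) • Mn A e t r 4 2 0 0 +
      (3 : ℝ) • Mn A e t r 7 0 1 0 + (-12 : ℝ) • Mn A e t r 5 1 1 0 + (9 : ℝ) • Mn A e t r 3 2 1 0 +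
      (3 : ℝ) • Mn A e t r 6 0 2 0 + (-12 : ℝ) • Mn A e t r 4 1 2 0 + (9 : ℝ) • Mn A e t r 2 2 2 0 +
      Mn A e t r 5 0 3 0 + (-4 : ℝ) • Mn A e t r 3 1 3 0 + (3 : ℝ) • Mn A e t r 1 2 3 0 := by
    simp only [Hn, Mn]
    algebra
  simp only [k, map_add, map_smul, v.v8000, v.v6100, v.v4200, v.v7010, v.v5110, v.v3210, v.v6020,
    v.v4120, v.v2220, v.v5030, v.v3130, v.v1230, smul_eq_mul]
  ring

end ring

variable {A B : Type} [CommRing A] [Algebra ℝ A] [CommRing B] [Algebra ℝ B] {S : NS A B}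
  {D a y : ℝ} {ω : A}

theorem wη (hO : S.OK 6 3) {WA : Set A} {WB : Set B} (W : S.Wps WA WB) {x : A} (hx : x ∈ WA)
    (k : ℕ) : S.η ^ k * x ∈ WA := by
  induction k with
  | zero => rwa [pow_zero, one_mul]
  | succ k ih =>
    rw [pow_succ', mul_assoc]
    exact W.mulA _ W.η hO.dη _ ih

theorem wp (hO : S.OK 6 3) {WA : Set A} {WB : Set B} (W : S.Wps WA WB) (k : ℕ) :
    S.η ^ k ∈ WA := by
  rw [← mul_one (S.η ^ k)]
  exact wη hO W W.oneA k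

theorem h5 (hO : S.OK 6 3) (hx : S.Ex 6 8) : 0 ≤ S.GX.int (S.η ^ 5 * S.Sg (S.η ^ 5)) := by
  obtain ⟨WA, WB, W⟩ := hx.wps
  exact W.intA _ (wη hO W (W.el _ (W.T _ (W.es _ (wp hO W 5)))) 5)

theorem Jn_apply (x : B) :
    Jn S D x = (D * S.GX.int (S.η ^ 6))⁻¹ * S.GU.int (S.hh * x) := rfl

theorem Tb (hL : S.Lei) (h : S.C2 D a y ω) :
    S.T (S.es (S.Sg (S.η ^ 6))) = D • (S.T (S.es ω) + S.aa) := by
  rw [h.s6, map_smul, map_smul, map_add, map_add, Asm.Tp hL 1, Hn]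

end O2j

variable {A B : Type} [CommRing A] [Algebra ℝ A] [CommRing B] [Algebra ℝ B] {S : NS A B}
  {D a y : ℝ} {ω : A}

open O2j in
/-- positivity of the cube of the class of the curves meeting a cone, on the curves of a cone -/
theorem i2 (hO : S.OK 6 3) (hx : S.Ex 6 8) (hL : S.Lei) (hE : S.Elr) (hN : S.Num D a)
    (h : S.C2 D a y ω) : 0 ≤ 1 - 2 * y - 4 * a * y - 3 * y ^ 2 := by
  obtain ⟨WA, WB, W⟩ := hx.wps
  have w6 := W.T _ (W.es _ (wp hO W 6))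
  have wb := W.T _ (W.es _ (W.el _ w6))
  have db : S.GU.Dg 1 (S.T (S.es (S.Sg (S.η ^ 6)))) :=
    hL.dT _ _ (hL.de _ _ (X4a.dg_Sg hL hE (k := 2) (X4a.dη hO 6)))
  have p := W.intB _ (W.mulB _ W.hh (X4a.dh hO hL) _
    (W.mulB _ wb db _ (W.mulB _ wb db _ (W.mulB _ wb db _ w6))))
  have j := Jb (Asm.r2 hO hL hE hN h)
  rw [Jn_apply] at j
  rw [← NS.Sg, Tb hL h, Asm.Tp hL 5] at p
  simp only [smul_mul_assoc, mul_smul_comm, map_smul, smul_eq_mul] at p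
  rw [← j]
  refine mul_nonneg (inv_nonneg.2 (mul_pos hN.pos hO.vol).le) ?_
  exact nonneg_of_mul_nonneg_right (nonneg_of_mul_nonneg_right (nonneg_of_mul_nonneg_right p hN.pos)
    hN.pos) hN.pos

open O2j in
/-- the Hodge-Riemann relation for a primitive class of degree two on the space of curves -/
theorem i4 (hO : S.OK 6 3) (hx : S.Ex 6 8) (hL : S.Lei) (hE : S.Elr) (hN : S.Num D a)
    (h : S.C2 D a y ω) : 0 ≤ (a + 2) ^ 2 * (5 * a - 11) + 22 * y * (85 * a - 127) := by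
  obtain ⟨TA, TB, Y⟩ := hx.tys
  have hR := Asm.r2 hO hL hE hN h
  have j := Ju hR
  have u := u5 hR
  have tω : ω ∈ TA := by
    have e : ω = D⁻¹ • S.Sg (S.η ^ 6) - S.η ^ 2 := by
      rw [h.s6, smul_smul, inv_mul_cancel₀ hN.pos.ne', one_smul, add_sub_cancel_right]
    rw [e]
    exact TA.sub_mem (TA.smul_mem (Y.el _ (Y.T _ (Y.es _ (TA.pow_mem Y.η 6)))) _) (TA.pow_mem Y.η 2)
  have th : S.hh ∈ TB := Y.es _ Y.η
  have tc : S.hc ∈ TB := TB.sub_mem th Y.τ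
  have ta : S.aa ∈ TB := TB.add_mem th tc
  have te : S.ee ∈ TB := TB.mul_mem th tc
  have tt := Y.T _ (Y.es _ tω)
  have tr := Y.T _ (TB.mul_mem th (Y.es _ tω))
  have dh := X4a.dh hO hL
  have dc := X4a.dk hO hL
  have da : S.GU.Dg 1 S.aa := X4a.dg_add dh dc
  have de : S.GU.Dg 2 S.ee := hO.gu.dg_mul 1 1 _ _ dh dc
  have dω := hL.de _ _ h.dg
  have dt := hL.dT 1 _ dω
  have dr := hL.dT 2 _ (hO.gu.dg_mul 1 2 _ _ dh dω)
  have kt := hL.TT (S.es ω)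
  refine nonneg_of_mul_nonneg_right ?_ h.pos
  rw [← j]
  by_cases z : uP S.aa S.ee (S.T (S.es ω)) (S.T (S.hh * S.es ω)) a y = 0
  · rw [z, zero_mul, zero_mul, map_zero]
  have p := Y.hrK 2 4 rfl _ ?_ ?_ ?_ u z
  · rw [Jn_apply]
    refine mul_nonneg (inv_nonneg.2 (mul_pos hN.pos hO.vol).le) ?_
    linarith
  · exact TB.add_mem (TB.sub_mem (TB.sub_mem (TB.sub_mem (TB.smul_mem tr _)
      (TB.smul_mem (TB.mul_mem ta tt) _)) (TB.smul_mem (TB.mul_mem tt tt) _))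
      (TB.smul_mem (TB.mul_mem ta ta) _)) (TB.smul_mem te _)
  · simp only [uP, map_add, map_sub, map_smul, hL.TT, hL.ker _ _ hL.aa, hL.ker _ _ kt, hL.aa, hL.ee,
      mul_zero, smul_zero, sub_zero, add_zero]
  · exact X4a.dg_add (X4a.dg_sub (X4a.dg_sub (X4a.dg_sub (X4a.dg_smul _ dr)
      (X4a.dg_smul _ (hO.gu.dg_mul 1 1 _ _ da dt))) (X4a.dg_smul _ (hO.gu.dg_mul 1 1 _ _ dt dt)))
      (X4a.dg_smul _ (hO.gu.dg_mul 1 1 _ _ da da))) (X4a.dg_smul _ de)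

end Vale.Agent.P280Z.Al
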