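import Vale.Agent.P280Z.Al.Out
import Vale.Agent.P280Z.Al.O2j
import Vale.Agent.P280Z.Al.Eq4
import Vale.Agent.P280Z.Al.O2i

/-!
# P280Z, block Al: the algebra, with the numbers `a`, `y` fixed by three inequalities
-/

noncomputable section

namespace Vale.Agent.P280Z.Al

theorem O2j.pin {a y : ℝ} (hy : 0 < y) (ha : 0 ≤ a) (i1 : a ^ 2 * (1 - y) ≤ 2 * (1 + y) ^ 2)
    (i2 : 0 ≤ 1 - 2 * y - 4 * a * y - 3 * y ^ 2)
    (i4 : 0 ≤ (a + 2) ^ 2 * (5 * a - 11) + 22 * y * (85 * a - 127)) : a = 5 / 3 ∧ y = 1 / 9 := by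
  have h1 : a ≤ 5 / 3 := by
    by_contra! hc
    rcases le_total y (1 / 9) with h | h
    · have : 25 / 9 < a ^ 2 := by nlinarith
      nlinarith
    · nlinarith [mul_pos hy (sub_pos.2 hc)]
  have h2 : 0 < 85 * a - 127 := by
    by_contra! hc
    have : 0 < (a + 2) ^ 2 * (11 - 5 * a) := mul_pos (by positivity) (by linarith)
    nlinarith [mul_nonneg hy.le (sub_nonneg.2 hc)]
  have h3 : y ≤ 1 / 9 + (5 / 3 - a) / 10 := by
    by_contra! hc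
    nlinarith [mul_pos hy h2, mul_nonneg (sub_nonneg.2 h1) h2.le, mul_pos (sub_pos.2 hc) h2]
  have h4 : a = 5 / 3 := by
    refine le_antisymm h1 ?_
    by_contra! hc
    have hd := sub_pos.2 hc
    nlinarith [mul_nonneg (sub_nonneg.2 h3) h2.le, mul_pos hd hd, mul_pos hd (mul_pos hd hd)]
  subst h4
  exact ⟨rfl, by nlinarith⟩

variable {A B : Type} [CommRing A] [Algebra ℝ A] [CommRing B] [Algebra ℝ B] {S : NS A B}

open OutH in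
/-- **the algebra**, from the first inequality -/
theorem out_of1 (c1 : CERT1) (c4 : CERT4) (hO : S.OK 6 3) (hx : S.Ex 6 8)
    (k1 : ∀ D a y ω, S.Lei → S.Elr → S.Num D a → S.C2 D a y ω →
      a ^ 2 * (1 - y) ≤ 2 * (1 + y) ^ 2) (r0 : rrX S 0 = 1)
    (r5 : ∃ n : ℕ, rrX S 5 = n) : ∃ D, Out S D := by
  have hL := lei S 6 3 hO.toOK0
  obtain ⟨hE, hN⟩ := elr S hO hL
  obtain ⟨D, a, hN⟩ := hN (O2j.h5 hO hx)
  obtain h | ⟨y, ω, h⟩ := x4 S D a hO hL hE hN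
  · obtain ⟨d, X2, X3, X4, X5, X6, h⟩ := Asm.c1 hO hL hE hN h
    exact (c1 _ _ _ _ _ _ _ hN.nn h).elim
  obtain ⟨rfl, rfl⟩ := O2j.pin h.pos hN.nn (k1 D a y ω hL hE hN h) (i2 hO hx hL hE hN h)
    (i4 hO hx hL hE hN h)
  obtain ⟨f1, f2, f3, hC⟩ := chn S hO.toOK0 hL
  obtain ⟨X2, Y2, X3, Y3, X4, Y4, X5, X6, e2, e4, e6, hP⟩ := Asm.p2 hO hL hE h
  obtain ⟨rfl, rfl, -, hs⟩ := c4 _ _ _ _ _ _ _ _
    (eq2 (Asm.r2 hO hL hE hN h) h.pos.ne' hC hP) (eq3 (Asm.r2 hO hL hE hN h) h.pos.ne' hC hP)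
  obtain ⟨n, r5⟩ := r5
  rw [rr hO h e2 e4 e6] at r0 r5
  have no : ∀ p q : ℕ, (q : ℝ) * n = p → ¬ q ∣ p → False := fun p q e k =>
    k ⟨n, by exact_mod_cast e.symm⟩
  obtain ⟨rfl, rfl, rfl, rfl, rfl⟩ | ⟨rfl, rfl, rfl, rfl, rfl⟩ | ⟨rfl, rfl, rfl, rfl, rfl⟩ |
    ⟨rfl, rfl, rfl, rfl, rfl⟩ := hs
  · have n2 := nf2 hC hP
    refine ⟨D, fin hO hL hE hN h (by linarith) ?_ ?_⟩
    · rw [n2.q1]
      simp only [Mn]
      algebra
    · rw [n2.q2]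
      simp only [Mn]
      algebra
  · exact (no 1120733 2183 (by push_cast; linarith) (by norm_num)).elim
  · exact (no 34821 41 (by push_cast; linarith) (by norm_num)).elim
  · exact (no 436867 727 (by push_cast; linarith) (by norm_num)).elim

/-- **the algebra** -/
theorem out_of2 (c1 : CERT1) (c4 : CERT4) (hO : S.OK 6 3) (hx : S.Ex 6 8)
    (hz : S.HZ (S.T (S.es (S.Sg (S.η ^ 6))))) (r0 : rrX S 0 = 1)
    (r5 : ∃ n : ℕ, rrX S 5 = n) : ∃ D, Out S D :=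
  out_of1 c1 c4 hO hx (fun _ _ _ _ hL hE hN h => i1 hO hL hE hN h hz) r0 r5

end Vale.Agent.P280Z.Al
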