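import Vale.Agent.P280Z.Al.Top2
import Vale.Agent.P280Z.Al.Hix
import Vale.Agent.P280Z.Al.Out2
import Vale.Agent.P280Z.Al.Cert1b
import Vale.Agent.P280Z.Al.Cert4b
import Vale.Agent.P280Z.Gm.All

/-!
# P280Z, block Al: the theorem
-/

namespace Vale.Agent.P280Z.Al

theorem al : Gm.AL :=
  al_of2 (fun _ hT _ _ => hix hT) (fun _ => out_of2 cert1b cert4b) Gm.rt Gm.cov

end Vale.Agent.P280Z.Al
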