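import Vale.Agent.P280Z.Al.HzD
import Vale.Agent.P280Z.Sq.Api
import Vale.Agent.P280Z.Rh.Api
import Vale.Agent.P280Z.Ma.Nsx
import Vale.Agent.P280Z.Co.Fp

/-!
# P280Z, block Al: the index theorem on the intersection of two cones
-/

open Set
open Vale.Agent.P272.K Vale.Agent.P285.H281.FD Vale.Agent.P281Z Vale.Agent.P280Z.Ma

noncomputable section

namespace Vale.Agent.P280Z.Al

/-- the index theorem for semipositive classes -/
def HIX : Prop := ∀ T : CT, T.OK → ∀ {m : ℕ} {M : Mf (m + 2)}, ConnectedSpace M.X → M.Kah →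
  ∀ {ν g h : T.H M}, T.Nn M ν → g ∈ T.Ty M → T.Dg M 1 g → h ∈ T.Ty M → T.Dg M 1 h →
  0 < T.int M (g * g * ν ^ m) →
  T.int M (h * h * ν ^ m) * T.int M (g * g * ν ^ m) ≤ T.int M (h * g * ν ^ m) ^ 2

theorem hz_of (hI : HIX) {T : CT} (hT : T.OK) {X : Mf 6} {U : Mf 9} {K : Mf 8} {p : U.X → K.X}
    {e : U.X → X.X} (sp : Sub 9 8 p) (se : Sub 9 6 e) (kU : U.Kah) (cU : ConnectedSpace U.X)
    (cp : ∀ y, IsConnected (p ⁻¹' {y})) (ce : ∀ x, IsConnected (e ⁻¹' {x})) {η : T.H X}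
    (hη : T.Nn X η) (Tb : Bd U.X) (E : VB U.X) {b : T.H U} (tb : b ∈ T.Ty U) (db : T.Dg U 1 b) :
    (T.ns sp.hol se.hol η Tb E).HZ b := by
  obtain ⟨Q, q1, q2, c, -, kQ, -⟩ := fp 10 p p rfl sp sp.hol
  have sE : Sub 10 6 fun z => e (q1 z) := Sq.Sub.comp se c.sf'
  have cq := fun u => Sq.cart_fib c u (cp _)
  obtain ⟨M, f, g, d, -, kM, -⟩ := fp 14 (fun z => e (q1 z)) (fun z => e (q1 z)) rfl sE sE.hol
  have cM : ConnectedSpace M.X := Sq.conn_of d.sf' (fun z => Sq.cart_fib d z (Sq.conn_pre c.sf' cq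
    (isClosed_singleton.preimage se.hol.cont) (ce _))) (Sq.conn_of c.sf' cq cU)
  set S := T.ns sp.hol se.hol η Tb E with hS
  obtain ⟨x, hx⟩ : ∃ x, x = T.pull c.hg' S.hh := ⟨_, rfl⟩
  have nh : T.Nn U S.hh := nn_pull hT se.hol hη
  have nx : T.Nn Q x := hx ▸ nn_pull hT c.hg' nh
  have x7 : x ^ 7 = 0 := by
    have : S.η ^ 7 = 0 :=
      (dg_pow hT (hT.po.deg hη) 7).symm.trans (hT.rg.pr_zero X 7 _ (by norm_num))
    rw [hx, NS.hh, ← map_pow, ← map_pow, this, map_zero, map_zero]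
  have pE : ∀ γ, T.push (fun z => e (q1 z)) (x ^ 6 * T.pull c.sf'.hol γ) = S.πc γ := fun γ => by
    rw [hT.pu.comp c.sf' se, hT.pu.proj c.sf', hx, ← map_pow, ← hT.pu.bc c, mul_comm]
    rfl
  obtain ⟨F, hF⟩ : ∃ F : T.H U →ₐ[ℝ] T.H M, F = (T.pull d.sf'.hol).comp (T.pull c.sf'.hol) :=
    ⟨_, rfl⟩
  obtain ⟨G, hG⟩ : ∃ G : T.H U →ₐ[ℝ] T.H M, G = (T.pull d.hg').comp (T.pull c.sf'.hol) := ⟨_, rfl⟩
  obtain ⟨ν, hν⟩ : ∃ ν, ν = T.pull d.sf'.hol x + T.pull d.hg' x := ⟨_, rfl⟩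
  have I : ∀ γ γ', T.int M (F γ * G γ' * ν ^ 12) = 924 * T.int X (S.πc γ * S.πc γ') := by
    intro γ γ'
    have u7 : T.pull d.sf'.hol x ^ 7 = 0 := by rw [← map_pow, x7, map_zero]
    have v7 : T.pull d.hg' x ^ 7 = 0 := by rw [← map_pow, x7, map_zero]
    have e1 : F γ * G γ' * ν ^ 12 = (924 : ℝ) • (T.pull d.hg' (x ^ 6 * T.pull c.sf'.hol γ') *
        T.pull d.sf'.hol (x ^ 6 * T.pull c.sf'.hol γ)) := by
      simp only [hF, hG, hν, AlgHom.comp_apply, map_mul, map_pow]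
      generalize T.pull d.sf'.hol x = u at u7 ⊢
      generalize T.pull d.hg' x = v at v7 ⊢
      generalize T.pull d.sf'.hol (T.pull c.sf'.hol γ) = s
      generalize T.pull d.hg' (T.pull c.sf'.hol γ') = s'
      linear_combination (norm := algebra) s * s' * (u ^ 5 + 12 * u ^ 4 * v + 66 * u ^ 3 * v ^ 2 +
        220 * u ^ 2 * v ^ 3 + 495 * u * v ^ 4 + 792 * v ^ 5) * u7 + s * s' * (v ^ 5 +
        12 * v ^ 4 * u + 66 * v ^ 3 * u ^ 2 + 220 * v ^ 2 * u ^ 3 + 495 * v * u ^ 4 +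
        792 * u ^ 5) * v7
    rw [e1, map_smul, ← hT.pu.int d.sf', hT.pu.proj d.sf', ← hT.pu.bc d, mul_comm (T.pull _ _),
      ← hT.pu.int sE, hT.pu.proj sE, pE, pE, smul_eq_mul]
  have ph : ∀ γ, S.πc (γ * S.hh) = S.πc γ * η := fun γ => by
    rw [NS.πc, mul_right_comm]
    exact hT.pu.proj se _ _
  have ty : ∀ {a}, a ∈ T.Ty U → F a ∈ T.Ty M ∧ G a ∈ T.Ty M := fun h =>
    hF ▸ hG ▸ ⟨hT.tp.pull _ (hT.tp.pull _ h), hT.tp.pull _ (hT.tp.pull _ h)⟩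
  have dg : ∀ {a}, T.Dg U 1 a → T.Dg M 1 (F a) ∧ T.Dg M 1 (G a) := fun h =>
    hF ▸ hG ▸ ⟨dg_pull hT _ (dg_pull hT _ h), dg_pull hT _ (dg_pull hT _ h)⟩
  have k := hI T hT (m := 12) cM (kM (kQ kU kU) (kQ kU kU)) (ν := ν) (g := F S.hh) (h := F b + G b)
    (hν ▸ Rh.nn_add hT (nn_pull hT _ nx) (nn_pull hT _ nx)) (ty (Rh.nn_ty hT nh)).1
    (dg (hT.po.deg nh)).1 (add_mem (ty tb).1 (ty tb).2)
    (by rw [CT.Dg, map_add, (dg db).1, (dg db).2])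
  have a1 := I (1 * S.hh * S.hh) 1
  have a2 := I (b * S.hh) 1
  have a3 := I (1 * S.hh) b
  have a4 := I (b * b) 1
  have a5 := I b b
  have a6 := I 1 (b * b)
  simp only [ph, map_mul, map_one, mul_one, one_mul (F _), one_mul (G _ * _)] at a1 a2 a3 a4 a5 a6
  rw [show (F b + G b) * (F b + G b) * ν ^ 12 = F b * F b * ν ^ 12 + (F b * G b * ν ^ 12 +
      F b * G b * ν ^ 12) + G b * G b * ν ^ 12 by ring,
    show (F b + G b) * F S.hh * ν ^ 12 = F b * F S.hh * ν ^ 12 + F S.hh * G b * ν ^ 12 by ring,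
    map_add, map_add, map_add, map_add, a1, a2, a3, a4, a5, a6,
    show S.πc 1 * η * η * S.πc 1 = S.πc 1 * S.πc 1 * η ^ 2 by ring,
    show S.πc b * η * S.πc 1 = S.πc b * S.πc 1 * η by ring,
    show S.πc 1 * η * S.πc b = S.πc b * S.πc 1 * η by ring, mul_comm (S.πc 1) (S.πc (b * b))] at k
  intro h0
  change 0 < T.int X (S.πc 1 * S.πc 1 * η ^ 2) at h0
  have := k (by linarith)
  change (T.int X _ + T.int X _) * T.int X (_ * η ^ 2) ≤ 2 * T.int X (_ * η) ^ 2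
  linarith

end Vale.Agent.P280Z.Al
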