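import Vale.Agent.P280Z.Al.Tab2
import Vale.Agent.P280Z.Al.Eqs

/-!
# P280Z, block Al: the equations in the case `b₄ = 2`
-/

noncomputable section

namespace Vale.Agent.P280Z.Al

set_option linter.unusedSimpArgs false

/-- the classes `T (ps (T_X) k)` in the case `b₄ = 2` -/
structure P2 {R : Type} [CommRing R] [Algebra ℝ R] (A e t r U : R) (p : ℕ → R)
    (X2 Y2 X3 Y3 X4 Y4 X5 X6 : ℝ) : Prop where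
  u : U = (1 / 4 : ℝ) • (A ^ 2 - 4 * e)
  p2 : p 2 = (2 : ℝ) • (X2 • A + Y2 • t)
  p3 : p 3 = (3 : ℝ) • (X3 • Hn A e 2 + Y3 • r)
  p4 : p 4 = (4 : ℝ) • (X4 • Hn A e 3 + Y4 • (A * r - e * t))
  p5 : p 5 = (5 : ℝ) • (X5 • Hn A e 4)
  p6 : p 6 = (6 : ℝ) • (X6 • Hn A e 5)
  p7 : p 7 = 0
  p8 : p 8 = 0
  p9 : p 9 = 0

/-- the normal forms -/
structure N2 {R : Type} [CommRing R] [Algebra ℝ R] (A e t r f1 f2 f3 : R) (Q : ℕ → R)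
    (X2 Y2 X3 Y3 X4 Y4 X5 X6 : ℝ) : Prop where
  q1 :
    Q 1 = (X2 : ℝ) • Mn A e t r 1 0 0 0 + (Y2 : ℝ) • Mn A e t r 0 0 1 0
  q2 :
    Q 2 = (X3 - (11/12) : ℝ) • Mn A e t r 2 0 0 0 + (-X3 + (11/3) : ℝ) • Mn A e t r 0 1 0 0 + (Y3
    : ℝ) • Mn A e t r 0 0 0 1
  q3 :
    Q 3 = (-(1/4)*X2 + X4 : ℝ) • Mn A e t r 3 0 0 0 + (-(1/4)*Y2 : ℝ) • Mn A e t r 2 0 1 0 + (X2
    - 2*X4 : ℝ) • Mn A e t r 1 1 0 0 + (Y4 : ℝ) • Mn A e t r 1 0 0 1 + (Y2 - Y4 : ℝ) • Mn A e t r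
    0 1 1 0
  q4 :
    Q 4 = (-(1/2)*X3 + X5 + (1/48) : ℝ) • Mn A e t r 4 0 0 0 + ((5/2)*X3 - 3*X5 - (1/6) : ℝ) • Mn
    A e t r 2 1 0 0 + (-(1/2)*Y3 : ℝ) • Mn A e t r 2 0 0 1 + (-2*X3 + X5 + (1/3) : ℝ) • Mn A e t
    r 0 2 0 0 + (2*Y3 : ℝ) • Mn A e t r 0 1 0 1
  q5 :
    Q 5 = ((7/48)*X2 - (5/6)*X4 + X6 : ℝ) • Mn A e t r 5 0 0 0 + ((7/48)*Y2 : ℝ) • Mn A e t r 4 0
    1 0 + (-(7/6)*X2 + 5*X4 - 4*X6 : ℝ) • Mn A e t r 3 1 0 0 + (-(5/6)*Y4 : ℝ) • Mn A e t r 3 0 0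
    1 + (-(7/6)*Y2 + (5/6)*Y4 : ℝ) • Mn A e t r 2 1 1 0 + ((7/3)*X2 - (20/3)*X4 + 3*X6 : ℝ) • Mn
    A e t r 1 2 0 0 + ((10/3)*Y4 : ℝ) • Mn A e t r 1 1 0 1 + ((7/3)*Y2 - (10/3)*Y4 : ℝ) • Mn A e
    t r 0 2 1 0
  q6 :
    Q 6 = ((7/16)*X3 - (5/4)*X5 - (197/1344) : ℝ) • Mn A e t r 6 0 0 0 + (-(63/16)*X3 + (35/4)*X5
    + (197/112) : ℝ) • Mn A e t r 4 1 0 0 + ((7/16)*Y3 : ℝ) • Mn A e t r 4 0 0 1 + ((21/2)*X3 -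
    (65/4)*X5 - (197/28) : ℝ) • Mn A e t r 2 2 0 0 + (-(7/2)*Y3 : ℝ) • Mn A e t r 2 1 0 1 +
    (-7*X3 + 5*X5 + (197/21) : ℝ) • Mn A e t r 0 3 0 0 + (7*Y3 : ℝ) • Mn A e t r 0 2 0 1
  q7 :
    Q 7 = (-(31/192)*X2 + (49/48)*X4 - (7/4)*X6 : ℝ) • Mn A e t r 7 0 0 0 + (-(31/192)*Y2 : ℝ) •
    Mn A e t r 6 0 1 0 + ((31/16)*X2 - (245/24)*X4 + 14*X6 : ℝ) • Mn A e t r 5 1 0 0 +
    ((49/48)*Y4 : ℝ) • Mn A e t r 5 0 0 1 + ((31/16)*Y2 - (49/48)*Y4 : ℝ) • Mn A e t r 4 1 1 0 +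
    (-(31/4)*X2 + (98/3)*X4 - (133/4)*X6 : ℝ) • Mn A e t r 3 2 0 0 + (-(49/6)*Y4 : ℝ) • Mn A e t
    r 3 1 0 1 + (-(31/4)*Y2 + (49/6)*Y4 : ℝ) • Mn A e t r 2 2 1 0 + ((31/3)*X2 - (98/3)*X4 +
    21*X6 : ℝ) • Mn A e t r 1 3 0 0 + ((49/3)*Y4 : ℝ) • Mn A e t r 1 2 0 1 + ((31/3)*Y2 -
    (49/3)*Y4 : ℝ) • Mn A e t r 0 3 1 0
  q8 :
    Q 8 = (-(31/48)*X3 + (49/24)*X5 + (121/768) : ℝ) • Mn A e t r 8 0 0 0 + ((403/48)*X3 -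
    (539/24)*X5 - (121/48) : ℝ) • Mn A e t r 6 1 0 0 + (-(31/48)*Y3 : ℝ) • Mn A e t r 6 0 0 1 +
    (-(155/4)*X3 + (2009/24)*X5 + (121/8) : ℝ) • Mn A e t r 4 2 0 0 + ((31/4)*Y3 : ℝ) • Mn A e t
    r 4 1 0 1 + ((217/3)*X3 - (343/3)*X5 - (121/3) : ℝ) • Mn A e t r 2 3 0 0 + (-31*Y3 : ℝ) • Mn
    A e t r 2 2 0 1 + (-(124/3)*X3 + (98/3)*X5 + (121/3) : ℝ) • Mn A e t r 0 4 0 0 + ((124/3)*Y3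
    : ℝ) • Mn A e t r 0 3 0 1
  e1 :
    f1 = (X2 : ℝ) • Mn A e t r 1 0 0 0 + (Y2 : ℝ) • Mn A e t r 0 0 1 0
  e2 :
    f2 = ((1/2)*X2^2 - (1/2)*X3 + (11/24) : ℝ) • Mn A e t r 2 0 0 0 + (X2*Y2 : ℝ) • Mn A e t r 1
    0 1 0 + ((1/2)*X3 - (11/6) : ℝ) • Mn A e t r 0 1 0 0 + ((1/2)*Y2^2 : ℝ) • Mn A e t r 0 0 2 0
    + (-(1/2)*Y3 : ℝ) • Mn A e t r 0 0 0 1
  e3 :
    f3 = ((1/6)*X2^3 - (1/2)*X2*X3 + (3/8)*X2 + (1/3)*X4 : ℝ) • Mn A e t r 3 0 0 0 +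
    ((1/2)*X2^2*Y2 - (1/2)*Y2*X3 + (3/8)*Y2 : ℝ) • Mn A e t r 2 0 1 0 + ((1/2)*X2*X3 - (3/2)*X2 -
    (2/3)*X4 : ℝ) • Mn A e t r 1 1 0 0 + ((1/2)*X2*Y2^2 : ℝ) • Mn A e t r 1 0 2 0 + (-(1/2)*X2*Y3
    + (1/3)*Y4 : ℝ) • Mn A e t r 1 0 0 1 + ((1/2)*Y2*X3 - (3/2)*Y2 - (1/3)*Y4 : ℝ) • Mn A e t r 0
    1 1 0 + ((1/6)*Y2^3 : ℝ) • Mn A e t r 0 0 3 0 + (-(1/2)*Y2*Y3 : ℝ) • Mn A e t r 0 0 1 1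
  nk : ∀ k, Q (k + 4) = f1 * Q (k + 3) - f2 * Q (k + 2) + f3 * Q (k + 1)

variable {R : Type} [CommRing R] [Algebra ℝ R] {J : R →ₗ[ℝ] ℝ} {A e t r U f1 f2 f3 : R}
  {p Q : ℕ → R} {a y X2 Y2 X3 Y3 X4 Y4 X5 X6 : ℝ}

namespace Nf2

theorem q1 (h : Chn p Q U f1 f2 f3) (k : P2 A e t r U p X2 Y2 X3 Y3 X4 Y4 X5 X6) :
    Q 1 = (X2 : ℝ) • Mn A e t r 1 0 0 0 + (Y2 : ℝ) • Mn A e t r 0 0 1 0 := by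
  have h1 := h.t2
  rw [k.p2] at h1
  simp only [Mn, Hn] at h1 ⊢
  linear_combination (norm := algebra) (-1 / 2 : ℝ) • h1

theorem q2 (h : Chn p Q U f1 f2 f3) (k : P2 A e t r U p X2 Y2 X3 Y3 X4 Y4 X5 X6) :
    Q 2 = (X3 - (11/12) : ℝ) • Mn A e t r 2 0 0 0 + (-X3 + (11/3) : ℝ) • Mn A e t r 0 1 0 0 + (Y3
    : ℝ) • Mn A e t r 0 0 0 1 := by
  have h1 := h.t3
  rw [k.p3, k.u] at h1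
  simp only [Mn, Hn] at h1 ⊢
  linear_combination (norm := algebra) (-1 / 3 : ℝ) • h1

theorem q3 (h : Chn p Q U f1 f2 f3) (k : P2 A e t r U p X2 Y2 X3 Y3 X4 Y4 X5 X6) :
    Q 3 = (-(1/4)*X2 + X4 : ℝ) • Mn A e t r 3 0 0 0 + (-(1/4)*Y2 : ℝ) • Mn A e t r 2 0 1 0 + (X2
    - 2*X4 : ℝ) • Mn A e t r 1 1 0 0 + (Y4 : ℝ) • Mn A e t r 1 0 0 1 + (Y2 - Y4 : ℝ) • Mn A e t r
    0 1 1 0 := by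
  have h1 := h.t4
  rw [k.p4, q1 h k, k.u] at h1
  simp only [Mn, Hn] at h1 ⊢
  linear_combination (norm := algebra) (-1 / 4 : ℝ) • h1

theorem q4 (h : Chn p Q U f1 f2 f3) (k : P2 A e t r U p X2 Y2 X3 Y3 X4 Y4 X5 X6) :
    Q 4 = (-(1/2)*X3 + X5 + (1/48) : ℝ) • Mn A e t r 4 0 0 0 + ((5/2)*X3 - 3*X5 - (1/6) : ℝ) • Mn
    A e t r 2 1 0 0 + (-(1/2)*Y3 : ℝ) • Mn A e t r 2 0 0 1 + (-2*X3 + X5 + (1/3) : ℝ) • Mn A e t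
    r 0 2 0 0 + (2*Y3 : ℝ) • Mn A e t r 0 1 0 1 := by
  have h1 := h.t5
  rw [k.p5, q2 h k, k.u] at h1
  simp only [Mn, Hn] at h1 ⊢
  linear_combination (norm := algebra) (-1 / 5 : ℝ) • h1

theorem q5 (h : Chn p Q U f1 f2 f3) (k : P2 A e t r U p X2 Y2 X3 Y3 X4 Y4 X5 X6) :
    Q 5 = ((7/48)*X2 - (5/6)*X4 + X6 : ℝ) • Mn A e t r 5 0 0 0 + ((7/48)*Y2 : ℝ) • Mn A e t r 4 0
    1 0 + (-(7/6)*X2 + 5*X4 - 4*X6 : ℝ) • Mn A e t r 3 1 0 0 + (-(5/6)*Y4 : ℝ) • Mn A e t r 3 0 0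
    1 + (-(7/6)*Y2 + (5/6)*Y4 : ℝ) • Mn A e t r 2 1 1 0 + ((7/3)*X2 - (20/3)*X4 + 3*X6 : ℝ) • Mn
    A e t r 1 2 0 0 + ((10/3)*Y4 : ℝ) • Mn A e t r 1 1 0 1 + ((7/3)*Y2 - (10/3)*Y4 : ℝ) • Mn A e
    t r 0 2 1 0 := by
  have h1 := h.t6
  rw [k.p6, q1 h k, q3 h k, k.u] at h1
  simp only [Mn, Hn] at h1 ⊢
  linear_combination (norm := algebra) (-1 / 6 : ℝ) • h1

theorem q6 (h : Chn p Q U f1 f2 f3) (k : P2 A e t r U p X2 Y2 X3 Y3 X4 Y4 X5 X6) :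
    Q 6 = ((7/16)*X3 - (5/4)*X5 - (197/1344) : ℝ) • Mn A e t r 6 0 0 0 + (-(63/16)*X3 + (35/4)*X5
    + (197/112) : ℝ) • Mn A e t r 4 1 0 0 + ((7/16)*Y3 : ℝ) • Mn A e t r 4 0 0 1 + ((21/2)*X3 -
    (65/4)*X5 - (197/28) : ℝ) • Mn A e t r 2 2 0 0 + (-(7/2)*Y3 : ℝ) • Mn A e t r 2 1 0 1 +
    (-7*X3 + 5*X5 + (197/21) : ℝ) • Mn A e t r 0 3 0 0 + (7*Y3 : ℝ) • Mn A e t r 0 2 0 1 := by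
  have h1 := h.t7
  rw [k.p7, q2 h k, q4 h k, k.u] at h1
  simp only [Mn, Hn] at h1 ⊢
  linear_combination (norm := algebra) (-1 / 7 : ℝ) • h1

theorem q7 (h : Chn p Q U f1 f2 f3) (k : P2 A e t r U p X2 Y2 X3 Y3 X4 Y4 X5 X6) :
    Q 7 = (-(31/192)*X2 + (49/48)*X4 - (7/4)*X6 : ℝ) • Mn A e t r 7 0 0 0 + (-(31/192)*Y2 : ℝ) •
    Mn A e t r 6 0 1 0 + ((31/16)*X2 - (245/24)*X4 + 14*X6 : ℝ) • Mn A e t r 5 1 0 0 +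
    ((49/48)*Y4 : ℝ) • Mn A e t r 5 0 0 1 + ((31/16)*Y2 - (49/48)*Y4 : ℝ) • Mn A e t r 4 1 1 0 +
    (-(31/4)*X2 + (98/3)*X4 - (133/4)*X6 : ℝ) • Mn A e t r 3 2 0 0 + (-(49/6)*Y4 : ℝ) • Mn A e t
    r 3 1 0 1 + (-(31/4)*Y2 + (49/6)*Y4 : ℝ) • Mn A e t r 2 2 1 0 + ((31/3)*X2 - (98/3)*X4 +
    21*X6 : ℝ) • Mn A e t r 1 3 0 0 + ((49/3)*Y4 : ℝ) • Mn A e t r 1 2 0 1 + ((31/3)*Y2 -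
    (49/3)*Y4 : ℝ) • Mn A e t r 0 3 1 0 := by
  have h1 := h.t8
  rw [k.p8, q1 h k, q3 h k, q5 h k, k.u] at h1
  simp only [Mn, Hn] at h1 ⊢
  linear_combination (norm := algebra) (-1 / 8 : ℝ) • h1

theorem q8 (h : Chn p Q U f1 f2 f3) (k : P2 A e t r U p X2 Y2 X3 Y3 X4 Y4 X5 X6) :
    Q 8 = (-(31/48)*X3 + (49/24)*X5 + (121/768) : ℝ) • Mn A e t r 8 0 0 0 + ((403/48)*X3 -
    (539/24)*X5 - (121/48) : ℝ) • Mn A e t r 6 1 0 0 + (-(31/48)*Y3 : ℝ) • Mn A e t r 6 0 0 1 +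
    (-(155/4)*X3 + (2009/24)*X5 + (121/8) : ℝ) • Mn A e t r 4 2 0 0 + ((31/4)*Y3 : ℝ) • Mn A e t
    r 4 1 0 1 + ((217/3)*X3 - (343/3)*X5 - (121/3) : ℝ) • Mn A e t r 2 3 0 0 + (-31*Y3 : ℝ) • Mn
    A e t r 2 2 0 1 + (-(124/3)*X3 + (98/3)*X5 + (121/3) : ℝ) • Mn A e t r 0 4 0 0 + ((124/3)*Y3
    : ℝ) • Mn A e t r 0 3 0 1 := by
  have h1 := h.t9
  rw [k.p9, q2 h k, q4 h k, q6 h k, k.u] at h1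
  simp only [Mn, Hn] at h1 ⊢
  linear_combination (norm := algebra) (-1 / 9 : ℝ) • h1

theorem e1 (h : Chn p Q U f1 f2 f3) (k : P2 A e t r U p X2 Y2 X3 Y3 X4 Y4 X5 X6) :
    f1 = (X2 : ℝ) • Mn A e t r 1 0 0 0 + (Y2 : ℝ) • Mn A e t r 0 0 1 0 :=
  h.n1.symm.trans (q1 h k)

theorem e2 (h : Chn p Q U f1 f2 f3) (k : P2 A e t r U p X2 Y2 X3 Y3 X4 Y4 X5 X6) :
    f2 = ((1/2)*X2^2 - (1/2)*X3 + (11/24) : ℝ) • Mn A e t r 2 0 0 0 + (X2*Y2 : ℝ) • Mn A e t r 1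
    0 1 0 + ((1/2)*X3 - (11/6) : ℝ) • Mn A e t r 0 1 0 0 + ((1/2)*Y2^2 : ℝ) • Mn A e t r 0 0 2 0
    + (-(1/2)*Y3 : ℝ) • Mn A e t r 0 0 0 1 := by
  have h1 := h.n2
  rw [q1 h k, q2 h k, e1 h k] at h1
  simp only [Mn] at h1 ⊢
  linear_combination (norm := algebra) (1 / 2 : ℝ) • h1

theorem e3 (h : Chn p Q U f1 f2 f3) (k : P2 A e t r U p X2 Y2 X3 Y3 X4 Y4 X5 X6) :
    f3 = ((1/6)*X2^3 - (1/2)*X2*X3 + (3/8)*X2 + (1/3)*X4 : ℝ) • Mn A e t r 3 0 0 0 +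
    ((1/2)*X2^2*Y2 - (1/2)*Y2*X3 + (3/8)*Y2 : ℝ) • Mn A e t r 2 0 1 0 + ((1/2)*X2*X3 - (3/2)*X2 -
    (2/3)*X4 : ℝ) • Mn A e t r 1 1 0 0 + ((1/2)*X2*Y2^2 : ℝ) • Mn A e t r 1 0 2 0 + (-(1/2)*X2*Y3
    + (1/3)*Y4 : ℝ) • Mn A e t r 1 0 0 1 + ((1/2)*Y2*X3 - (3/2)*Y2 - (1/3)*Y4 : ℝ) • Mn A e t r 0
    1 1 0 + ((1/6)*Y2^3 : ℝ) • Mn A e t r 0 0 3 0 + (-(1/2)*Y2*Y3 : ℝ) • Mn A e t r 0 0 1 1 := by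
  have h1 := h.n3
  rw [q1 h k, q2 h k, q3 h k, e1 h k, e2 h k] at h1
  simp only [Mn] at h1 ⊢
  linear_combination (norm := algebra) (-1 / 3 : ℝ) • h1

end Nf2

open Nf2 in
/-- the normal forms -/
theorem nf2 (h : Chn p Q U f1 f2 f3) (k : P2 A e t r U p X2 Y2 X3 Y3 X4 Y4 X5 X6) :
    N2 A e t r f1 f2 f3 Q X2 Y2 X3 Y3 X4 Y4 X5 X6 :=
  ⟨q1 h k, q2 h k, q3 h k, q4 h k, q5 h k, q6 h k, q7 h k, q8 h k, e1 h k, e2 h k, e3 h k, h.nk⟩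

end Vale.Agent.P280Z.Al
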