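import Vale.Agent.P280Z.Al.Asm
import Vale.Agent.P280Z.Al.Eq3p
import Vale.Agent.P280Z.Hr.Tdx

/-!
# P280Z, block Al: the choice of the solution and the numbers
-/

noncomputable section

namespace Vale.Agent.P280Z.Al

open Vale.Agent.P280Z.Hr (tdx)

variable {A B : Type} [CommRing A] [Algebra ℝ A] [CommRing B] [Algebra ℝ B] {S : NS A B}
  {D a y : ℝ} {ω : A}

/-- `∫ exp (k η) td (X)` -/
def rrX (S : NS A B) (k : ℝ) : ℝ :=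
  S.GX.int (tdx (k • S.η + (1 / 2 : ℝ) • S.pX 1) (-(1 / 24 : ℝ) • S.pX 2) ((1 / 2880 : ℝ) • S.pX 4)
    (-(1 / 181440 : ℝ) • S.pX 6) ((1 / 9676800 : ℝ) • S.pX 8) 6)

/-- the output of the algebra -/
structure Out (S : NS A B) (D : ℝ) : Prop where
  pos : 0 < D
  vol : S.GX.int (S.η ^ 6) = 5
  s5 : S.Sg (S.η ^ 5) = (5 / 3 * D) • S.η
  c1 : S.pE 1 = (2 : ℝ) • (-S.τ) + S.hh + (3 / (5 * D)) • S.T (S.es (S.Sg (S.η ^ 6)))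
  td : ∀ b c e, S.el (tdx ((0 : B) + (1 / 2 : ℝ) • S.pE 1) (-(1 / 24 : ℝ) • S.pE 2) b c e 3) =
    algebraMap ℝ A (D / 3)

namespace OutH

theorem rr (hO : S.OK 6 3) (h : S.C2 D a y ω) {X2 Y2 X4 Y4 X6 : ℝ}
    (e2 : S.pX 2 = (2 : ℝ) • (X2 • S.η ^ 2 + Y2 • ω))
    (e4 : S.pX 4 = (4 : ℝ) • (X4 • S.η ^ 4 + Y4 • (S.η ^ 2 * ω)))
    (e6 : S.pX 6 = (6 : ℝ) • (X6 • S.η ^ 6)) (k : ℝ) : rrX S k = S.GX.int (S.η ^ 6) *
      ((k + 5 / 2) ^ 6 / 720 - (k + 5 / 2) ^ 4 * X2 / 288 +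
        (k + 5 / 2) ^ 2 * ((X2 ^ 2 + Y2 ^ 2 * y) / 576 + X4 / 1440) -
        (X2 ^ 3 + 3 * X2 * Y2 ^ 2 * y - Y2 ^ 3 * (a + 2) * y) / 10368 -
        (X2 * X4 + Y2 * Y4 * y) / 8640 - X6 / 30240) := by
  have i22 := Asm.i22 h
  have i41 : S.η ^ 4 * ω = 0 := by linear_combination S.η * h.prim
  have i03 : ω ^ 3 = (-(a + 2) * y) • S.η ^ 6 := by
    linear_combination (norm := algebra) ω * h.sq + y • i41 - (a + 2) • i22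
  rw [rrX, mul_comm, ← smul_eq_mul, ← map_smul, hO.c1, e2, e4, e6]
  refine congrArg S.GX.int ?_
  simp only [tdx]
  linear_combination (norm := (push_cast; algebra))
    ((k + 5 / 2) ^ 2 * Y2 ^ 2 / 576 - X2 * Y2 ^ 2 / 3456 - Y2 * Y4 / 8640) • i22 -
    (Y2 ^ 3 / 10368) • i03 + (-(k + 5 / 2) ^ 4 * Y2 / 288 +
      (k + 5 / 2) ^ 2 * (X2 * Y2 / 288 + Y4 / 1440) - X2 ^ 2 * Y2 / 3456 -
      (X2 * Y4 + Y2 * X4) / 8640) • i41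

theorem Q1 (hO : S.OK 6 3) : S.pE 1 = S.Q 1 - (3 / 2 : ℝ) • S.τ := by
  simp only [NS.Q, Finset.sum_range_succ, Finset.sum_range_zero, hO.E0, Nat.choose]
  push_cast
  algebra

theorem Q2 (hO : S.OK 6 3) : S.pE 2 = S.Q 2 - S.τ * S.pE 1 - (3 / 4 : ℝ) • S.τ ^ 2 := by
  simp only [NS.Q, Finset.sum_range_succ, Finset.sum_range_zero, hO.E0, Nat.choose]
  push_cast
  algebra

theorem fin (hO : S.OK 6 3) (hL : S.Lei) (hE : S.Elr) (hN : S.Num D (5 / 3))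
    (h : S.C2 D (5 / 3) (1 / 9) ω) (hv : S.GX.int (S.η ^ 6) = 5)
    (q1 : S.Q 1 = (11 / 10 : ℝ) • S.aa + (3 / 5 : ℝ) • S.T (S.es ω))
    (q2 : S.Q 2 = (-1 / 3 : ℝ) • (S.aa ^ 2 - S.ee) + (3 : ℝ) • S.T (S.hh * S.es ω) -
      (11 / 12 : ℝ) • (S.aa ^ 2 - 4 * S.ee)) : Out S D := by
  have hτ : S.τ = 2 * S.hh - S.aa := by
    rw [NS.aa, NS.hc]
    ring
  have hc : S.hc = S.aa - S.hh := by
    rw [NS.aa]
    ring
  refine ⟨hN.pos, hv, hN.s5, ?_, fun b c e => ?_⟩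
  · rw [h.s6, map_smul, map_smul, smul_smul, show 3 / (5 * D) * D = 3 / 5 by
      field_simp [hN.pos.ne'], map_add, map_add, Asm.Tp hL 1, Hn, Q1 hO, q1, hτ]
    algebra
  set x := tdx ((0 : B) + (1 / 2 : ℝ) • S.pE 1) (-(1 / 24 : ℝ) • S.pE 2) b c e 3 with hx
  have d1 : S.GU.Dg 1 ((0 : B) + (1 / 2 : ℝ) • S.pE 1) := by
    rw [zero_add]
    exact X4a.dg_smul _ (hO.dE 1)
  have dx : S.GU.Dg (0 + 3) x := X4a.dg_add (X4a.dg_smul _ (X4a.dg_pow hO.gu d1 3))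
    (hO.gu.dg_mul 1 2 _ _ d1 (X4a.dg_smul _ (hO.dE 2)))
  obtain ⟨z, hz⟩ := hO.h0 _ (hE.dl 0 x dx)
  have v := tab2 (Asm.r2 hO hL hE hN h)
  set t := S.T (S.es ω) with ht
  have k7 : S.hh ^ 7 = 0 := by rw [← Asm.es_pow, Asm.h7 hO hE, map_zero]
  have k3 : S.hh ^ 3 * S.es ω = 0 := by rw [← Asm.es_pow, ← map_mul, h.prim, map_zero]
  have kt : S.T t = 0 := hL.TT _
  have e : x * S.hh ^ 6 = (1001 / 3000 : ℝ) • (S.aa * (S.aa * (S.aa * S.hh ^ 6))) +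
      (51 / 1000 : ℝ) • (S.aa * (S.aa * (t * S.hh ^ 6))) +
      (27 / 2000 : ℝ) • (S.aa * (t * (t * S.hh ^ 6))) + (9 / 2000 : ℝ) • (t * (t * (t * S.hh ^ 6))) := by
    rw [hx, tdx, Q2 hO, Q1 hO, q1, q2, Asm.Th hO hL, NS.ee, hτ, hc, ← ht]
    linear_combination (norm := algebra) ((-5 / 8 : ℝ) • S.hh ^ 2 + (173 / 120 : ℝ) • (S.hh * S.aa) +
      (7 / 80 : ℝ) • (S.hh * t) + (-233 / 200 : ℝ) • S.aa ^ 2 + (-47 / 400 : ℝ) • (S.aa * t) +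
      (-3 / 200 : ℝ) • t ^ 2) * k7 + S.hh ^ 3 * ((3 / 16 : ℝ) • S.hh + (-13 / 80 : ℝ) • S.aa +
      (-3 / 80 : ℝ) • t) * k3
  have e1 := Asm.J_T (D := D) hL (x * S.hh ^ 6)
  rw [← hO.el_int, ← Asm.es_pow, hO.proj, hz, ← Algebra.smul_def, map_smul, Asm.es_pow, e] at e1
  simp only [map_add, map_smul, hL.ker _ _ hL.aa, hL.ker _ _ kt, hL.pow 5] at e1
  have m : ∀ i k, Jn S D (S.aa ^ i * t ^ k * S.H 5) =
      Jn S D (Mn S.aa S.ee t (S.T (S.hh * S.es ω)) (i + 5) 0 k 0) -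
      4 * Jn S D (Mn S.aa S.ee t (S.T (S.hh * S.es ω)) (i + 3) 1 k 0) +
      3 * Jn S D (Mn S.aa S.ee t (S.T (S.hh * S.es ω)) (i + 1) 2 k 0) := fun i k => by
    rw [← smul_eq_mul (4 : ℝ), ← smul_eq_mul (3 : ℝ), ← map_smul, ← map_smul, ← map_sub, ← map_add]
    refine congrArg (Jn S D) ?_
    simp only [Mn, NS.H, Hn]
    algebra
  have m3 := m 3 0
  have m2 := m 2 1
  have m1 := m 1 2
  have m0 := m 0 3
  simp only [Nat.reduceAdd, v.v8000, v.v6100, v.v4200, v.v7010, v.v5110, v.v3210, v.v6020, v.v4120,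
    v.v2220, v.v5030, v.v3130, v.v1230] at m3 m2 m1 m0
  rw [show S.aa * (S.aa * (S.aa * S.H 5)) = S.aa ^ 3 * t ^ 0 * S.H 5 by ring,
    show S.aa * (S.aa * (t * S.H 5)) = S.aa ^ 2 * t ^ 1 * S.H 5 by ring,
    show S.aa * (t * (t * S.H 5)) = S.aa ^ 1 * t ^ 2 * S.H 5 by ring,
    show t * (t * (t * S.H 5)) = S.aa ^ 0 * t ^ 3 * S.H 5 by ring, m3, m2, m1, m0, hv] at e1
  rw [hz]
  refine congrArg _ ?_
  have hD := hN.pos.ne'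
  simp only [smul_eq_mul] at e1
  field_simp at e1
  linarith

end OutH

open OutH in
/-- **the algebra** -/
theorem out_of (c1 : CERT1) (c2 : CERT3) (hO : S.OK 6 3)
    (h5 : 0 ≤ S.GX.int (S.η ^ 5 * S.Sg (S.η ^ 5))) (r0 : rrX S 0 = 1)
    (r5 : ∃ n : ℕ, rrX S 5 = n) : ∃ D, Out S D := by
  have hL := lei S 6 3 hO.toOK0
  obtain ⟨hE, hN⟩ := elr S hO hL
  obtain ⟨D, a, hN⟩ := hN h5
  obtain h | ⟨y, ω, h⟩ := x4 S D a hO hL hE hN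
  · obtain ⟨d, X2, X3, X4, X5, X6, h⟩ := Asm.c1 hO hL hE hN h
    exact (c1 _ _ _ _ _ _ _ hN.nn h).elim
  obtain ⟨f1, f2, f3, hC⟩ := chn S hO.toOK0 hL
  obtain ⟨X2, Y2, X3, Y3, X4, Y4, X5, X6, e2, e4, e6, hP⟩ := Asm.p2 hO hL hE h
  obtain ⟨rfl, rfl, rfl, rfl, -, hs⟩ := c2 _ _ _ _ _ _ _ _ _ _ hN.nn h.pos
    (eq2 (Asm.r2 hO hL hE hN h) h.pos.ne' hC hP) (eq3 (Asm.r2 hO hL hE hN h) h.pos.ne' hC hP)
  obtain ⟨n, r5⟩ := r5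
  rw [rr hO h e2 e4 e6] at r0 r5
  have no : ∀ p q : ℕ, (q : ℝ) * n = p → ¬ q ∣ p → False := fun p q e k =>
    k ⟨n, by exact_mod_cast e.symm⟩
  obtain ⟨rfl, rfl, rfl, rfl, rfl⟩ | ⟨rfl, rfl, rfl, rfl, rfl⟩ | ⟨rfl, rfl, rfl, rfl, rfl⟩ |
    ⟨rfl, rfl, rfl, rfl, rfl⟩ := hs
  · have n2 := nf2 hC hP
    refine ⟨D, fin hO hL hE hN h (by linarith) ?_ ?_⟩
    · rw [n2.q1]
      simp only [Mn]
      algebra
    · rw [n2.q2]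
      simp only [Mn]
      algebra
  · exact (no 1120733 2183 (by push_cast; linarith) (by norm_num)).elim
  · exact (no 34821 41 (by push_cast; linarith) (by norm_num)).elim
  · exact (no 436867 727 (by push_cast; linarith) (by norm_num)).elim

end Vale.Agent.P280Z.Al
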