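import Vale.Agent.P280Z.Al.Asm
import Vale.Agent.P280Z.Al.HzD

/-!
# P280Z, block Al: the inequality on the intersection of two cones
-/

noncomputable section

namespace Vale.Agent.P280Z.Al

variable {A B : Type} [CommRing A] [Algebra ℝ A] [CommRing B] [Algebra ℝ B] {S : NS A B}
  {D a y : ℝ} {ω : A}

namespace Out2a

theorem vals {R : Type} [CommRing R] [Algebra ℝ R] {J : R →ₗ[ℝ] ℝ} {A e t r : R}
    (g : R2 J A e t r a y) : J ((t + A) * Hn A e 5 * Hn A e 2) = 1 + y ∧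
      J ((t + A) * Hn A e 5 * r) = -(a * y) ∧
      J ((t + A) * (t + A) * Hn A e 5 * (t + A)) = 1 - 2 * y - 4 * a * y - 3 * y ^ 2 := by
  have v := tab2 g
  have m : ∀ i j k l, J (Mn A e t r i j k l * Hn A e 5) = J (Mn A e t r (i + 5) j k l) -
      4 * J (Mn A e t r (i + 3) (j + 1) k l) + 3 * J (Mn A e t r (i + 1) (j + 2) k l) :=
    fun i j k l => by
      rw [← smul_eq_mul (4 : ℝ), ← smul_eq_mul (3 : ℝ), ← map_smul, ← map_smul, ← map_sub, ← map_add]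
      refine congrArg J ?_
      simp only [Mn, Hn]
      algebra
  refine ⟨?_, ?_, ?_⟩
  · rw [show (t + A) * Hn A e 5 * Hn A e 2 = Mn A e t r 3 0 0 0 * Hn A e 5 +
      Mn A e t r 2 0 1 0 * Hn A e 5 - Mn A e t r 1 1 0 0 * Hn A e 5 -
      Mn A e t r 0 1 1 0 * Hn A e 5 by simp only [Mn, Hn]; ring]
    simp only [map_add, map_sub, m, Nat.reduceAdd, v.v8000, v.v6100, v.v4200, v.v7010, v.v5110,
      v.v3210, v.v2300, v.v1310]
    ring
  · rw [show (t + A) * Hn A e 5 * r = Mn A e t r 1 0 0 1 * Hn A e 5 +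
      Mn A e t r 0 0 1 1 * Hn A e 5 by simp only [Mn]; ring]
    simp only [map_add, m, Nat.reduceAdd, v.v6001, v.v4101, v.v2201, v.v5011, v.v3111, v.v1211]
    ring
  · rw [show (t + A) * (t + A) * Hn A e 5 * (t + A) = Mn A e t r 3 0 0 0 * Hn A e 5 +
      (3 : ℝ) • (Mn A e t r 2 0 1 0 * Hn A e 5) + (3 : ℝ) • (Mn A e t r 1 0 2 0 * Hn A e 5) +
      Mn A e t r 0 0 3 0 * Hn A e 5 by simp only [Mn]; algebra]
    simp only [map_add, map_smul, smul_eq_mul, m, Nat.reduceAdd, v.v8000, v.v6100, v.v4200, v.v7010,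
      v.v5110, v.v3210, v.v6020, v.v4120, v.v2220, v.v5030, v.v3130, v.v1230]
    ring

theorem pj (hO : S.OK 6 3) (hL : S.Lei) (hN : S.Num D a) {γ : B} (hγ : S.T γ = 0) (β : A) :
    S.GX.int (S.πc γ * β) = D * S.GX.int (S.η ^ 6) *
      Jn S D (γ * Hn S.aa S.ee 5 * S.T (S.es β)) := by
  have e : γ * Hn S.aa S.ee 5 * S.T (S.es β) = S.T (γ * S.T (S.hh ^ 6) * S.es β) := by
    rw [mul_assoc, mul_assoc, hL.ker _ _ hγ, hL.ker _ _ (hL.TT _), hL.pow 5]
    rfl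
  rw [e, Asm.J_T hL, NS.πc, ← hO.proj, hO.el_int,
    mul_inv_cancel_left₀ (mul_pos hN.pos hO.vol).ne']

theorem bb (hL : S.Lei) (h : S.C2 D a y ω) :
    S.T (S.es (S.Sg (S.η ^ 6))) = D • (S.T (S.es ω) + S.aa) := by
  rw [h.s6, map_smul, map_smul, map_add, map_add, Asm.Tp hL 1, Hn]

end Out2a

open Out2a in
/-- the first inequality -/
theorem i1 (hO : S.OK 6 3) (hL : S.Lei) (hE : S.Elr) (hN : S.Num D a) (h : S.C2 D a y ω)
    (hz : S.HZ (S.T (S.es (S.Sg (S.η ^ 6))))) : a ^ 2 * (1 - y) ≤ 2 * (1 + y) ^ 2 := by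
  obtain ⟨v1, v2, v3⟩ := vals (Asm.r2 hO hL hE hN h)
  have i22 := Asm.i22 h
  have i41 : S.η ^ 4 * ω = 0 := by linear_combination S.η * h.prim
  have p1 : S.πc 1 = D • (ω + S.η ^ 2) := by rw [← h.s6, NS.πc, one_mul, NS.Sg, Asm.es_pow]
  have sc : ∀ (c : ℝ) x, S.πc (c • x) = c • S.πc x := fun c x => by
    rw [NS.πc, smul_mul_assoc, map_smul, NS.πc]
  set b := S.T (S.es ω) + S.aa with hb
  have tb : S.T b = 0 := by rw [hb, map_add, hL.TT, hL.aa, add_zero]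
  have db : S.GU.Dg 1 b := X4a.dg_add (hL.dT 1 _ (hL.de 2 _ h.dg))
    (X4a.dg_add (X4a.dh hO hL) (X4a.dk hO hL))
  obtain ⟨x, z, e⟩ := h.d3 (S.πc b) (hE.dl 3 _ (hO.gu.dg_mul 1 5 _ _ db
    (hL.dT 5 _ (X4a.dg_pow hO.gu (X4a.dh hO hL) 6))))
  have k1 := pj hO hL hN tb (S.η ^ 3)
  have k2 := pj hO hL hN tb (S.η * ω)
  have k3 := pj hO hL hN (γ := b * b) (by rw [hL.ker _ _ tb, tb, mul_zero]) (ω + S.η ^ 2)
  rw [Asm.Tp hL 2, v1, e, show (x • S.η ^ 3 + z • (S.η * ω)) * S.η ^ 3 = x • S.η ^ 6 by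
    linear_combination (norm := algebra) z • i41, map_smul] at k1
  rw [map_mul S.es, show S.es S.η = S.hh from rfl, v2, e,
    show (x • S.η ^ 3 + z • (S.η * ω)) * (S.η * ω) = (z * y) • S.η ^ 6 by
    linear_combination (norm := algebra) x • i41 + z • i22, map_smul] at k2
  rw [map_add S.es, map_add S.T, Asm.Tp hL 1, Hn, v3] at k3
  have hv := hO.vol
  have hD := hN.pos
  have hy := h.pos
  obtain rfl : x = D * (1 + y) := mul_right_cancel₀ hv.ne' (k1.trans (by ring))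
  obtain rfl : z = -(D * a) := mul_right_cancel₀ (mul_pos hy hv).ne' (by
    rw [← mul_assoc]; exact k2.trans (by ring))
  rw [bb hL h, NS.HZ, smul_mul_smul_comm, sc, sc, e, p1, smul_mul_smul_comm (D * D), map_smul, k3,
    show D • (ω + S.η ^ 2) * D • (ω + S.η ^ 2) * S.η ^ 2 = (D ^ 2 * (1 + y)) • S.η ^ 6 by
      linear_combination (norm := algebra) (D ^ 2) • i22 + (2 * D ^ 2) • i41,
    show D • ((D * (1 + y)) • S.η ^ 3 + -(D * a) • (S.η * ω)) *
      D • ((D * (1 + y)) • S.η ^ 3 + -(D * a) • (S.η * ω)) =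
        (D ^ 4 * ((1 + y) ^ 2 + a ^ 2 * y)) • S.η ^ 6 by
      linear_combination (norm := algebra) (D ^ 4 * a ^ 2) • i22 - (2 * D ^ 4 * a * (1 + y)) • i41,
    show D • ((D * (1 + y)) • S.η ^ 3 + -(D * a) • (S.η * ω)) * D • (ω + S.η ^ 2) * S.η =
        (D ^ 3 * (1 + y - a * y)) • S.η ^ 6 by
      linear_combination (norm := algebra) (D ^ 3 * (1 + y - a)) • i41 - (D ^ 3 * a) • i22,
    map_smul, map_smul, map_smul] at hz
  generalize S.GX.int (S.η ^ 6) = v at hz hv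
  simp only [smul_eq_mul] at hz
  have k := hz (by positivity)
  have c : 0 < D ^ 6 * v ^ 2 * y := by positivity
  refine le_of_mul_le_mul_left ?_ c
  linarith

end Vale.Agent.P280Z.Al
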