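import Vale.Agent.P280Z.Al.Defs
import Mathlib.Tactic.Algebra.Basic

/-!
# P280Z, block Al: the table of the numbers in the case `b₄ = 2`
-/

noncomputable section

namespace Vale.Agent.P280Z.Al

/-- monomials -/
def Mn {R : Type} [CommRing R] (A e t r : R) (i j k l : ℕ) : R := A ^ i * e ^ j * t ^ k * r ^ l

theorem Mn_mul {R : Type} [CommRing R] (A e t r : R) (i j k l i' j' k' l' : ℕ) :
    Mn A e t r i j k l * Mn A e t r i' j' k' l' = Mn A e t r (i + i') (j + j') (k + k') (l + l') := by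
  simp only [Mn, pow_add]
  ring

/-- the relations in the ring of the space of curves -/
structure R2 {R : Type} [CommRing R] [Algebra ℝ R] (J : R →ₗ[ℝ] ℝ) (A e t r : R) (a y : ℝ) :
    Prop where
  g1 : 2 * t * r - A * t ^ 2 = y • Hn A e 3 - (a + 2) • (A * r - e * t)
  g2 : r ^ 2 - e * t ^ 2 = y • Hn A e 4
  g3 : A * (A * r - e * t) - e * r = 0
  g4 : e * (A * r - e * t) = 0
  g5 : Hn A e 6 = 0
  g6 : e * Hn A e 5 = 0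
  n1 : J (Hn A e 3 * Hn A e 5) = 1
  n2 : J (Hn A e 4 * Hn A e 4) = a
  n3 : J ((A * r - e * t) * Hn A e 5) = y

/-- the linear relations -/
structure L2 (j : ℕ → ℕ → ℕ → ℕ → ℝ) (a y : ℝ) : Prop where
  n3 :
    (1) * j 6 0 0 1 + (-1) * j 5 1 1 0 + (-4) * j 4 1 0 1 + (4) * j 3 2 1 0 + (3) * j 2 2 0 1 +
    (-3) * j 1 3 1 0 = y
  n2 :
    (1) * j 8 0 0 0 + (-6) * j 6 1 0 0 + (11) * j 4 2 0 0 + (-6) * j 2 3 0 0 + (1) * j 0 4 0 0 =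
    a
  n1 :
    (1) * j 8 0 0 0 + (-6) * j 6 1 0 0 + (11) * j 4 2 0 0 + (-6) * j 2 3 0 0 = 1
  r1_2030 :
    (-y) * j 5 0 3 0 + (2*y) * j 3 1 3 0 + (-1) * j 3 0 5 0 + (a + 2) * j 3 0 3 1 + (-a - 2) * j
    2 1 4 0 + (2) * j 2 0 4 1 = 0
  r1_3020 :
    (-y) * j 6 0 2 0 + (2*y) * j 4 1 2 0 + (-1) * j 4 0 4 0 + (a + 2) * j 4 0 2 1 + (-a - 2) * j
    3 1 3 0 + (2) * j 3 0 3 1 = 0
  r1_4010 :
    (-y) * j 7 0 1 0 + (2*y) * j 5 1 1 0 + (-1) * j 5 0 3 0 + (a + 2) * j 5 0 1 1 + (-a - 2) * j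
    4 1 2 0 + (2) * j 4 0 2 1 = 0
  r1_5000 :
    (-y) * j 8 0 0 0 + (2*y) * j 6 1 0 0 + (-1) * j 6 0 2 0 + (a + 2) * j 6 0 0 1 + (-a - 2) * j
    5 1 1 0 + (2) * j 5 0 1 1 = 0
  r1_1021 :
    (-y) * j 4 0 2 1 + (2*y) * j 2 1 2 1 + (-1) * j 2 0 4 1 + (a + 2) * j 2 0 2 2 + (-a - 2) * j
    1 1 3 1 + (2) * j 1 0 3 2 = 0
  r1_2011 :
    (-y) * j 5 0 1 1 + (2*y) * j 3 1 1 1 + (-1) * j 3 0 3 1 + (a + 2) * j 3 0 1 2 + (-a - 2) * j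
    2 1 2 1 + (2) * j 2 0 2 2 = 0
  r1_3001 :
    (-y) * j 6 0 0 1 + (2*y) * j 4 1 0 1 + (-1) * j 4 0 2 1 + (a + 2) * j 4 0 0 2 + (-a - 2) * j
    3 1 1 1 + (2) * j 3 0 1 2 = 0
  r1_0012 :
    (-y) * j 3 0 1 2 + (2*y) * j 1 1 1 2 + (-1) * j 1 0 3 2 + (a + 2) * j 1 0 1 3 + (-a - 2) * j
    0 1 2 2 + (2) * j 0 0 2 3 = 0
  r1_1002 :
    (-y) * j 4 0 0 2 + (2*y) * j 2 1 0 2 + (-1) * j 2 0 2 2 + (a + 2) * j 2 0 0 3 + (-a - 2) * j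
    1 1 1 2 + (2) * j 1 0 1 3 = 0
  r1_0130 :
    (-y) * j 3 1 3 0 + (2*y) * j 1 2 3 0 + (-1) * j 1 1 5 0 + (a + 2) * j 1 1 3 1 + (-a - 2) * j
    0 2 4 0 + (2) * j 0 1 4 1 = 0
  r1_1120 :
    (-y) * j 4 1 2 0 + (2*y) * j 2 2 2 0 + (-1) * j 2 1 4 0 + (a + 2) * j 2 1 2 1 + (-a - 2) * j
    1 2 3 0 + (2) * j 1 1 3 1 = 0
  r1_2110 :
    (-y) * j 5 1 1 0 + (2*y) * j 3 2 1 0 + (-1) * j 3 1 3 0 + (a + 2) * j 3 1 1 1 + (-a - 2) * j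
    2 2 2 0 + (2) * j 2 1 2 1 = 0
  r1_3100 :
    (-y) * j 6 1 0 0 + (2*y) * j 4 2 0 0 + (-1) * j 4 1 2 0 + (a + 2) * j 4 1 0 1 + (-a - 2) * j
    3 2 1 0 + (2) * j 3 1 1 1 = 0
  r1_0111 :
    (-y) * j 3 1 1 1 + (2*y) * j 1 2 1 1 + (-1) * j 1 1 3 1 + (a + 2) * j 1 1 1 2 + (-a - 2) * j
    0 2 2 1 + (2) * j 0 1 2 2 = 0
  r1_1101 :
    (-y) * j 4 1 0 1 + (2*y) * j 2 2 0 1 + (-1) * j 2 1 2 1 + (a + 2) * j 2 1 0 2 + (-a - 2) * j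
    1 2 1 1 + (2) * j 1 1 1 2 = 0
  r1_0210 :
    (-y) * j 3 2 1 0 + (2*y) * j 1 3 1 0 + (-1) * j 1 2 3 0 + (a + 2) * j 1 2 1 1 + (-a - 2) * j
    0 3 2 0 + (2) * j 0 2 2 1 = 0
  r1_1200 :
    (-y) * j 4 2 0 0 + (2*y) * j 2 3 0 0 + (-1) * j 2 2 2 0 + (a + 2) * j 2 2 0 1 + (-a - 2) * j
    1 3 1 0 + (2) * j 1 2 1 1 = 0
  r2_1030 :
    (-y) * j 5 0 3 0 + (3*y) * j 3 1 3 0 + (-y) * j 1 2 3 0 + (-1) * j 1 1 5 0 + (1) * j 1 0 3 2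
    = 0
  r2_2020 :
    (-y) * j 6 0 2 0 + (3*y) * j 4 1 2 0 + (-y) * j 2 2 2 0 + (-1) * j 2 1 4 0 + (1) * j 2 0 2 2
    = 0
  r2_3010 :
    (-y) * j 7 0 1 0 + (3*y) * j 5 1 1 0 + (-y) * j 3 2 1 0 + (-1) * j 3 1 3 0 + (1) * j 3 0 1 2
    = 0
  r2_4000 :
    (-y) * j 8 0 0 0 + (3*y) * j 6 1 0 0 + (-y) * j 4 2 0 0 + (-1) * j 4 1 2 0 + (1) * j 4 0 0 2
    = 0
  r2_2001 :
    (-y) * j 6 0 0 1 + (3*y) * j 4 1 0 1 + (-y) * j 2 2 0 1 + (-1) * j 2 1 2 1 + (1) * j 2 0 0 3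
    = 0
  r2_0002 :
    (-y) * j 4 0 0 2 + (3*y) * j 2 1 0 2 + (-y) * j 0 2 0 2 + (-1) * j 0 1 2 2 + (1) * j 0 0 0 4
    = 0
  r2_0120 :
    (-y) * j 4 1 2 0 + (3*y) * j 2 2 2 0 + (-y) * j 0 3 2 0 + (-1) * j 0 2 4 0 + (1) * j 0 1 2 2
    = 0
  r2_1110 :
    (-y) * j 5 1 1 0 + (3*y) * j 3 2 1 0 + (-y) * j 1 3 1 0 + (-1) * j 1 2 3 0 + (1) * j 1 1 1 2
    = 0
  r2_2100 :
    (-y) * j 6 1 0 0 + (3*y) * j 4 2 0 0 + (-y) * j 2 3 0 0 + (-1) * j 2 2 2 0 + (1) * j 2 1 0 2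
    = 0
  r2_0101 :
    (-y) * j 4 1 0 1 + (3*y) * j 2 2 0 1 + (-y) * j 0 3 0 1 + (-1) * j 0 2 2 1 + (1) * j 0 1 0 3
    = 0
  r2_0200 :
    (-y) * j 4 2 0 0 + (3*y) * j 2 3 0 0 + (-y) * j 0 4 0 0 + (-1) * j 0 3 2 0 + (1) * j 0 2 0 2
    = 0
  r3_0040 :
    (1) * j 2 0 4 1 + (-1) * j 1 1 5 0 + (-1) * j 0 1 4 1 = 0
  r3_1030 :
    (1) * j 3 0 3 1 + (-1) * j 2 1 4 0 + (-1) * j 1 1 3 1 = 0
  r3_2020 :
    (1) * j 4 0 2 1 + (-1) * j 3 1 3 0 + (-1) * j 2 1 2 1 = 0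
  r3_3010 :
    (1) * j 5 0 1 1 + (-1) * j 4 1 2 0 + (-1) * j 3 1 1 1 = 0
  r3_4000 :
    (1) * j 6 0 0 1 + (-1) * j 5 1 1 0 + (-1) * j 4 1 0 1 = 0
  r3_2001 :
    (1) * j 4 0 0 2 + (-1) * j 3 1 1 1 + (-1) * j 2 1 0 2 = 0
  r3_1110 :
    (1) * j 3 1 1 1 + (-1) * j 2 2 2 0 + (-1) * j 1 2 1 1 = 0
  r3_2100 :
    (1) * j 4 1 0 1 + (-1) * j 3 2 1 0 + (-1) * j 2 2 0 1 = 0
  r3_0101 :
    (1) * j 2 1 0 2 + (-1) * j 1 2 1 1 + (-1) * j 0 2 0 2 = 0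
  r3_0200 :
    (1) * j 2 2 0 1 + (-1) * j 1 3 1 0 + (-1) * j 0 3 0 1 = 0
  r4_3000 :
    (1) * j 4 1 0 1 + (-1) * j 3 2 1 0 = 0
  r4_1100 :
    (1) * j 2 2 0 1 + (-1) * j 1 3 1 0 = 0
  r5_1010 :
    (1) * j 7 0 1 0 + (-5) * j 5 1 1 0 + (6) * j 3 2 1 0 + (-1) * j 1 3 1 0 = 0
  r5_2000 :
    (1) * j 8 0 0 0 + (-5) * j 6 1 0 0 + (6) * j 4 2 0 0 + (-1) * j 2 3 0 0 = 0
  r5_0001 :
    (1) * j 6 0 0 1 + (-5) * j 4 1 0 1 + (6) * j 2 2 0 1 + (-1) * j 0 3 0 1 = 0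
  r5_0100 :
    (1) * j 6 1 0 0 + (-5) * j 4 2 0 0 + (6) * j 2 3 0 0 + (-1) * j 0 4 0 0 = 0
  r6_1000 :
    (1) * j 6 1 0 0 + (-4) * j 4 2 0 0 + (3) * j 2 3 0 0 = 0

/-- the table -/
structure T2 (j : ℕ → ℕ → ℕ → ℕ → ℝ) (a y : ℝ) : Prop where
  v3050 : j 3 0 5 0 = -4*a^2*y^2 + 6*a*y^2 + 42*y^3 + 28*y^2
  v4040 : j 4 0 4 0 = 16*a*y^2 + 14*y^2
  v5030 : j 5 0 3 0 = -a*y - 16*y^2 - 2*y
  v6020 : j 6 0 2 0 = -5*a*y - 14*y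
  v7010 : j 7 0 1 0 = 14*y
  v8000 : j 8 0 0 0 = 14*a + 14
  v2041 : j 2 0 4 1 = -3*a^2*y^2 + 17*y^3 + 12*y^2
  v3031 : j 3 0 3 1 = 7*a*y^2 + 5*y^2
  v4021 : j 4 0 2 1 = -5*y^2
  v5011 : j 5 0 1 1 = -a*y - 5*y
  v6001 : j 6 0 0 1 = 5*y
  v1032 : j 1 0 3 2 = -2*a^2*y^2 - a*y^2 + 7*y^3 + 6*y^2
  v2022 : j 2 0 2 2 = 3*a*y^2 + y^2
  v3012 : j 3 0 1 2 = -y^2
  v4002 : j 4 0 0 2 = -y
  v0023 : j 0 0 2 3 = -a^2*y^2 + 3*y^3 + 4*y^2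
  v1013 : j 1 0 1 3 = a*y^2 - y^2
  v2003 : j 2 0 0 3 = y^2
  v0004 : j 0 0 0 4 = a*y^2 - y^2
  v1150 : j 1 1 5 0 = -2*a^2*y^2 + 12*y^3 + 8*y^2
  v2140 : j 2 1 4 0 = 5*a*y^2 + 4*y^2
  v3130 : j 3 1 3 0 = -4*y^2
  v4120 : j 4 1 2 0 = -a*y - 4*y
  v5110 : j 5 1 1 0 = 4*y
  v6100 : j 6 1 0 0 = 5*a + 4
  v0141 : j 0 1 4 1 = -a^2*y^2 + 5*y^3 + 4*y^2
  v1131 : j 1 1 3 1 = 2*a*y^2 + y^2
  v2121 : j 2 1 2 1 = -y^2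
  v3111 : j 3 1 1 1 = -y
  v4101 : j 4 1 0 1 = y
  v0122 : j 0 1 2 2 = a*y^2
  v1112 : j 1 1 1 2 = 0
  v2102 : j 2 1 0 2 = 0
  v0103 : j 0 1 0 3 = y^2
  v0240 : j 0 2 4 0 = 2*a*y^2 + y^2
  v1230 : j 1 2 3 0 = -y^2
  v2220 : j 2 2 2 0 = -y
  v3210 : j 3 2 1 0 = y
  v4200 : j 4 2 0 0 = 2*a + 1
  v0221 : j 0 2 2 1 = 0
  v1211 : j 1 2 1 1 = 0
  v2201 : j 2 2 0 1 = 0
  v0202 : j 0 2 0 2 = 0
  v0320 : j 0 3 2 0 = 0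
  v1310 : j 1 3 1 0 = 0
  v2300 : j 2 3 0 0 = a
  v0301 : j 0 3 0 1 = 0
  v0400 : j 0 4 0 0 = a - 1

set_option linter.unusedSimpArgs false

namespace Tab2
variable {R : Type} [CommRing R] [Algebra ℝ R] {J : R →ₗ[ℝ] ℝ} {A e t r : R} {a y : ℝ}
  {j : ℕ → ℕ → ℕ → ℕ → ℝ}

theorem G1 (h : R2 J A e t r a y) :
    (-y : ℝ) • Mn A e t r 3 0 0 0 + (2*y : ℝ) • Mn A e t r 1 1 0 0 + (-1 : ℝ) • Mn A e t r 1 0 2
    0 + (a + 2 : ℝ) • Mn A e t r 1 0 0 1 + (-a - 2 : ℝ) • Mn A e t r 0 1 1 0 + (2 : ℝ) • Mn A e t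
    r 0 0 1 1 = 0 := by
  have k := h.g1
  simp only [Mn, Hn] at k ⊢
  linear_combination (norm := algebra) k

theorem G2 (h : R2 J A e t r a y) :
    (-y : ℝ) • Mn A e t r 4 0 0 0 + (3*y : ℝ) • Mn A e t r 2 1 0 0 + (-y : ℝ) • Mn A e t r 0 2 0
    0 + (-1 : ℝ) • Mn A e t r 0 1 2 0 + (1 : ℝ) • Mn A e t r 0 0 0 2 = 0 := by
  have k := h.g2
  simp only [Mn, Hn] at k ⊢
  linear_combination (norm := algebra) k

theorem G3 (h : R2 J A e t r a y) :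
    (1 : ℝ) • Mn A e t r 2 0 0 1 + (-1 : ℝ) • Mn A e t r 1 1 1 0 + (-1 : ℝ) • Mn A e t r 0 1 0 1
    = 0 := by
  have k := h.g3
  simp only [Mn, Hn] at k ⊢
  linear_combination (norm := algebra) k

theorem G4 (h : R2 J A e t r a y) :
    (1 : ℝ) • Mn A e t r 1 1 0 1 + (-1 : ℝ) • Mn A e t r 0 2 1 0 = 0 := by
  have k := h.g4
  simp only [Mn, Hn] at k ⊢
  linear_combination (norm := algebra) k

theorem G5 (h : R2 J A e t r a y) :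
    (1 : ℝ) • Mn A e t r 6 0 0 0 + (-5 : ℝ) • Mn A e t r 4 1 0 0 + (6 : ℝ) • Mn A e t r 2 2 0 0 +
    (-1 : ℝ) • Mn A e t r 0 3 0 0 = 0 := by
  have k := h.g5
  simp only [Mn, Hn] at k ⊢
  linear_combination (norm := algebra) k

theorem G6 (h : R2 J A e t r a y) :
    (1 : ℝ) • Mn A e t r 5 1 0 0 + (-4 : ℝ) • Mn A e t r 3 2 0 0 + (3 : ℝ) • Mn A e t r 1 3 0 0 =
    0 := by
  have k := h.g6
  simp only [Mn, Hn] at k ⊢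
  linear_combination (norm := algebra) k

theorem N1 (h : R2 J A e t r a y) :
    J ((1 : ℝ) • Mn A e t r 8 0 0 0 + (-6 : ℝ) • Mn A e t r 6 1 0 0 + (11 : ℝ) • Mn A e t r 4 2 0
    0 + (-6 : ℝ) • Mn A e t r 2 3 0 0) = 1 := by
  refine Eq.trans (congrArg J ?_) h.n1
  simp only [Mn, Hn]
  algebra

theorem N2 (h : R2 J A e t r a y) :
    J ((1 : ℝ) • Mn A e t r 8 0 0 0 + (-6 : ℝ) • Mn A e t r 6 1 0 0 + (11 : ℝ) • Mn A e t r 4 2 0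
    0 + (-6 : ℝ) • Mn A e t r 2 3 0 0 + (1 : ℝ) • Mn A e t r 0 4 0 0) = a := by
  refine Eq.trans (congrArg J ?_) h.n2
  simp only [Mn, Hn]
  algebra

theorem N3 (h : R2 J A e t r a y) :
    J ((1 : ℝ) • Mn A e t r 6 0 0 1 + (-1 : ℝ) • Mn A e t r 5 1 1 0 + (-4 : ℝ) • Mn A e t r 4 1 0
    1 + (4 : ℝ) • Mn A e t r 3 2 1 0 + (3 : ℝ) • Mn A e t r 2 2 0 1 + (-3 : ℝ) • Mn A e t r 1 3 1
    0) = y := by
  refine Eq.trans (congrArg J ?_) h.n3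
  simp only [Mn, Hn]
  algebra

set_option maxHeartbeats 1000000 in
theorem l2 (h : R2 J A e t r a y) : L2 (fun i j k l => J (Mn A e t r i j k l)) a y := by
  have K : ∀ {x : R}, x = 0 → ∀ i j k l, J (x * Mn A e t r i j k l) = 0 := fun h _ _ _ _ => by
    rw [h, zero_mul, map_zero]
  constructor
  · simpa only [map_add, map_smul, smul_eq_mul] using N3 h
  · simpa only [map_add, map_smul, smul_eq_mul] using N2 h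
  · simpa only [map_add, map_smul, smul_eq_mul] using N1 h
  · simpa only [add_mul, smul_mul_assoc, Mn_mul, Nat.reduceAdd, map_add, map_smul, smul_eq_mul]
      using K (G1 h) 2 0 3 0
  · simpa only [add_mul, smul_mul_assoc, Mn_mul, Nat.reduceAdd, map_add, map_smul, smul_eq_mul]
      using K (G1 h) 3 0 2 0
  · simpa only [add_mul, smul_mul_assoc, Mn_mul, Nat.reduceAdd, map_add, map_smul, smul_eq_mul]
      using K (G1 h) 4 0 1 0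
  · simpa only [add_mul, smul_mul_assoc, Mn_mul, Nat.reduceAdd, map_add, map_smul, smul_eq_mul]
      using K (G1 h) 5 0 0 0
  · simpa only [add_mul, smul_mul_assoc, Mn_mul, Nat.reduceAdd, map_add, map_smul, smul_eq_mul]
      using K (G1 h) 1 0 2 1
  · simpa only [add_mul, smul_mul_assoc, Mn_mul, Nat.reduceAdd, map_add, map_smul, smul_eq_mul]
      using K (G1 h) 2 0 1 1
  · simpa only [add_mul, smul_mul_assoc, Mn_mul, Nat.reduceAdd, map_add, map_smul, smul_eq_mul]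
      using K (G1 h) 3 0 0 1
  · simpa only [add_mul, smul_mul_assoc, Mn_mul, Nat.reduceAdd, map_add, map_smul, smul_eq_mul]
      using K (G1 h) 0 0 1 2
  · simpa only [add_mul, smul_mul_assoc, Mn_mul, Nat.reduceAdd, map_add, map_smul, smul_eq_mul]
      using K (G1 h) 1 0 0 2
  · simpa only [add_mul, smul_mul_assoc, Mn_mul, Nat.reduceAdd, map_add, map_smul, smul_eq_mul]
      using K (G1 h) 0 1 3 0
  · simpa only [add_mul, smul_mul_assoc, Mn_mul, Nat.reduceAdd, map_add, map_smul, smul_eq_mul]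
      using K (G1 h) 1 1 2 0
  · simpa only [add_mul, smul_mul_assoc, Mn_mul, Nat.reduceAdd, map_add, map_smul, smul_eq_mul]
      using K (G1 h) 2 1 1 0
  · simpa only [add_mul, smul_mul_assoc, Mn_mul, Nat.reduceAdd, map_add, map_smul, smul_eq_mul]
      using K (G1 h) 3 1 0 0
  · simpa only [add_mul, smul_mul_assoc, Mn_mul, Nat.reduceAdd, map_add, map_smul, smul_eq_mul]
      using K (G1 h) 0 1 1 1
  · simpa only [add_mul, smul_mul_assoc, Mn_mul, Nat.reduceAdd, map_add, map_smul, smul_eq_mul]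
      using K (G1 h) 1 1 0 1
  · simpa only [add_mul, smul_mul_assoc, Mn_mul, Nat.reduceAdd, map_add, map_smul, smul_eq_mul]
      using K (G1 h) 0 2 1 0
  · simpa only [add_mul, smul_mul_assoc, Mn_mul, Nat.reduceAdd, map_add, map_smul, smul_eq_mul]
      using K (G1 h) 1 2 0 0
  · simpa only [add_mul, smul_mul_assoc, Mn_mul, Nat.reduceAdd, map_add, map_smul, smul_eq_mul]
      using K (G2 h) 1 0 3 0
  · simpa only [add_mul, smul_mul_assoc, Mn_mul, Nat.reduceAdd, map_add, map_smul, smul_eq_mul]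
      using K (G2 h) 2 0 2 0
  · simpa only [add_mul, smul_mul_assoc, Mn_mul, Nat.reduceAdd, map_add, map_smul, smul_eq_mul]
      using K (G2 h) 3 0 1 0
  · simpa only [add_mul, smul_mul_assoc, Mn_mul, Nat.reduceAdd, map_add, map_smul, smul_eq_mul]
      using K (G2 h) 4 0 0 0
  · simpa only [add_mul, smul_mul_assoc, Mn_mul, Nat.reduceAdd, map_add, map_smul, smul_eq_mul]
      using K (G2 h) 2 0 0 1
  · simpa only [add_mul, smul_mul_assoc, Mn_mul, Nat.reduceAdd, map_add, map_smul, smul_eq_mul]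
      using K (G2 h) 0 0 0 2
  · simpa only [add_mul, smul_mul_assoc, Mn_mul, Nat.reduceAdd, map_add, map_smul, smul_eq_mul]
      using K (G2 h) 0 1 2 0
  · simpa only [add_mul, smul_mul_assoc, Mn_mul, Nat.reduceAdd, map_add, map_smul, smul_eq_mul]
      using K (G2 h) 1 1 1 0
  · simpa only [add_mul, smul_mul_assoc, Mn_mul, Nat.reduceAdd, map_add, map_smul, smul_eq_mul]
      using K (G2 h) 2 1 0 0
  · simpa only [add_mul, smul_mul_assoc, Mn_mul, Nat.reduceAdd, map_add, map_smul, smul_eq_mul]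
      using K (G2 h) 0 1 0 1
  · simpa only [add_mul, smul_mul_assoc, Mn_mul, Nat.reduceAdd, map_add, map_smul, smul_eq_mul]
      using K (G2 h) 0 2 0 0
  · simpa only [add_mul, smul_mul_assoc, Mn_mul, Nat.reduceAdd, map_add, map_smul, smul_eq_mul]
      using K (G3 h) 0 0 4 0
  · simpa only [add_mul, smul_mul_assoc, Mn_mul, Nat.reduceAdd, map_add, map_smul, smul_eq_mul]
      using K (G3 h) 1 0 3 0
  · simpa only [add_mul, smul_mul_assoc, Mn_mul, Nat.reduceAdd, map_add, map_smul, smul_eq_mul]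
      using K (G3 h) 2 0 2 0
  · simpa only [add_mul, smul_mul_assoc, Mn_mul, Nat.reduceAdd, map_add, map_smul, smul_eq_mul]
      using K (G3 h) 3 0 1 0
  · simpa only [add_mul, smul_mul_assoc, Mn_mul, Nat.reduceAdd, map_add, map_smul, smul_eq_mul]
      using K (G3 h) 4 0 0 0
  · simpa only [add_mul, smul_mul_assoc, Mn_mul, Nat.reduceAdd, map_add, map_smul, smul_eq_mul]
      using K (G3 h) 2 0 0 1
  · simpa only [add_mul, smul_mul_assoc, Mn_mul, Nat.reduceAdd, map_add, map_smul, smul_eq_mul]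
      using K (G3 h) 1 1 1 0
  · simpa only [add_mul, smul_mul_assoc, Mn_mul, Nat.reduceAdd, map_add, map_smul, smul_eq_mul]
      using K (G3 h) 2 1 0 0
  · simpa only [add_mul, smul_mul_assoc, Mn_mul, Nat.reduceAdd, map_add, map_smul, smul_eq_mul]
      using K (G3 h) 0 1 0 1
  · simpa only [add_mul, smul_mul_assoc, Mn_mul, Nat.reduceAdd, map_add, map_smul, smul_eq_mul]
      using K (G3 h) 0 2 0 0
  · simpa only [add_mul, smul_mul_assoc, Mn_mul, Nat.reduceAdd, map_add, map_smul, smul_eq_mul]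
      using K (G4 h) 3 0 0 0
  · simpa only [add_mul, smul_mul_assoc, Mn_mul, Nat.reduceAdd, map_add, map_smul, smul_eq_mul]
      using K (G4 h) 1 1 0 0
  · simpa only [add_mul, smul_mul_assoc, Mn_mul, Nat.reduceAdd, map_add, map_smul, smul_eq_mul]
      using K (G5 h) 1 0 1 0
  · simpa only [add_mul, smul_mul_assoc, Mn_mul, Nat.reduceAdd, map_add, map_smul, smul_eq_mul]
      using K (G5 h) 2 0 0 0
  · simpa only [add_mul, smul_mul_assoc, Mn_mul, Nat.reduceAdd, map_add, map_smul, smul_eq_mul]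
      using K (G5 h) 0 0 0 1
  · simpa only [add_mul, smul_mul_assoc, Mn_mul, Nat.reduceAdd, map_add, map_smul, smul_eq_mul]
      using K (G5 h) 0 1 0 0
  · simpa only [add_mul, smul_mul_assoc, Mn_mul, Nat.reduceAdd, map_add, map_smul, smul_eq_mul]
      using K (G6 h) 1 0 0 0

theorem v3050 (h : L2 j a y) : j 3 0 5 0 = -4*a^2*y^2 + 6*a*y^2 + 42*y^3 + 28*y^2 := by
  linear_combination
    (8) * h.r3_0040 + (-1) * h.r1_2030 + (-12) * h.r2_1030 + (6) * h.r1_1021 + (13*y) * h.r1_4010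
    + (-8*a*y - 16*y) * h.r1_5000 + (-20*y) * h.r1_2110 + (-7*a - 14) * h.r1_2011 + (-a - 2) *
    h.r1_1120 + (-13*a^3 - 78*a^2 - 2*a*y - 156*a - 4*y - 104) * h.r1_3100 + (7*a^2 + 28*a + 2*y
    + 28) * h.r1_3001 + (4) * h.r1_0130 + (-7*a^2 - 28*a - 4*y - 28) * h.r2_3010 + (20*y) *
    h.r2_1110 + (-a^2 - 4*a - 10*y - 4) * h.r1_1101 + (8*a^2*y + 32*a*y + 42*y^2 + 32*y) * h.n3 +
    (5*a^3 + 30*a^2 + 2*a*y + 60*a + 4*y + 40) * h.r1_1200 + (-2*a*y^2 - 4*y^2) * h.n1 + (13*a^3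
    + 78*a^2 + 22*a*y + 156*a + 44*y + 104) * h.r2_4000 + (-4*a - 8) * h.r2_0120 + (2*a + 4) *
    h.r1_0111 + (a^2 + 4*a + 4) * h.r1_0210 + (8*a + 16) * h.r2_2020 + (-18*a^3 - 108*a^2 -
    18*a*y - 216*a - 36*y - 144) * h.r2_2100 + (7*a^2 + 28*a - 18*y + 28) * h.r3_2020 + (-7*a^2*y
    - 28*a*y + 33*y^2 - 28*y) * h.r5_0001 + (13*a^4 + 104*a^3 + 33*a^2*y + 312*a^2 + 132*a*y +
    416*a + 97*y^2 + 132*y + 208) * h.r4_3000 + (14*a^2*y + 56*a*y - 73*y^2 + 56*y) * h.r3_4000 +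
    (7*a^2*y + 28*a*y - 33*y^2 + 28*y) * h.r3_0200 + (-5*a^4 - 40*a^3 - 24*a^2*y - 120*a^2 -
    96*a*y - 160*a - 122*y^2 - 96*y - 80) * h.r4_1100 + (-7*a^2*y - 28*a*y + 9*y^2 - 28*y) *
    h.r5_1010 + (-35*a^2*y - 140*a*y + 149*y^2 - 140*y) * h.r3_2100 + (-4*a*y - 8*y) * h.r3_3010
    + (13*a^3 + 78*a^2 + 14*a*y + 156*a + 28*y + 104) * h.r3_1110 + (-20*a^3 - 120*a^2 - 24*a*y -
    240*a - 48*y - 160) * h.r3_2001 + (-6*a^3*y - 36*a^2*y + 2*a*y^2 - 72*a*y + 4*y^2 - 48*y) *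
    h.r6_1000 + (a^3*y + 6*a^2*y - 16*a*y^2 + 12*a*y - 32*y^2 + 8*y) * h.r5_0100 + (13*a^3*y +
    78*a^2*y + 28*a*y^2 + 156*a*y + 56*y^2 + 104*y) * h.r5_2000 + (-12*a*y^2 - 24*y^2) * h.n2 +
    (-6*a - 12) * h.r3_1030 + (-a^3 - 6*a^2 + 4*a*y - 12*a + 8*y - 8) * h.r3_0101 + (-a^3 - 6*a^2
    + 4*a*y - 12*a + 8*y - 8) * h.r2_0200

theorem v4040 (h : L2 j a y) : j 4 0 4 0 = 16*a*y^2 + 14*y^2 := by
  linear_combination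
    (8) * h.r3_1030 + (-1) * h.r1_3020 + (-12) * h.r2_2020 + (6) * h.r1_2011 + (13*y) * h.r1_5000
    + (13*a^2 + 52*a - 26*y + 52) * h.r1_3100 + (-7*a - 14) * h.r1_3001 + (-a - 2) * h.r1_2110 +
    (4) * h.r1_1120 + (-13*a^2 - 52*a + 4*y - 52) * h.r2_4000 + (-4*a - 8) * h.r2_1110 + (2*a +
    4) * h.r1_1101 + (-14*a*y - 28*y) * h.n3 + (-5*a^2 - 20*a + 8*y - 20) * h.r1_1200 + (42*y^2)
    * h.n1 + (8*a + 16) * h.r2_3010 + (18*a^2 + 72*a - 4*y + 72) * h.r2_2100 + (-12*a^2 - 48*a +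
    16*y - 48) * h.r3_1110 + (20*a^2 + 80*a - 4*y + 80) * h.r3_2001 + (-10*a*y - 20*y) *
    h.r3_4000 + (-20*y) * h.r3_3010 + (5*a^2*y + 20*a*y + 59*y^2 + 20*y) * h.r6_1000 + (30*y^2) *
    h.r5_0100 + (-13*a^2*y - 52*a*y - 55*y^2 - 52*y) * h.r5_2000 + (30*y^2) * h.n2 + (-13*a^3 -
    78*a^2 - 28*a*y - 156*a - 56*y - 104) * h.r4_3000 + (5*a^3 + 30*a^2 + 34*a*y + 60*a + 68*y +
    40) * h.r4_1100 + (-6*a - 12) * h.r3_2020 + (4*a*y + 8*y) * h.r5_0001 + (-4*a*y - 8*y) *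
    h.r3_0200 + (8*a*y + 16*y) * h.r5_1010 + (24*a*y + 48*y) * h.r3_2100

theorem v5030 (h : L2 j a y) : j 5 0 3 0 = -a*y - 16*y^2 - 2*y := by
  linear_combination
    (8) * h.r3_2020 + (-1) * h.r1_4010 + (-12) * h.r2_3010 + (6) * h.r1_3001 + (-13*a - 26) *
    h.r1_3100 + (4) * h.r1_2110 + (13*a + 26) * h.r2_4000 + (-17*y) * h.r5_0001 + (13*a^2 + 52*a
    - 33*y + 52) * h.r4_3000 + (39*y) * h.r3_4000 + (-16*y) * h.n3 + (17*y) * h.r3_0200 + (-5*a^2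
    - 20*a + 44*y - 20) * h.r4_1100 + (-13*y) * h.r5_1010 + (-89*y) * h.r3_2100 + (10*a + 20) *
    h.r3_1110 + (-19*a - 38) * h.r3_2001 + (-19*a - 38) * h.r2_2100 + (-a*y - 2*y) * h.n1 + (5*a
    + 10) * h.r1_1200 + (a + 2) * h.r3_3010 + (-7*a*y - 14*y) * h.r6_1000 + (14*a*y + 28*y) *
    h.r5_2000

theorem v6020 (h : L2 j a y) : j 6 0 2 0 = -5*a*y - 14*y := by
  linear_combination
    (-12) * h.r3_1110 + (16) * h.r1_3100 + (18) * h.r3_2001 + (-18) * h.r2_4000 + (18) *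
    h.r2_2100 + (-16*y) * h.n1 + (-6) * h.r1_1200 + (a + 2) * h.n3 + (2) * h.r3_3010 + (-1) *
    h.r1_5000 + (-6*y) * h.r5_0100 + (3*y) * h.r5_2000 + (-6*y) * h.n2 + (3*a + 6) * h.r4_1100 +
    (-12*a - 24) * h.r4_3000 + (-21*y) * h.r6_1000

theorem v7010 (h : L2 j a y) : j 7 0 1 0 = 14*y := by
  linear_combination
    (5) * h.r5_0001 + (33) * h.r4_3000 + (-19) * h.r3_4000 + (14) * h.n3 + (-5) * h.r3_0200 +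
    (-38) * h.r4_1100 + (1) * h.r5_1010 + (29) * h.r3_2100

theorem v8000 (h : L2 j a y) : j 8 0 0 0 = 14*a + 14 := by
  linear_combination
    (19) * h.r6_1000 + (14) * h.r5_0100 + (-27) * h.r5_2000 + (14) * h.n1 + (14) * h.n2

theorem v2041 (h : L2 j a y) : j 2 0 4 1 = -3*a^2*y^2 + 17*y^3 + 12*y^2 := by
  linear_combination
    (4) * h.r3_0040 + (-6) * h.r2_1030 + (3) * h.r1_1021 + (6*y) * h.r1_4010 + (-5*a*y - 10*y) *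
    h.r1_5000 + ((1/4)*a^2 + a - 9*y + 1) * h.r1_2110 + (-4*a - 8) * h.r1_2011 + (-a - 2) *
    h.r1_1120 + (-8*a^3 - 48*a^2 - a*y - 96*a - 2*y - 64) * h.r1_3100 + ((17/4)*a^2 + 17*a + 2*y
    + 17) * h.r1_3001 + (2) * h.r1_0130 + (-(9/2)*a^2 - 18*a - 4*y - 18) * h.r2_3010 + ((1/2)*a^2
    + 2*a + 10*y + 2) * h.r2_1110 + (-(3/4)*a^2 - 3*a - 5*y - 3) * h.r1_1101 + (5*a^2*y + 20*a*y
    + 17*y^2 + 20*y) * h.n3 + (3*a^3 + 18*a^2 + a*y + 36*a + 2*y + 24) * h.r1_1200 + (-4*a*y^2 -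
    8*y^2) * h.n1 + (8*a^3 + 48*a^2 + 13*a*y + 96*a + 26*y + 64) * h.r2_4000 + (-2*a - 4) *
    h.r2_0120 + (a + 2) * h.r1_0111 + ((1/2)*a^2 + 2*a + 2) * h.r1_0210 + (5*a + 10) * h.r2_2020
    + (-11*a^3 - 66*a^2 - 12*a*y - 132*a - 24*y - 88) * h.r2_2100 + ((17/4)*a^2 + 17*a - 7*y +
    17) * h.r3_2020 + (-4*a^2*y - 16*a*y + 13*y^2 - 16*y) * h.r5_0001 + (8*a^4 + 64*a^3 +
    (41/2)*a^2*y + 192*a^2 + 82*a*y + 256*a + 40*y^2 + 82*y + 128) * h.r4_3000 + ((33/4)*a^2*y +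
    33*a*y - 28*y^2 + 33*y) * h.r3_4000 + (4*a^2*y + 16*a*y - 13*y^2 + 16*y) * h.r3_0200 +
    (-3*a^4 - 24*a^3 - 15*a^2*y - 72*a^2 - 60*a*y - 96*a - 50*y^2 - 60*y - 48) * h.r4_1100 +
    (-(9/2)*a^2*y - 18*a*y + 2*y^2 - 18*y) * h.r5_1010 + (-(41/2)*a^2*y - 82*a*y + 56*y^2 - 82*y)
    * h.r3_2100 + ((31/4)*a^3 + (93/2)*a^2 + 7*a*y + 93*a + 14*y + 62) * h.r3_1110 + (-(49/4)*a^3
    - (147/2)*a^2 - 15*a*y - 147*a - 30*y - 98) * h.r3_2001 + (-(7/2)*a^3*y - 21*a^2*y - 4*a*y^2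
    - 42*a*y - 8*y^2 - 28*y) * h.r6_1000 + ((1/2)*a^3*y + 3*a^2*y - 10*a*y^2 + 6*a*y - 20*y^2 +
    4*y) * h.r5_0100 + (8*a^3*y + 48*a^2*y + 20*a*y^2 + 96*a*y + 40*y^2 + 64*y) * h.r5_2000 +
    (-8*a*y^2 - 16*y^2) * h.n2 + (-4*a - 8) * h.r3_1030 + (-(1/2)*a^3 - 3*a^2 + 2*a*y - 6*a + 4*y
    - 4) * h.r3_0101 + (-(1/2)*a^3 - 3*a^2 + 2*a*y - 6*a + 4*y - 4) * h.r2_0200

theorem v3031 (h : L2 j a y) : j 3 0 3 1 = 7*a*y^2 + 5*y^2 := by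
  linear_combination
    (4) * h.r3_1030 + (-6) * h.r2_2020 + (3) * h.r1_2011 + (6*y) * h.r1_5000 + (8*a^2 + 32*a -
    10*y + 32) * h.r1_3100 + (-4*a - 8) * h.r1_3001 + (-a - 2) * h.r1_2110 + (2) * h.r1_1120 +
    (-8*a^2 - 32*a - y - 32) * h.r2_4000 + (-2*a - 4) * h.r2_1110 + (a + 2) * h.r1_1101 + (-6*a*y
    - 12*y) * h.n3 + (-3*a^2 - 12*a + 3*y - 12) * h.r1_1200 + (17*y^2) * h.n1 + (5*a + 10) *
    h.r2_3010 + (11*a^2 + 44*a + y + 44) * h.r2_2100 + (-7*a^2 - 28*a + 6*y - 28) * h.r3_1110 +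
    (12*a^2 + 48*a + y + 48) * h.r3_2001 + (-7*a*y - 14*y) * h.r3_4000 + (-9*y) * h.r3_3010 +
    (3*a^2*y + 12*a*y + 24*y^2 + 12*y) * h.r6_1000 + (13*y^2) * h.r5_0100 + (-8*a^2*y - 32*a*y -
    25*y^2 - 32*y) * h.r5_2000 + (13*y^2) * h.n2 + (-8*a^3 - 48*a^2 - 14*a*y - 96*a - 28*y - 64)
    * h.r4_3000 + (5*a*y + 10*y) * h.r5_1010 + (3*a^3 + 18*a^2 + 15*a*y + 36*a + 30*y + 24) *
    h.r4_1100 + (17*a*y + 34*y) * h.r3_2100 + (-4*a - 8) * h.r3_2020 + (3*a*y + 6*y) * h.r5_0001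
    + (-3*a*y - 6*y) * h.r3_0200

theorem v4021 (h : L2 j a y) : j 4 0 2 1 = -5*y^2 := by
  linear_combination
    (4) * h.r3_2020 + (-6) * h.r2_3010 + (3) * h.r1_3001 + (2) * h.r1_2110 + (8*a + 16) *
    h.r2_4000 + (-7*y) * h.r5_0001 + (8*a^2 + 32*a - 10*y + 32) * h.r4_3000 + (15*y) * h.r3_4000
    + (-5*y) * h.n3 + (7*y) * h.r3_0200 + (-3*a^2 - 12*a + 14*y - 12) * h.r4_1100 + (-6*y) *
    h.r5_1010 + (-36*y) * h.r3_2100 + (-3*a*y - 6*y) * h.r6_1000 + (8*a*y + 16*y) * h.r5_2000 +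
    (-11*a - 22) * h.r3_2001 + (-11*a - 22) * h.r2_2100 + (6*a + 12) * h.r3_1110 + (-8*a - 16) *
    h.r1_3100 + (3*a + 6) * h.r1_1200

theorem v5011 (h : L2 j a y) : j 5 0 1 1 = -a*y - 5*y := by
  linear_combination
    (-6) * h.r3_1110 + (8) * h.r1_3100 + (9) * h.r3_2001 + (-9) * h.r2_4000 + (9) * h.r2_2100 +
    (-5*y) * h.n1 + (-3) * h.r1_1200 + (1) * h.r3_3010 + (-6*y) * h.r6_1000 + (-y) * h.r5_0100 +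
    (-3*y) * h.r5_2000 + (-y) * h.n2 + (-8*a - 16) * h.r4_3000 + (3*a + 6) * h.r4_1100

theorem v6001 (h : L2 j a y) : j 6 0 0 1 = 5*y := by
  linear_combination
    (14) * h.r4_3000 + (-14) * h.r4_1100 + (5) * h.n3 + (-5) * h.r3_4000 + (6) * h.r3_2100 + (1)
    * h.r5_0001 + (-1) * h.r3_0200

theorem v1032 (h : L2 j a y) : j 1 0 3 2 = -2*a^2*y^2 - a*y^2 + 7*y^3 + 6*y^2 := by
  linear_combination
    (2) * h.r1_1021 + (3*y) * h.r1_4010 + (-3*a*y - 6*y) * h.r1_5000 + ((1/8)*a^2 + (1/2)*a -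
    (9/2)*y + (1/2)) * h.r1_2110 + (-(5/2)*a - 5) * h.r1_2011 + (-(1/2)*a - 1) * h.r1_1120 + (2)
    * h.r3_0040 + (-3) * h.r2_1030 + (-5*a^3 - 30*a^2 - a*y - 60*a - 2*y - 40) * h.r1_3100 +
    ((21/8)*a^2 + (21/2)*a + (3/2)*y + (21/2)) * h.r1_3001 + (1) * h.r1_0130 + (-(11/4)*a^2 -
    11*a - 3*y - 11) * h.r2_3010 + ((1/4)*a^2 + a + 5*y + 1) * h.r2_1110 + (-(3/8)*a^2 - (3/2)*a
    - (5/2)*y - (3/2)) * h.r1_1101 + (3*a^2*y + 12*a*y + 7*y^2 + 12*y) * h.n3 + (2*a^3 + 12*a^2 +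
    a*y + 24*a + 2*y + 16) * h.r1_1200 + (-3*a*y^2 - 6*y^2) * h.n1 + (5*a^3 + 30*a^2 + 8*a*y +
    60*a + 16*y + 40) * h.r2_4000 + (-a - 2) * h.r2_0120 + ((1/2)*a + 1) * h.r1_0111 + ((1/4)*a^2
    + a + 1) * h.r1_0210 + (3*a + 6) * h.r2_2020 + (-7*a^3 - 42*a^2 - 8*a*y - 84*a - 16*y - 56) *
    h.r2_2100 + ((21/8)*a^2 + (21/2)*a - (5/2)*y + (21/2)) * h.r3_2020 + (-(5/2)*a^2*y - 10*a*y +
    5*y^2 - 10*y) * h.r5_0001 + (5*a^4 + 40*a^3 + (51/4)*a^2*y + 120*a^2 + 51*a*y + 160*a +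
    17*y^2 + 51*y + 80) * h.r4_3000 + ((41/8)*a^2*y + (41/2)*a*y - (21/2)*y^2 + (41/2)*y) *
    h.r3_4000 + ((5/2)*a^2*y + 10*a*y - 5*y^2 + 10*y) * h.r3_0200 + (-2*a^4 - 16*a^3 -
    (19/2)*a^2*y - 48*a^2 - 38*a*y - 64*a - 21*y^2 - 38*y - 32) * h.r4_1100 + (-(11/4)*a^2*y -
    11*a*y - 11*y) * h.r5_1010 + (-(51/4)*a^2*y - 51*a*y + 20*y^2 - 51*y) * h.r3_2100 +
    ((1/2)*a*y + y) * h.r3_3010 + (-(5/2)*a - 5) * h.r3_1030 + ((39/8)*a^3 + (117/4)*a^2 +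
    (9/2)*a*y + (117/2)*a + 9*y + 39) * h.r3_1110 + (-(61/8)*a^3 - (183/4)*a^2 - (19/2)*a*y -
    (183/2)*a - 19*y - 61) * h.r3_2001 + (-(9/4)*a^3*y - (27/2)*a^2*y - 4*a*y^2 - 27*a*y - 8*y^2
    - 18*y) * h.r6_1000 + ((1/4)*a^3*y + (3/2)*a^2*y - 6*a*y^2 + 3*a*y - 12*y^2 + 2*y) *
    h.r5_0100 + (5*a^3*y + 30*a^2*y + 13*a*y^2 + 60*a*y + 26*y^2 + 40*y) * h.r5_2000 + (-5*a*y^2
    - 10*y^2) * h.n2 + (-(1/4)*a^3 - (3/2)*a^2 + a*y - 3*a + 2*y - 2) * h.r3_0101 + (-(1/4)*a^3 -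
    (3/2)*a^2 + a*y - 3*a + 2*y - 2) * h.r2_0200

theorem v2022 (h : L2 j a y) : j 2 0 2 2 = 3*a*y^2 + y^2 := by
  linear_combination
    (2) * h.r1_2011 + (3*y) * h.r1_5000 + (5*a^2 + 20*a - 4*y + 20) * h.r1_3100 + (-(5/2)*a - 5)
    * h.r1_3001 + (-(1/2)*a - 1) * h.r1_2110 + (2) * h.r3_1030 + (-3) * h.r2_2020 + (1) *
    h.r1_1120 + (-5*a^2 - 20*a - 2*y - 20) * h.r2_4000 + (-a - 2) * h.r2_1110 + ((1/2)*a + 1) *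
    h.r1_1101 + (-3*a*y - 6*y) * h.n3 + (-2*a^2 - 8*a + y - 8) * h.r1_1200 + (7*y^2) * h.n1 +
    (3*a + 6) * h.r2_3010 + (7*a^2 + 28*a + 2*y + 28) * h.r2_2100 + (-(9/2)*a^2 - 18*a + 2*y -
    18) * h.r3_1110 + ((15/2)*a^2 + 30*a + 2*y + 30) * h.r3_2001 + (-(9/2)*a*y - 9*y) * h.r3_4000
    + (-4*y) * h.r3_3010 + (2*a^2*y + 8*a*y + 10*y^2 + 8*y) * h.r6_1000 + (6*y^2) * h.r5_0100 +
    (-5*a^2*y - 20*a*y - 12*y^2 - 20*y) * h.r5_2000 + (6*y^2) * h.n2 + (-5*a^3 - 30*a^2 - 8*a*y -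
    60*a - 16*y - 40) * h.r4_3000 + (3*a*y + 6*y) * h.r5_1010 + (2*a^3 + 12*a^2 + 8*a*y + 24*a +
    16*y + 16) * h.r4_1100 + (11*a*y + 22*y) * h.r3_2100 + (-(5/2)*a - 5) * h.r3_2020 + (2*a*y +
    4*y) * h.r5_0001 + (-2*a*y - 4*y) * h.r3_0200

theorem v3012 (h : L2 j a y) : j 3 0 1 2 = -y^2 := by
  linear_combination
    (2) * h.r1_3001 + (5*a^2 + 20*a - 2*y + 20) * h.r4_3000 + (6*y) * h.r3_4000 + (5*a + 10) *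
    h.r2_4000 + (-5*a - 10) * h.r1_3100 + (2) * h.r3_2020 + (-3) * h.r2_3010 + (1) * h.r1_2110 +
    (-3*y) * h.r5_0001 + (-y) * h.n3 + (3*y) * h.r3_0200 + (-2*a^2 - 8*a + 3*y - 8) * h.r4_1100 +
    (-3*y) * h.r5_1010 + (-15*y) * h.r3_2100 + (4*a + 8) * h.r3_1110 + (-7*a - 14) * h.r3_2001 +
    (-7*a - 14) * h.r2_2100 + (2*a + 4) * h.r1_1200 + (-2*a*y - 4*y) * h.r6_1000 + (5*a*y + 10*y)
    * h.r5_2000

theorem v4002 (h : L2 j a y) : j 4 0 0 2 = -y := by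
  linear_combination
    (-5) * h.r2_4000 + (5) * h.r1_3100 + (-4*y) * h.r5_2000 + (-y) * h.n1 + (-4) * h.r3_1110 +
    (6) * h.r3_2001 + (6) * h.r2_2100 + (-2) * h.r1_1200 + (-5*a - 10) * h.r4_3000 + (2*a + 4) *
    h.r4_1100

theorem v0023 (h : L2 j a y) : j 0 0 2 3 = -a^2*y^2 + 3*y^3 + 4*y^2 := by
  linear_combination
    ((1/2)) * h.r1_0012 + (1) * h.r1_1021 + ((3/2)*y) * h.r1_4010 + (-(7/4)*a*y - (7/2)*y) *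
    h.r1_5000 + ((13/8)*a^2 + (13/2)*a + (5/4)*y + (13/2)) * h.r1_3001 + (-(3/2)*a - 3) *
    h.r1_2011 + (-(3/8)*a^2 - (3/2)*a - (7/4)*y - (3/2)) * h.r1_1101 + ((1/8)*a^2 + (1/2)*a -
    (9/4)*y + (1/2)) * h.r1_2110 + (2*a^2*y + 8*a*y + 3*y^2 + 8*y) * h.n3 + (-3*a^3 - 18*a^2 -
    (3/4)*a*y - 36*a - (3/2)*y - 24) * h.r1_3100 + (-(1/4)*a - (1/2)) * h.r1_1002 + ((1/2)*a + 1)
    * h.r1_0111 + (-(1/4)*a - (1/2)) * h.r1_1120 + (1) * h.r3_0040 + (-(3/2)) * h.r2_1030 +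
    ((1/2)) * h.r1_0130 + (-(7/4)*a^2 - 7*a - 2*y - 7) * h.r2_3010 + ((5/2)*y) * h.r2_1110 + (a^3
    + 6*a^2 + (1/4)*a*y + 12*a + (1/2)*y + 8) * h.r1_1200 + (-2*a*y^2 - 4*y^2) * h.n1 + (3*a^3 +
    18*a^2 + (19/4)*a*y + 36*a + (19/2)*y + 24) * h.r2_4000 + (-(1/2)*a - 1) * h.r2_0120 +
    ((1/4)*a^2 + a + 1) * h.r1_0210 + ((7/4)*a + (7/2)) * h.r2_2020 + (-4*a^3 - 24*a^2 -
    (9/2)*a*y - 48*a - 9*y - 32) * h.r2_2100 + ((13/8)*a^2 + (13/2)*a - (3/4)*y + (13/2)) *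
    h.r3_2020 + (-(3/2)*a^2*y - 6*a*y + 2*y^2 - 6*y) * h.r5_0001 + (3*a^4 + 24*a^3 + (31/4)*a^2*y
    + 72*a^2 + 31*a*y + 96*a + (15/2)*y^2 + 31*y + 48) * h.r4_3000 + ((25/8)*a^2*y + (25/2)*a*y -
    (15/4)*y^2 + (25/2)*y) * h.r3_4000 + ((3/2)*a^2*y + 6*a*y - 2*y^2 + 6*y) * h.r3_0200 + (-a^4
    - 8*a^3 - (11/2)*a^2*y - 24*a^2 - 22*a*y - 32*a - 9*y^2 - 22*y - 16) * h.r4_1100 +
    (-(7/4)*a^2*y - 7*a*y - (1/2)*y^2 - 7*y) * h.r5_1010 + (-(31/4)*a^2*y - 31*a*y + (13/2)*y^2 -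
    31*y) * h.r3_2100 + ((1/2)*a*y + y) * h.r3_3010 + (-(3/2)*a - 3) * h.r3_1030 + ((23/8)*a^3 +
    (69/4)*a^2 + (11/4)*a*y + (69/2)*a + (11/2)*y + 23) * h.r3_1110 + (-(37/8)*a^3 - (111/4)*a^2
    - (25/4)*a*y - (111/2)*a - (25/2)*y - 37) * h.r3_2001 + (-(5/4)*a^3*y - (15/2)*a^2*y -
    (5/2)*a*y^2 - 15*a*y - 5*y^2 - 10*y) * h.r6_1000 + ((1/4)*a^3*y + (3/2)*a^2*y - (7/2)*a*y^2 +
    3*a*y - 7*y^2 + 2*y) * h.r5_0100 + (3*a^3*y + 18*a^2*y + 8*a*y^2 + 36*a*y + 16*y^2 + 24*y) *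
    h.r5_2000 + (-3*a*y^2 - 6*y^2) * h.n2 + ((1/4)*a^2 + a + 1) * h.r2_2001 + (-(1/4)*a^3 -
    (3/2)*a^2 + (1/2)*a*y - 3*a + y - 2) * h.r3_0101 + (-(1/4)*a^3 - (3/2)*a^2 + (1/2)*a*y - 3*a
    + y - 2) * h.r2_0200

theorem v1013 (h : L2 j a y) : j 1 0 1 3 = a*y^2 - y^2 := by
  linear_combination
    ((1/2)) * h.r1_1002 + (1) * h.r1_2011 + ((3/2)*y) * h.r1_5000 + (-(3/2)*a - 3) * h.r1_3001 +
    (-3*a^2 - 12*a - (3/2)*y - 12) * h.r2_4000 + (4*a^2 + 16*a + y + 16) * h.r2_2100 + (3*y^2) *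
    h.n1 + (-(1/2)*a - 1) * h.r2_2001 + (-2*a*y - 4*y) * h.n3 + (2*a + 4) * h.r2_3010 + ((1/2)*a
    + 1) * h.r1_1101 + (3*a^2 + 12*a - (3/2)*y + 12) * h.r1_3100 + (1) * h.r3_1030 + (-(3/2)) *
    h.r2_2020 + (-(1/2)*a - 1) * h.r1_2110 + ((1/2)) * h.r1_1120 + (-(1/2)*a - 1) * h.r2_1110 +
    (-a^2 - 4*a + (1/2)*y - 4) * h.r1_1200 + (-(5/2)*a^2 - 10*a + y - 10) * h.r3_1110 +
    ((9/2)*a^2 + 18*a + 2*y + 18) * h.r3_2001 + (-(5/2)*a*y - 5*y) * h.r3_4000 + (-2*y) *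
    h.r3_3010 + (a^2*y + 4*a*y + 4*y^2 + 4*y) * h.r6_1000 + (3*y^2) * h.r5_0100 + (-3*a^2*y -
    12*a*y - 6*y^2 - 12*y) * h.r5_2000 + (3*y^2) * h.n2 + (-3*a^3 - 18*a^2 - 5*a*y - 36*a - 10*y
    - 24) * h.r4_3000 + (-(3/2)*a - 3) * h.r3_2020 + (a*y + 2*y) * h.r5_0001 + (-a*y - 2*y) *
    h.r3_0200 + (a^3 + 6*a^2 + 5*a*y + 12*a + 10*y + 8) * h.r4_1100 + (2*a*y + 4*y) * h.r5_1010 +
    (6*a*y + 12*y) * h.r3_2100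

theorem v2003 (h : L2 j a y) : j 2 0 0 3 = y^2 := by
  linear_combination
    (1) * h.r2_2001 + (1) * h.r1_2110 + (y) * h.n3 + (-2) * h.r2_3010 + (1) * h.r1_3001 + (-3*a -
    6) * h.r1_3100 + (3*a + 6) * h.r2_4000 + (3*a^2 + 12*a + y + 12) * h.r4_3000 + (2*y) *
    h.r3_4000 + (-2*y) * h.r5_1010 + (-a^2 - 4*a - 2*y - 4) * h.r4_1100 + (-5*y) * h.r3_2100 +
    (-4*a - 8) * h.r3_2001 + (-4*a - 8) * h.r2_2100 + (-y) * h.r5_0001 + (y) * h.r3_0200 + (1) *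
    h.r3_2020 + (2*a + 4) * h.r3_1110 + (a + 2) * h.r1_1200 + (-a*y - 2*y) * h.r6_1000 + (3*a*y +
    6*y) * h.r5_2000

theorem v0004 (h : L2 j a y) : j 0 0 0 4 = a*y^2 - y^2 := by
  linear_combination
    (1) * h.r2_0002 + ((1/2)) * h.r1_0111 + ((1/2)) * h.r1_1120 + (2*a^2 + 8*a - y + 8) *
    h.r1_3100 + (-(3/8)*a - (3/4)) * h.r1_2110 + (-2*a^2 - 8*a - y - 8) * h.r2_4000 + (-a^2 - 4*a
    - 4) * h.r1_1200 + (y^2) * h.n1 + (-a*y - 2*y) * h.n3 + ((1/4)*a + (1/2)) * h.r1_0210 + (-1)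
    * h.r2_2020 + ((1/2)) * h.r1_2011 + (y) * h.r1_5000 + (-(7/8)*a - (7/4)) * h.r1_3001 + (3*a^2
    + 12*a + 12) * h.r2_2100 + (-(1/4)*a^2 - a - 1) * h.r2_0200 + (2*y^2) * h.n2 + (-(3/2)*y) *
    h.r3_3010 + ((23/8)*a^2 + (23/2)*a + 2*y + (23/2)) * h.r3_2001 + (-(11/8)*a*y - (11/4)*y) *
    h.r3_4000 + (-(3/4)*a - (3/2)) * h.r2_1110 + ((1/4)*a^2*y + a*y + 2*y^2 + y) * h.r5_0100 +
    (-2*a^2*y - 8*a*y - 3*y^2 - 8*y) * h.r5_2000 + (a^3 + 6*a^2 + (7/2)*a*y + 12*a + 7*y + 8) *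
    h.r4_1100 + (-2*a^3 - 12*a^2 - (13/4)*a*y - 24*a - (13/2)*y - 16) * h.r4_3000 + ((5/4)*a*y +
    (5/2)*y) * h.r5_1010 + ((13/4)*a*y + (13/2)*y) * h.r3_2100 + ((3/4)*a^2*y + 3*a*y + y^2 +
    3*y) * h.r6_1000 + (-(1/4)*a^2 - a - y - 1) * h.r3_0101 + (-(13/8)*a^2 - (13/2)*a + 2*y -
    (13/2)) * h.r3_1110 + ((1/2)) * h.r3_1030 + ((1/8)*a + (1/4)) * h.r1_1101 + ((5/4)*a + (5/2))
    * h.r2_3010 + (-(7/8)*a - (7/4)) * h.r3_2020 + ((1/2)*a*y + y) * h.r5_0001 + (-(1/2)*a*y - y)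
    * h.r3_0200

theorem v1150 (h : L2 j a y) : j 1 1 5 0 = -2*a^2*y^2 + 12*y^3 + 8*y^2 := by
  linear_combination
    (-4) * h.r2_1030 + (2) * h.r1_1021 + (4*y) * h.r1_4010 + (-3*a*y - 6*y) * h.r1_5000 +
    ((1/8)*a^2 + (1/2)*a - 6*y + (1/2)) * h.r1_2110 + (-(5/2)*a - 5) * h.r1_2011 + (-(1/2)*a - 1)
    * h.r1_1120 + (-5*a^3 - 30*a^2 - a*y - 60*a - 2*y - 40) * h.r1_3100 + ((21/8)*a^2 + (21/2)*a
    + y + (21/2)) * h.r1_3001 + ((21/8)*a^2 + (21/2)*a - 5*y + (21/2)) * h.r3_2020 + (-(11/4)*a^2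
    - 11*a - 2*y - 11) * h.r2_3010 + (5*a^3 + 30*a^2 + 8*a*y + 60*a + 16*y + 40) * h.r2_4000 +
    ((1/4)*a^2 + a + 6*y + 1) * h.r2_1110 + (-(3/8)*a^2 - (3/2)*a - 3*y - (3/2)) * h.r1_1101 +
    (3*a^2*y + 12*a*y + 12*y^2 + 12*y) * h.n3 + (2*a^3 + 12*a^2 + a*y + 24*a + 2*y + 16) *
    h.r1_1200 + (-2*a*y^2 - 4*y^2) * h.n1 + (2) * h.r3_0040 + (1) * h.r1_0130 + (-a - 2) *
    h.r2_0120 + ((1/2)*a + 1) * h.r1_0111 + ((1/4)*a^2 + a + 1) * h.r1_0210 + (3*a + 6) *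
    h.r2_2020 + (-7*a^3 - 42*a^2 - 7*a*y - 84*a - 14*y - 56) * h.r2_2100 + (-(5/2)*a^2*y - 10*a*y
    + 9*y^2 - 10*y) * h.r5_0001 + (5*a^4 + 40*a^3 + (51/4)*a^2*y + 120*a^2 + 51*a*y + 160*a +
    28*y^2 + 51*y + 80) * h.r4_3000 + ((41/8)*a^2*y + (41/2)*a*y - 20*y^2 + (41/2)*y) * h.r3_4000
    + ((5/2)*a^2*y + 10*a*y - 9*y^2 + 10*y) * h.r3_0200 + (-2*a^4 - 16*a^3 - (19/2)*a^2*y -
    48*a^2 - 38*a*y - 64*a - 35*y^2 - 38*y - 32) * h.r4_1100 + (-(11/4)*a^2*y - 11*a*y + 2*y^2 -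
    11*y) * h.r5_1010 + (-(51/4)*a^2*y - 51*a*y + 40*y^2 - 51*y) * h.r3_2100 + (-(1/2)*a*y - y) *
    h.r3_3010 + (-(5/2)*a - 5) * h.r3_1030 + ((39/8)*a^3 + (117/4)*a^2 + 5*a*y + (117/2)*a + 10*y
    + 39) * h.r3_1110 + (-(61/8)*a^3 - (183/4)*a^2 - 9*a*y - (183/2)*a - 18*y - 61) * h.r3_2001 +
    (-(9/4)*a^3*y - (27/2)*a^2*y - 2*a*y^2 - 27*a*y - 4*y^2 - 18*y) * h.r6_1000 + ((1/4)*a^3*y +
    (3/2)*a^2*y - 6*a*y^2 + 3*a*y - 12*y^2 + 2*y) * h.r5_0100 + (5*a^3*y + 30*a^2*y + 12*a*y^2 +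
    60*a*y + 24*y^2 + 40*y) * h.r5_2000 + (-5*a*y^2 - 10*y^2) * h.n2 + (-(1/4)*a^3 - (3/2)*a^2 +
    a*y - 3*a + 2*y - 2) * h.r3_0101 + (-(1/4)*a^3 - (3/2)*a^2 + a*y - 3*a + 2*y - 2) * h.r2_0200

theorem v2140 (h : L2 j a y) : j 2 1 4 0 = 5*a*y^2 + 4*y^2 := by
  linear_combination
    (-4) * h.r2_2020 + (2) * h.r1_2011 + (4*y) * h.r1_5000 + (5*a^2 + 20*a - 7*y + 20) *
    h.r1_3100 + (-(5/2)*a - 5) * h.r1_3001 + (-(1/2)*a - 1) * h.r1_2110 + (-(9/2)*a^2 - 18*a +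
    4*y - 18) * h.r3_1110 + ((15/2)*a^2 + 30*a + 30) * h.r3_2001 + (-5*a^2 - 20*a - 20) *
    h.r2_4000 + (7*a^2 + 28*a + 28) * h.r2_2100 + (12*y^2) * h.n1 + (-(9/2)*a*y - 9*y) *
    h.r3_4000 + (-2*a^2 - 8*a + 2*y - 8) * h.r1_1200 + (-4*a*y - 8*y) * h.n3 + (-6*y) * h.r3_3010
    + (2) * h.r3_1030 + (1) * h.r1_1120 + (-a - 2) * h.r2_1110 + ((1/2)*a + 1) * h.r1_1101 + (3*a
    + 6) * h.r2_3010 + (2*a^2*y + 8*a*y + 17*y^2 + 8*y) * h.r6_1000 + (9*y^2) * h.r5_0100 +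
    (-5*a^2*y - 20*a*y - 17*y^2 - 20*y) * h.r5_2000 + (9*y^2) * h.n2 + (-5*a^3 - 30*a^2 - 9*a*y -
    60*a - 18*y - 40) * h.r4_3000 + (3*a*y + 6*y) * h.r5_1010 + (2*a^3 + 12*a^2 + 10*a*y + 24*a +
    20*y + 16) * h.r4_1100 + (11*a*y + 22*y) * h.r3_2100 + (-(5/2)*a - 5) * h.r3_2020 + (2*a*y +
    4*y) * h.r5_0001 + (-2*a*y - 4*y) * h.r3_0200

theorem v3130 (h : L2 j a y) : j 3 1 3 0 = -4*y^2 := by
  linear_combination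
    (-4) * h.r2_3010 + (2) * h.r1_3001 + (-5*a - 10) * h.r1_3100 + (-5*y) * h.r5_0001 + (5*a^2 +
    20*a - 8*y + 20) * h.r4_3000 + (11*y) * h.r3_4000 + (-4*y) * h.n3 + (5*y) * h.r3_0200 +
    (-2*a^2 - 8*a + 11*y - 8) * h.r4_1100 + (-4*y) * h.r5_1010 + (-26*y) * h.r3_2100 + (5*a + 10)
    * h.r2_4000 + (2) * h.r3_2020 + (1) * h.r1_2110 + (4*a + 8) * h.r3_1110 + (-7*a - 14) *
    h.r3_2001 + (-7*a - 14) * h.r2_2100 + (2*a + 4) * h.r1_1200 + (-2*a*y - 4*y) * h.r6_1000 +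
    (5*a*y + 10*y) * h.r5_2000

theorem v4120 (h : L2 j a y) : j 4 1 2 0 = -a*y - 4*y := by
  linear_combination
    (5) * h.r1_3100 + (-4) * h.r3_1110 + (6) * h.r3_2001 + (-6) * h.r2_4000 + (6) * h.r2_2100 +
    (-4*y) * h.n1 + (-2) * h.r1_1200 + (-5*y) * h.r6_1000 + (-y) * h.r5_0100 + (-y) * h.r5_2000 +
    (-y) * h.n2 + (-5*a - 10) * h.r4_3000 + (2*a + 4) * h.r4_1100

theorem v5110 (h : L2 j a y) : j 5 1 1 0 = 4*y := by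
  linear_combination
    (-11) * h.r4_1100 + (4) * h.n3 + (10) * h.r4_3000 + (-5) * h.r3_4000 + (6) * h.r3_2100 + (1)
    * h.r5_0001 + (-1) * h.r3_0200

theorem v6100 (h : L2 j a y) : j 6 1 0 0 = 5*a + 4 := by
  linear_combination
    (5) * h.r5_0100 + (-9) * h.r5_2000 + (4) * h.n1 + (5) * h.n2 + (5) * h.r6_1000

theorem v0141 (h : L2 j a y) : j 0 1 4 1 = -a^2*y^2 + 5*y^3 + 4*y^2 := by
  linear_combination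
    (1) * h.r1_0130 + (-2) * h.r2_1030 + (1) * h.r1_1021 + (2*y) * h.r1_4010 + (-2*a*y - 4*y) *
    h.r1_5000 + ((1/8)*a^2 + (1/2)*a - 3*y + (1/2)) * h.r1_2110 + (-(3/2)*a - 3) * h.r1_2011 +
    (-3*a^3 - 18*a^2 - 36*a - 24) * h.r1_3100 + ((13/8)*a^2 + (13/2)*a + y + (13/2)) * h.r1_3001
    + (-(7/4)*a^2 - 7*a - 2*y - 7) * h.r2_3010 + ((1/4)*a^2 + a + 4*y + 1) * h.r2_1110 +
    (-(3/8)*a^2 - (3/2)*a - 2*y - (3/2)) * h.r1_1101 + (2*a^2*y + 8*a*y + 5*y^2 + 8*y) * h.n3 +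
    (a^3 + 6*a^2 + 12*a + 8) * h.r1_1200 + (-2*a*y^2 - 4*y^2) * h.n1 + (3*a^3 + 18*a^2 + 5*a*y +
    36*a + 10*y + 24) * h.r2_4000 + (-a - 2) * h.r2_0120 + ((1/2)*a + 1) * h.r1_0111 + ((1/4)*a^2
    + a + 1) * h.r1_0210 + (2*a + 4) * h.r2_2020 + ((13/8)*a^2 + (13/2)*a - 2*y + (13/2)) *
    h.r3_2020 + (1) * h.r3_0040 + (-(1/2)*a - 1) * h.r1_1120 + (-4*a^3 - 24*a^2 - 5*a*y - 48*a -
    10*y - 32) * h.r2_2100 + (-(3/2)*a^2*y - 6*a*y + 4*y^2 - 6*y) * h.r5_0001 + (3*a^4 + 24*a^3 +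
    (31/4)*a^2*y + 72*a^2 + 31*a*y + 96*a + 12*y^2 + 31*y + 48) * h.r4_3000 + ((25/8)*a^2*y +
    (25/2)*a*y - 8*y^2 + (25/2)*y) * h.r3_4000 + ((3/2)*a^2*y + 6*a*y - 4*y^2 + 6*y) * h.r3_0200
    + (-a^4 - 8*a^3 - (11/2)*a^2*y - 24*a^2 - 22*a*y - 32*a - 15*y^2 - 22*y - 16) * h.r4_1100 +
    (-(7/4)*a^2*y - 7*a*y - 7*y) * h.r5_1010 + (-(31/4)*a^2*y - 31*a*y + 16*y^2 - 31*y) *
    h.r3_2100 + ((1/2)*a*y + y) * h.r3_3010 + (-(3/2)*a - 3) * h.r3_1030 + ((23/8)*a^3 +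
    (69/4)*a^2 + 2*a*y + (69/2)*a + 4*y + 23) * h.r3_1110 + (-(37/8)*a^3 - (111/4)*a^2 - 6*a*y -
    (111/2)*a - 12*y - 37) * h.r3_2001 + (-(5/4)*a^3*y - (15/2)*a^2*y - 2*a*y^2 - 15*a*y - 4*y^2
    - 10*y) * h.r6_1000 + ((1/4)*a^3*y + (3/2)*a^2*y - 4*a*y^2 + 3*a*y - 8*y^2 + 2*y) * h.r5_0100
    + (3*a^3*y + 18*a^2*y + 8*a*y^2 + 36*a*y + 16*y^2 + 24*y) * h.r5_2000 + (-3*a*y^2 - 6*y^2) *
    h.n2 + (-(1/4)*a^3 - (3/2)*a^2 + a*y - 3*a + 2*y - 2) * h.r3_0101 + (-(1/4)*a^3 - (3/2)*a^2 +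
    a*y - 3*a + 2*y - 2) * h.r2_0200

theorem v1131 (h : L2 j a y) : j 1 1 3 1 = 2*a*y^2 + y^2 := by
  linear_combination
    (1) * h.r1_1120 + (-2) * h.r2_2020 + (1) * h.r1_2011 + (2*y) * h.r1_5000 + (3*a^2 + 12*a -
    3*y + 12) * h.r1_3100 + (-(3/2)*a - 3) * h.r1_3001 + (-3*y) * h.r3_3010 + ((9/2)*a^2 + 18*a +
    y + 18) * h.r3_2001 + (-3*a^2 - 12*a - y - 12) * h.r2_4000 + (4*a^2 + 16*a + y + 16) *
    h.r2_2100 + (5*y^2) * h.n1 + (-(5/2)*a*y - 5*y) * h.r3_4000 + (-a - 2) * h.r2_1110 + ((1/2)*a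
    + 1) * h.r1_1101 + (-2*a*y - 4*y) * h.n3 + (-a^2 - 4*a + y - 4) * h.r1_1200 + (2*a + 4) *
    h.r2_3010 + (1) * h.r3_1030 + (-(1/2)*a - 1) * h.r1_2110 + (a^2*y + 4*a*y + 7*y^2 + 4*y) *
    h.r6_1000 + (4*y^2) * h.r5_0100 + (-3*a^2*y - 12*a*y - 8*y^2 - 12*y) * h.r5_2000 + (4*y^2) *
    h.n2 + (-3*a^3 - 18*a^2 - 5*a*y - 36*a - 10*y - 24) * h.r4_3000 + (-(3/2)*a - 3) * h.r3_2020
    + (a*y + 2*y) * h.r5_0001 + (-a*y - 2*y) * h.r3_0200 + (a^3 + 6*a^2 + 5*a*y + 12*a + 10*y +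
    8) * h.r4_1100 + (2*a*y + 4*y) * h.r5_1010 + (6*a*y + 12*y) * h.r3_2100 + (-(5/2)*a^2 - 10*a
    + 2*y - 10) * h.r3_1110

theorem v2121 (h : L2 j a y) : j 2 1 2 1 = -y^2 := by
  linear_combination
    (1) * h.r1_2110 + (-2) * h.r2_3010 + (1) * h.r1_3001 + (-3*a - 6) * h.r1_3100 + (-2*y) *
    h.r5_1010 + (-a^2 - 4*a + 3*y - 4) * h.r4_1100 + (-y) * h.n3 + (3*a^2 + 12*a - 2*y + 12) *
    h.r4_3000 + (4*y) * h.r3_4000 + (-10*y) * h.r3_2100 + (-4*a - 8) * h.r3_2001 + (3*a + 6) *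
    h.r2_4000 + (-4*a - 8) * h.r2_2100 + (-2*y) * h.r5_0001 + (2*y) * h.r3_0200 + (1) * h.r3_2020
    + (2*a + 4) * h.r3_1110 + (a + 2) * h.r1_1200 + (-a*y - 2*y) * h.r6_1000 + (3*a*y + 6*y) *
    h.r5_2000

theorem v3111 (h : L2 j a y) : j 3 1 1 1 = -y := by
  linear_combination
    (3) * h.r1_3100 + (-2*y) * h.r5_2000 + (-y) * h.n1 + (a + 2) * h.r4_1100 + (-3*a - 6) *
    h.r4_3000 + (-2) * h.r3_1110 + (3) * h.r3_2001 + (-3) * h.r2_4000 + (3) * h.r2_2100 + (-1) *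
    h.r1_1200 + (-y) * h.r6_1000

theorem v4101 (h : L2 j a y) : j 4 1 0 1 = y := by
  linear_combination
    (4) * h.r4_3000 + (-3) * h.r4_1100 + (1) * h.n3 + (-1) * h.r3_4000

theorem v0122 (h : L2 j a y) : j 0 1 2 2 = a*y^2 := by
  linear_combination
    ((1/2)) * h.r1_0111 + ((1/2)) * h.r1_1120 + (2*a^2 + 8*a - y + 8) * h.r1_3100 + (-(3/8)*a -
    (3/4)) * h.r1_2110 + (-a^2 - 4*a - 4) * h.r1_1200 + (2*y^2) * h.n1 + (-a*y - 2*y) * h.n3 +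
    ((1/4)*a + (1/2)) * h.r1_0210 + (-1) * h.r2_2020 + ((1/2)) * h.r1_2011 + (y) * h.r1_5000 +
    (-(3/2)*y) * h.r3_3010 + ((23/8)*a^2 + (23/2)*a + y + (23/2)) * h.r3_2001 + (-2*a^2 - 8*a - y
    - 8) * h.r2_4000 + (3*a^2 + 12*a + y + 12) * h.r2_2100 + (-(11/8)*a*y - (11/4)*y) * h.r3_4000
    + (-(3/4)*a - (3/2)) * h.r2_1110 + ((1/4)*a^2*y + a*y + 2*y^2 + y) * h.r5_0100 + (-2*a^2*y -
    8*a*y - 4*y^2 - 8*y) * h.r5_2000 + (2*y^2) * h.n2 + (a^3 + 6*a^2 + (7/2)*a*y + 12*a + 7*y +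
    8) * h.r4_1100 + (-2*a^3 - 12*a^2 - (13/4)*a*y - 24*a - (13/2)*y - 16) * h.r4_3000 +
    (-(7/8)*a - (7/4)) * h.r1_3001 + ((5/4)*a*y + (5/2)*y) * h.r5_1010 + ((13/4)*a*y + (13/2)*y)
    * h.r3_2100 + ((3/4)*a^2*y + 3*a*y + 3*y^2 + 3*y) * h.r6_1000 + (-(1/4)*a^2 - a - 1) *
    h.r3_0101 + (-(1/4)*a^2 - a - 1) * h.r2_0200 + (-(13/8)*a^2 - (13/2)*a + y - (13/2)) *
    h.r3_1110 + ((1/2)) * h.r3_1030 + ((1/8)*a + (1/4)) * h.r1_1101 + ((5/4)*a + (5/2)) *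
    h.r2_3010 + (-(7/8)*a - (7/4)) * h.r3_2020 + ((1/2)*a*y + y) * h.r5_0001 + (-(1/2)*a*y - y) *
    h.r3_0200

theorem v1112 (h : L2 j a y) : j 1 1 1 2 = 0 := by
  linear_combination
    ((1/2)) * h.r1_1101 + ((1/2)) * h.r1_2110 + ((3/2)*y) * h.r3_4000 + (-3*a - 6) * h.r2_2100 +
    (a + 2) * h.r1_1200 + (-1) * h.r2_3010 + ((1/2)) * h.r1_3001 + (-y) * h.r5_1010 + (-a^2 - 4*a
    - 4) * h.r4_1100 + (2*a^2 + 8*a + 8) * h.r4_3000 + (-4*y) * h.r3_2100 + (2*a*y + 4*y) *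
    h.r5_2000 + (-a*y - 2*y) * h.r6_1000 + (-y) * h.r5_0001 + (y) * h.r3_0200 + (2*a + 4) *
    h.r2_4000 + ((1/2)) * h.r3_2020 + (-(5/2)*a - 5) * h.r3_2001 + ((3/2)*a + 3) * h.r3_1110 +
    (-2*a - 4) * h.r1_3100

theorem v2102 (h : L2 j a y) : j 2 1 0 2 = 0 := by
  linear_combination
    (2) * h.r3_2001 + (-2) * h.r2_4000 + (2) * h.r1_3100 + (-2*y) * h.r5_2000 + (y) * h.r6_1000 +
    (a + 2) * h.r4_1100 + (-2*a - 4) * h.r4_3000 + (-2) * h.r3_1110 + (3) * h.r2_2100 + (-1) *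
    h.r1_1200

theorem v0103 (h : L2 j a y) : j 0 1 0 3 = y^2 := by
  linear_combination
    (1) * h.r2_0101 + ((1/2)) * h.r1_0210 + (y) * h.n3 + (-(1/2)) * h.r2_1110 + ((1/4)) *
    h.r1_1101 + ((1/4)) * h.r1_2110 + (-a - 2) * h.r1_3100 + (-(1/2)) * h.r2_3010 + ((1/4)) *
    h.r1_3001 + (a + 2) * h.r2_4000 + (-a - 2) * h.r2_2100 + ((1/4)*y) * h.r3_4000 + (-y) *
    h.r4_1100 + (a^2 + 4*a + (1/2)*y + 4) * h.r4_3000 + (-(1/2)*y) * h.r3_2100 + (-(1/2)*a - 1) *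
    h.r3_0101 + (-(1/2)*a - 1) * h.r2_0200 + (-(5/4)*a - (5/2)) * h.r3_2001 + ((3/4)*a + (3/2)) *
    h.r3_1110 + ((1/2)*a*y + y) * h.r5_0100 + (a*y + 2*y) * h.r5_2000 + (-(1/2)*a*y - y) *
    h.r6_1000 + (-y) * h.r5_0001 + (-(1/2)*y) * h.r5_1010 + ((1/4)) * h.r3_2020

theorem v0240 (h : L2 j a y) : j 0 2 4 0 = 2*a*y^2 + y^2 := by
  linear_combination
    (-1) * h.r2_0120 + ((1/2)) * h.r1_0111 + ((1/2)) * h.r1_1120 + (2*a^2 + 8*a - y + 8) *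
    h.r1_3100 + (-(3/8)*a - (3/4)) * h.r1_2110 + (-a^2 - 4*a - 4) * h.r1_1200 + (3*y^2) * h.n1 +
    (-a*y - 2*y) * h.n3 + ((1/4)*a + (1/2)) * h.r1_0210 + (-1) * h.r2_2020 + ((1/2)) * h.r1_2011
    + (y) * h.r1_5000 + (-(7/8)*a - (7/4)) * h.r1_3001 + (-2*a^2 - 8*a - 8) * h.r2_4000 +
    ((23/8)*a^2 + (23/2)*a + (23/2)) * h.r3_2001 + (3*a^2 + 12*a - y + 12) * h.r2_2100 +
    (-(3/2)*y) * h.r3_3010 + (-(11/8)*a*y - (11/4)*y) * h.r3_4000 + (-(1/4)*a^2 - a + y - 1) *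
    h.r3_0101 + (-(1/4)*a^2 - a + y - 1) * h.r2_0200 + (3*y^2) * h.n2 + (-(13/8)*a^2 - (13/2)*a -
    (13/2)) * h.r3_1110 + (-(3/4)*a - (3/2)) * h.r2_1110 + ((1/4)*a^2*y + a*y + 2*y^2 + y) *
    h.r5_0100 + (-2*a^2*y - 8*a*y - 5*y^2 - 8*y) * h.r5_2000 + (a^3 + 6*a^2 + (7/2)*a*y + 12*a +
    7*y + 8) * h.r4_1100 + (-2*a^3 - 12*a^2 - (13/4)*a*y - 24*a - (13/2)*y - 16) * h.r4_3000 +
    ((5/4)*a*y + (5/2)*y) * h.r5_1010 + ((13/4)*a*y + (13/2)*y) * h.r3_2100 + ((3/4)*a^2*y +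
    3*a*y + 5*y^2 + 3*y) * h.r6_1000 + ((1/2)) * h.r3_1030 + ((1/8)*a + (1/4)) * h.r1_1101 +
    ((5/4)*a + (5/2)) * h.r2_3010 + (-(7/8)*a - (7/4)) * h.r3_2020 + ((1/2)*a*y + y) * h.r5_0001
    + (-(1/2)*a*y - y) * h.r3_0200

theorem v1230 (h : L2 j a y) : j 1 2 3 0 = -y^2 := by
  linear_combination
    (-1) * h.r2_1110 + ((1/2)) * h.r1_1101 + ((1/2)) * h.r1_2110 + (-y) * h.n3 + (a + 2) *
    h.r1_1200 + (-1) * h.r2_3010 + ((1/2)) * h.r1_3001 + (2*a + 4) * h.r2_4000 + (-y) * h.r5_1010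
    + (-a^2 - 4*a + 3*y - 4) * h.r4_1100 + (2*a^2 + 8*a - 2*y + 8) * h.r4_3000 + ((7/2)*y) *
    h.r3_4000 + (-9*y) * h.r3_2100 + (-3*a - 6) * h.r2_2100 + (2*a*y + 4*y) * h.r5_2000 + (-a*y -
    2*y) * h.r6_1000 + (-2*y) * h.r5_0001 + (2*y) * h.r3_0200 + ((1/2)) * h.r3_2020 + (-(5/2)*a -
    5) * h.r3_2001 + ((3/2)*a + 3) * h.r3_1110 + (-2*a - 4) * h.r1_3100

theorem v2220 (h : L2 j a y) : j 2 2 2 0 = -y := by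
  linear_combination
    (2) * h.r3_2001 + (-2) * h.r2_4000 + (2) * h.r1_3100 + (2) * h.r2_2100 + (-y) * h.n1 + (-y) *
    h.r6_1000 + (-y) * h.r5_2000 + (a + 2) * h.r4_1100 + (-2*a - 4) * h.r4_3000 + (-2) *
    h.r3_1110 + (-1) * h.r1_1200

theorem v3210 (h : L2 j a y) : j 3 2 1 0 = y := by
  linear_combination
    (-3) * h.r4_1100 + (1) * h.n3 + (3) * h.r4_3000 + (-1) * h.r3_4000

theorem v4200 (h : L2 j a y) : j 4 2 0 0 = 2*a + 1 := by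
  linear_combination
    (-3) * h.r5_2000 + (1) * h.n1 + (1) * h.r6_1000 + (2) * h.r5_0100 + (2) * h.n2

theorem v0221 (h : L2 j a y) : j 0 2 2 1 = 0 := by
  linear_combination
    ((1/2)) * h.r1_0210 + (-(1/2)) * h.r2_1110 + ((1/4)) * h.r1_1101 + ((1/4)) * h.r1_2110 + (-a
    - 2) * h.r1_3100 + (-(1/2)) * h.r2_3010 + ((1/4)) * h.r1_3001 + (a + 2) * h.r2_4000 + (y) *
    h.r4_1100 + (a^2 + 4*a - (1/2)*y + 4) * h.r4_3000 + ((5/4)*y) * h.r3_4000 + (-(7/2)*y) *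
    h.r3_2100 + (-(1/2)*a - 1) * h.r3_0101 + (-a - 2) * h.r2_2100 + (-(1/2)*a - 1) * h.r2_0200 +
    (-(5/4)*a - (5/2)) * h.r3_2001 + ((3/4)*a + (3/2)) * h.r3_1110 + (-(1/2)*y) * h.r5_1010 +
    ((1/2)*a*y + y) * h.r5_0100 + (a*y + 2*y) * h.r5_2000 + (-(1/2)*a*y - y) * h.r6_1000 + (-y) *
    h.r5_0001 + (y) * h.r3_0200 + ((1/4)) * h.r3_2020

theorem v1211 (h : L2 j a y) : j 1 2 1 1 = 0 := by
  linear_combination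
    (1) * h.r3_2001 + (-1) * h.r2_4000 + (1) * h.r1_3100 + (1) * h.r2_2100 + (-y) * h.r5_2000 +
    (-a - 2) * h.r4_3000 + (-1) * h.r3_1110

theorem v2201 (h : L2 j a y) : j 2 2 0 1 = 0 := by
  linear_combination
    (1) * h.r4_3000 + (-1) * h.r3_2100

theorem v0202 (h : L2 j a y) : j 0 2 0 2 = 0 := by
  linear_combination
    (-1) * h.r3_0101 + (2) * h.r2_2100 + (-1) * h.r1_1200 + (1) * h.r3_2001 + (-1) * h.r2_4000 +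
    (1) * h.r1_3100 + (-1) * h.r3_1110 + (-y) * h.r5_2000 + (y) * h.r6_1000 + (a + 2) * h.r4_1100
    + (-a - 2) * h.r4_3000

theorem v0320 (h : L2 j a y) : j 0 3 2 0 = 0 := by
  linear_combination
    (-1) * h.r3_0101 + (2) * h.r2_2100 + (-1) * h.r1_1200 + (-1) * h.r2_0200 + (1) * h.r3_2001 +
    (-1) * h.r2_4000 + (1) * h.r1_3100 + (-1) * h.r3_1110 + (-y) * h.r5_2000 + (y) * h.r5_0100 +
    (a + 2) * h.r4_1100 + (-a - 2) * h.r4_3000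

theorem v1310 (h : L2 j a y) : j 1 3 1 0 = 0 := by
  linear_combination
    (-1) * h.r3_2100 + (-1) * h.r4_1100 + (1) * h.r4_3000

theorem v2300 (h : L2 j a y) : j 2 3 0 0 = a := by
  linear_combination
    (1) * h.r5_0100 + (-1) * h.r5_2000 + (1) * h.n2

theorem v0301 (h : L2 j a y) : j 0 3 0 1 = 0 := by
  linear_combination
    (-1) * h.r3_0200 + (1) * h.r4_1100

theorem v0400 (h : L2 j a y) : j 0 4 0 0 = a - 1 := by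
  linear_combination
    (1) * h.n2 + (-1) * h.n1

end Tab2

open Tab2 in
/-- the table -/
theorem tab2 {R : Type} [CommRing R] [Algebra ℝ R] {J : R →ₗ[ℝ] ℝ} {A e t r : R} {a y : ℝ}
    (h : R2 J A e t r a y) : T2 (fun i j k l => J (Mn A e t r i j k l)) a y :=
  ⟨v3050 (l2 h), v4040 (l2 h), v5030 (l2 h), v6020 (l2 h), v7010 (l2 h), v8000 (l2 h), v2041 (l2
  h), v3031 (l2 h), v4021 (l2 h), v5011 (l2 h), v6001 (l2 h), v1032 (l2 h), v2022 (l2 h), v3012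
  (l2 h), v4002 (l2 h), v0023 (l2 h), v1013 (l2 h), v2003 (l2 h), v0004 (l2 h), v1150 (l2 h),
  v2140 (l2 h), v3130 (l2 h), v4120 (l2 h), v5110 (l2 h), v6100 (l2 h), v0141 (l2 h), v1131 (l2
  h), v2121 (l2 h), v3111 (l2 h), v4101 (l2 h), v0122 (l2 h), v1112 (l2 h), v2102 (l2 h), v0103
  (l2 h), v0240 (l2 h), v1230 (l2 h), v2220 (l2 h), v3210 (l2 h), v4200 (l2 h), v0221 (l2 h),
  v1211 (l2 h), v2201 (l2 h), v0202 (l2 h), v0320 (l2 h), v1310 (l2 h), v2300 (l2 h), v0301 (l2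
  h), v0400 (l2 h)⟩

end Vale.Agent.P280Z.Al
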