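import Vale.Agent.P280Z.Al.Top
import Vale.Agent.P280Z.Al.Hz
import Vale.Agent.P280Z.Ma.Ex

/-!
# P280Z, block Al: the numbers of the family, by three inequalities
-/

open scoped Manifold ContDiff Topology
open Set Filter PowerSeries
open Vale.Agent.P272.K Vale.Agent.P285.H281.FD Vale.Agent.P281Z
open Vale.Agent.P277Z.Slc (lin isLB_can)
open Vale.Agent.P280Z.Mp (Eqs)
open Vale.Agent.P280Z.Ma
open Vale.Agent.P280Z.Hr (tdx coeff_td)

noncomputable section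

namespace Vale.Agent.P280Z.Al

theorem al_of2 (hI : HIX) (c : ∀ {A B : Type} [CommRing A] [Algebra ℝ A] [CommRing B] [Algebra ℝ B]
    (S : NS A B), S.OK 6 3 → S.Ex 6 8 → S.HZ (S.T (S.es (S.Sg (S.η ^ 6)))) → rrX S 0 = 1 →
      (∃ n : ℕ, rrX S 5 = n) → ∃ D, Out S D)
    (hR : Gm.RT) (hC : Gm.COV) : Gm.AL := by
  intro T N r d δ V P pt F E h hH
  have hT := h.ok
  have hO := h.ns
  have sp : Sub 9 8 F.p := ⟨F.p_hol, F.p_sbm⟩
  have se : Sub 9 6 F.e := ⟨F.e_hol, F.e_sbm⟩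
  obtain ⟨o1, o2, -⟩ := o1p V P pt h.hyp.cone
  have d0 : (0 : ℝ) < d := by exact_mod_cast h.hyp.pos
  set η : T.H V := (d : ℝ)⁻¹ • T.c1 V (O1 P pt) with hη
  have kη : T.Kc V η := hT.po.smul _ (inv_pos.2 d0) (hT.c1.pos V _ o1 o2)
  have nη : T.Nn V η := hT.po.mono kη fun _ => le_top
  have can : T.c1 V (Bd.can 6 V.X) = (-5 : ℝ) • η := by
    have := hO.c1
    change T.ps V (VB.tan 6 V.X) 1 = _ • η at this
    rw [hT.ch.tan, neg_eq_iff_eq_neg] at this
    rw [this, ← neg_smul]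
    norm_num
  have fa : Gm.Fa T V := by
    rw [Gm.Fa, can, ← neg_smul]
    exact hT.po.smul _ (by norm_num) kη
  have cX := h.fano.1
  have cU := h.cU
  have wS : ∀ k, (Cv.nsF T F E).T ((Cv.nsF T F E).es (η ^ k)) ∈ T.Wp F.U := fun k =>
    hT.po.wp_pull F.p_hol (hT.po.wp_push sp (hT.po.wp_pull F.e_hol
      (mul_one (η ^ k) ▸ wp_pow hT nη (hT.po.wp_one V) k)))
  have rr : ∀ k : ℝ, T.RR V (k • η) = rrX (Cv.nsF T F E) k := fun k => by
    rw [CT.RR, coeff_td _ _ (by norm_num)]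
    rfl
  have hL := lei _ 6 3 hO.toOK0
  have nb : T.Nn F.U ((Cv.nsF T F E).T ((Cv.nsF T F E).es ((Cv.nsF T F E).Sg (η ^ 6)))) :=
    hT.po.wp_nn (hT.po.wp_pull F.p_hol (hT.po.wp_push sp (hT.po.wp_pull F.e_hol
      (hT.po.wp_push se (wS 6)))))
      (hL.dT 1 _ (hL.de 2 _ (X4a.dg_Sg hL (elr _ hO hL).1 (X4a.dη hO 6))))
  obtain ⟨D, hD⟩ := c _ hO (ex_of hT F h.hyp E cU hO.toOK0) (hz_of hI hT sp se h.kU cU
    (Cv.CmpH.fib F h.hyp.pos) (hC T hT hH _ _ _ se cU cX fa) nη _ E (Rh.nn_ty hT nb) (hT.po.deg nb))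
    (by rw [← rr, zero_smul, (hR T hT hH).1 V cX fa]) (by
      have lM : IsLB 6 (lin (fun _ : Unit => Bd.can 6 V.X) fun _ => -1) :=
        Co.C1H.lb_lin (fun _ => isLB_can) _
      have cM : T.c1 V (lin (fun _ : Unit => Bd.can 6 V.X) fun _ => -1) = (5 : ℝ) • η := by
        rw [hT.c1.lin V _ _ fun _ => isLB_can, Fintype.sum_unique, can, smul_smul]
        norm_num
      refine ⟨_, (rr 5).symm.trans (cM ▸ (hH V _ lM ?_).symm)⟩
      rw [Ld.Ap, cM, can, ← sub_smul]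
      exact hT.po.smul _ (by norm_num) kη)
  obtain ⟨x⟩ : Nonempty V.X := inferInstance
  obtain ⟨⟨Z, i, hi⟩, hI⟩ := Gm.fibi T hT F.e x h.dim se
  have cZ := hi.conn.2 (hC T hT hH _ _ _ se cU cX fa x)
  have fZ : Gm.Fa T Z := by
    have e1 := hD.c1
    change T.ps F.U E 1 = (2 : ℝ) • (-T.c1 F.U (Tb F)) + T.pull F.e_hol η + _ at e1
    rw [Gm.Fa, ← hT.ch.tan, ps_fib hT se h.dim h.rel hi 0, zero_add, e1, map_add, map_add,
      pull_fib hT F.e_hol hi (hT.po.deg kη), add_zero, map_smul]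
    exact kc_add hT (hT.po.smul _ two_pos (h.tau Z i x hi))
      (nn_pull hT hi.hol (hT.po.smul _ (div_pos three_pos (mul_pos (by norm_num) hD.pos)) nb))
  have r1 := (hR T hT hH).1 Z cZ fZ
  have e3 := hI Z i hi _ _ (hD.td 0 0 0)
  rw [CT.RR, coeff_td _ _ (by norm_num), ps_fib hT se h.dim h.rel hi 0,
    ps_fib hT se h.dim h.rel hi 1] at r1
  simp only [tdx, map_add, map_smul, map_mul, map_pow, map_zero] at r1 e3
  have D3 : D = 3 := by
    have : D / 3 = 1 := e3.symm.trans r1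
    linarith
  have cK : ConnectedSpace F.K.X := by
    refine Function.Surjective.connectedSpace (f := F.p) (fun y => ?_) F.p_hol.continuous
    exact (Cv.CmpH.fib F h.hyp.pos y).1
  refine ⟨sp, se, cX, inferInstance, fun l => (Cv.CmpH.fib F h.hyp.pos l).2, kη, can,
    fun L _ => hO.b2 _ (hT.c1.deg V L), hD.vol, ?_, ?_⟩
  · obtain ⟨z, hz⟩ := hT.rg.h0 F.K inferInstance (T.push F.p (T.pull se.hol η)) (by
      have := hT.pu.deg sp 1 rfl 0 (T.pull se.hol η)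
      rwa [dg_pull hT se.hol (hT.po.deg kη)] at this)
    have e1 := hO.Tη
    change T.pull F.p_hol (T.push F.p (T.pull se.hol η)) = 1 at e1
    obtain ⟨w, hw⟩ := (hT.po.kah _).1 h.kU
    have e2 := congrArg (fun b => T.int F.U (b * w ^ 9)) e1
    simp only [hz, AlgHom.commutes, ← Algebra.smul_def, map_smul, one_mul, smul_eq_mul] at e2
    rw [hz, (mul_eq_right₀ (kc_vol hT hw (Classical.arbitrary _)).ne').1 e2, map_one]
  · have := hD.s5
    rw [D3, show (5 / 3 * 3 : ℝ) = 5 by norm_num] at this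
    exact this

end Vale.Agent.P280Z.Al
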