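import Mathlib.RingTheory.Valuation.LocalSubring
import Mathlib.Algebra.TrivSqZeroExt.Basic
import Mathlib.Analysis.Complex.Polynomial.Basic

/-!
# P280Z, block Al: reduction of complex solutions to characteristic `p`
-/

open IsLocalRing

noncomputable section

namespace Vale.Agent.P280Z.Al.Val

/-- a polynomial expression, given by its values in all commutative rings -/
structure Px (ι : Type) : Type 1 where
  ev : ∀ (R : Type) [CommRing R], (ι → R) → R
  nat : ∀ (R S : Type) [CommRing R] [CommRing S] (φ : R →+* S) (x : ι → R),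
    φ (ev R x) = ev S fun i => φ (x i)

/-- a valuation ring of the complex numbers with residue characteristic `p` -/
theorem red {p : ℕ} (hp : p.Prime) : ∃ V : ValuationSubring ℂ, (p : ResidueField V) = 0 := by
  obtain ⟨V, -, h⟩ := Ideal.image_subset_nonunits_valuationSubring
    (A := (⊥ : Subring ℂ)) (Ideal.span {(p : (⊥ : Subring ℂ))}) (by
      rw [Ne, Ideal.span_singleton_eq_top, isUnit_iff_exists_inv]
      rintro ⟨⟨b, n, rfl⟩, h⟩
      have h1 : (p : ℤ) * n = 1 := by
        have := congrArg Subtype.val h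
        simp only [Subring.coe_mul, Subring.coe_natCast, eq_intCast, Subring.coe_one] at this
        exact_mod_cast this
      have h2 := Int.natAbs_eq_iff.2 (Int.eq_one_or_neg_one_of_mul_eq_one h1)
      exact hp.one_lt.ne' (by simpa using h2))
  refine ⟨V, ?_⟩
  have h1 : ((p : V) : ℂ) ∈ V.nonunits := h ⟨_, Ideal.mem_span_singleton_self _, by simp⟩
  rw [← map_natCast (residue V), residue_eq_zero_iff]
  exact ValuationSubring.coe_mem_nonunits_iff.1 h1

variable {ι κ : Type} (V : ValuationSubring ℂ)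

theorem big [Finite ι] (y : ι → ℂ) (hy : ∃ i, y i ≠ 0) :
    ∃ i, y i ≠ 0 ∧ ∀ j, (y i)⁻¹ * y j ∈ V := by
  obtain ⟨i₀, h⟩ := hy
  have : Nonempty ι := ⟨i₀⟩
  obtain ⟨i, hi⟩ := Finite.exists_max fun j => V.valuation (y j)
  have h0 : V.valuation (y i) ≠ 0 := fun q => h (by simpa [q] using hi i₀)
  refine ⟨i, by simpa using h0, fun j => (V.valuation_le_one_iff _).1 ?_⟩
  rw [map_mul, map_inv₀, inv_mul_le_one₀ (zero_lt_iff.2 h0)]
  exact hi j

/-- weighted scaling: all coordinates in `V`, one of them equal to one -/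
theorem scale [Finite ι] (w : ι → ℕ) (hw : ∀ i, 0 < w i) (x : ι → ℂ) (hx : ∃ i, x i ≠ 0) :
    ∃ (l : ℂ) (y : ι → V), l ≠ 0 ∧ (∀ i, (y i : ℂ) = l ^ w i * x i) ∧ ∃ i, y i = 1 := by
  choose r hr using fun i => IsAlgClosed.exists_pow_nat_eq (x i) (hw i)
  obtain ⟨i, h1, h2⟩ := big V r (hx.imp fun i h q => h (by rw [← hr, q, zero_pow (hw i).ne']))
  refine ⟨(r i)⁻¹, fun j => (⟨_, h2 j⟩ : V) ^ w j, inv_ne_zero h1, fun j => ?_, i, ?_⟩
  · simp [mul_pow, hr]
  · exact Subtype.ext (by simp [h1])

/-- an equation between elements of `V` -/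
theorem Px.up (F : Px ι) (y : ι → V) (h : F.ev ℂ (fun i => y i) = 0) : F.ev V y = 0 :=
  Subtype.ext ((F.nat V ℂ V.subtype y).trans h)

/-- reduction of an equation -/
theorem Px.down (F : Px ι) (y : ι → V) (h : F.ev ℂ (fun i => y i) = 0) :
    F.ev (ResidueField V) (fun i => residue V (y i)) = 0 := by
  rw [← F.nat, F.up V y h, map_zero]

open Polynomial in
/-- uniqueness in Hensel's lemma -/
theorem hens [Finite ι] (F : κ → Px ι) (z z' : ι → V)
    (h : ∀ i, residue V (z i) = residue V (z' i)) (hF : ∀ j, (F j).ev V z = (F j).ev V z')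
    (tan : ∀ (S : Type) [CommRing S] (φ : ResidueField V →+* S) (y : ι → S),
      (∀ a b, y a * y b = 0) → (∀ j, (F j).ev S (fun i => φ (residue V (z' i)) + y i) =
        (F j).ev S fun i => φ (residue V (z' i))) → ∀ i, y i = 0) : z = z' := by
  by_contra ne
  obtain ⟨i, h1, h2⟩ := big V (fun i => (z i - z' i : V)) (by
    obtain ⟨i, hi⟩ := Function.ne_iff.1 ne
    exact ⟨i, fun q => hi (sub_eq_zero.1 (Subtype.ext q))⟩)
  let c : V := z i - z' i
  let e : ι → V := fun j => ⟨_, h2 j⟩
  have c0 : c ≠ 0 := fun q => h1 (congrArg Subtype.val q)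
  have he : ∀ j, z j = z' j + c * e j := fun j => by
    rw [← sub_eq_iff_eq_add']
    exact Subtype.ext (mul_inv_cancel_left₀ h1 _).symm
  have e1 : e i = 1 := Subtype.ext (inv_mul_cancel₀ h1)
  have cm : residue V c = 0 := by rw [map_sub, h, sub_self]
  let S := TrivSqZeroExt (ResidueField V) (ResidueField V)
  let φ : ResidueField V →+* S := algebraMap _ _
  let ε : S := TrivSqZeroExt.inr 1
  have ε2 : ε * ε = 0 := TrivSqZeroExt.inr_mul_inr _ _ _
  have := tan S φ (fun j => ε * φ (residue V (e j))) (fun a b => by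
    rw [mul_mul_mul_comm, ε2, zero_mul]) (fun j => by
      let P : V[X] := (F j).ev V[X] fun a => C (z' a) + X * C (e a)
      have k : ∀ (T : Type) [CommRing T] (ψ : V →+* T) (t : T), eval₂ ψ t P =
          (F j).ev T fun a => ψ (z' a) + t * ψ (e a) := fun T _ ψ t =>
        ((F j).nat _ _ (eval₂RingHom ψ t) _).trans (by
          simp only [coe_eval₂RingHom, eval₂_add, eval₂_mul, eval₂_C, eval₂_X])
      have k1 : ∀ (T : Type) [CommRing T] (ψ : V →+* T) (t : T),
          eval₂ ψ t P = t * eval₂ ψ t P.divX + ψ ((F j).ev V z') := fun T _ ψ t => by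
        have := k V (RingHom.id V) 0
        simp only [eval₂_at_zero, RingHom.id_apply, zero_mul, add_zero] at this
        conv_lhs => rw [← X_mul_divX_add P, eval₂_add, eval₂_X_mul, eval₂_C, this, mul_comm]
      have k2 : eval₂ (RingHom.id V) c P.divX = 0 := by
        have := (k1 V (RingHom.id V) c).symm.trans (k V (RingHom.id V) c)
        simp only [RingHom.id_apply, ← he, hF, add_eq_right] at this
        exact (mul_eq_zero.1 this).resolve_left c0
      have k3 : residue V (P.divX.coeff 0) = 0 := by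
        have := congrArg (residue V) k2
        rwa [hom_eval₂, cm, eval₂_at_zero, map_zero] at this
      have k4 := (k S (φ.comp (residue V)) ε).symm.trans (k1 S (φ.comp (residue V)) ε)
      rw [← X_mul_divX_add P.divX, eval₂_add, eval₂_X_mul, eval₂_C, RingHom.comp_apply _ _ (coeff _ 0),
        k3, map_zero, add_zero, mul_left_comm, ε2, mul_zero, zero_add, (F j).nat] at k4
      exact k4) i
  rw [e1, map_one, map_one, mul_one] at this
  exact one_ne_zero (congrArg TrivSqZeroExt.snd this)

/-- the same, at a point with integral residues -/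
theorem hensZ [Finite ι] {p : ℕ} (hp : (p : ResidueField V) = 0) (F : κ → Px ι) (z z' : ι → V)
    (a : ι → ℤ) (h : ∀ i, residue V (z i) = a i) (h' : ∀ i, residue V (z' i) = a i)
    (hF : ∀ j, (F j).ev V z = (F j).ev V z')
    (tan : ∀ (S : Type) [CommRing S] (y : ι → S), (p : S) = 0 → (∀ a b, y a * y b = 0) →
      (∀ j, (F j).ev S (fun i => a i + y i) = (F j).ev S fun i => a i) → ∀ i, y i = 0) : z = z' :=
  hens V F z z' (fun i => (h i).trans (h' i).symm) hF fun S _ φ y h1 h2 =>
    tan S y (by rw [← map_natCast φ, hp, map_zero]) h1 (by simpa only [h', map_intCast] using h2)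

/-- fractions `m / n` with `n a = m` and `n b = 1` modulo `p` -/
theorem frac {p : ℕ} (hp : (p : ResidueField V) = 0) (m n a b : ℤ) (h1 : (p : ℤ) ∣ n * a - m)
    (h2 : (p : ℤ) ∣ n * b - 1) : ∃ v : V, (v : ℂ) = m / n ∧ residue V v = a := by
  have k : ∀ x y : ℤ, (p : ℤ) ∣ x - y → (x : ResidueField V) = y := fun x y ⟨c, hc⟩ => by
    rw [← sub_eq_zero, ← Int.cast_sub, hc, Int.cast_mul, Int.cast_natCast, hp, zero_mul]
  have h3 : (n : ResidueField V) ≠ 0 := fun q => by simpa [q] using k _ _ h2
  obtain ⟨u, hu⟩ : IsUnit (n : V) := (residue_ne_zero_iff_isUnit _).1 (by rwa [map_intCast])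
  have h4 : (n : V) * (m * u⁻¹) = m := by rw [← hu, mul_left_comm, u.mul_inv, mul_one]
  refine ⟨m * u⁻¹, eq_div_of_mul_eq (fun q => u.ne_zero (hu.trans (Subtype.ext q))) ?_,
    mul_left_cancel₀ h3 ?_⟩
  · rw [mul_comm]
    exact congrArg Subtype.val h4
  · have := congrArg (residue V) h4
    rw [map_mul, map_intCast, map_intCast] at this
    rw [this, ← k _ _ h1, Int.cast_mul]

/-- roots of monic quadratic equations -/
theorem quad {x : ℂ} (b c : V) (h : x ^ 2 + b * x + c = 0) : x ∈ V := by
  refine (V.mem_or_inv_mem x).elim id fun k => ?_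
  rcases eq_or_ne x 0 with rfl | h0
  · exact V.zero_mem
  have : x = -(b + c * x⁻¹) := by
    field_simp
    linear_combination h
  rw [this]
  exact V.neg_mem _ (V.add_mem _ _ b.2 (V.mul_mem _ _ c.2 k))

/-- integral polynomials as expressions -/
def Px.mv (f : MvPolynomial ι ℤ) : Px ι :=
  ⟨fun _ _ x => MvPolynomial.aeval x f, fun _ _ _ _ φ x => by
    simpa using MvPolynomial.comp_aeval_apply x φ.toIntAlgHom f⟩

end Vale.Agent.P280Z.Al.Val
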